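import Vale.Agent.P014Y.Ln.All1
import Vale.Agent.P014Y.W1.All

/-! # P014 Y, block LN: the exports -/

namespace Vale.Agent.P014Y.Ln

theorem anb_all : ANB := anb_w W1.w1

theorem ana_all : Tp.ANA := ana_b anb_all

end Vale.Agent.P014Y.Ln
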