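import Vale.Agent.P014Y.Ln.Bex
import Vale.Agent.P004C.Ln.Iot

/-!
# P014 Y, block LN: the place `v` (row IOT)
-/

set_option linter.all false

open NumberField Module
open scoped Classical Pointwise ComplexConjugate

noncomputable section

namespace Vale.Agent.P014Y.Ln

open Vale.Agent.P022 (Qb GQ below)
open Vale.Agent.P027M.M (io)
open Vale.Agent.P022E.GW (Ov)
open P004K (Oc JJ Zp)
open P004F.Qx (Vp)
open P004F.Qx.Fg
open P004C.Wa (Kd)
open P004C.Ln (Jc)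
open P014Y.C (Base Lk)

namespace Io

/-- the absolute value attached to an embedding of `ℂ` -/
def av (ι : ℂ →+* ℂ_[3]) : AbsoluteValue ℂ ℝ where
  toFun z := ‖ι z‖
  map_mul' x y := by rw [map_mul, norm_mul]
  nonneg' x := norm_nonneg _
  eq_zero' x := by rw [norm_eq_zero, map_eq_zero]
  add_le' x y := by rw [map_add]; exact norm_add_le _ _

theorem av_apply (ι : ℂ →+* ℂ_[3]) (z : ℂ) : av ι z = ‖ι z‖ := rfl

theorem nm_three : ‖(3 : ℂ_[3])‖ = 1 / 3 := by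
  have := (PadicComplex.norm_extends' 3 ((3 : ℕ) : ℚ_[3])).trans Padic.norm_p
  rw [map_natCast, PadicComplex.coe_natCast] at this
  simpa using this

theorem na (ι : ℂ →+* ℂ_[3]) : IsNonarchimedean (av ι) := fun x y => by
  simp only [av_apply, map_add]
  exact IsUltrametricDist.norm_add_le_max _ _

theorem v3 (ι : ℂ →+* ℂ_[3]) : V3 (av ι) := ⟨na ι, by rw [av_apply, map_ofNat, nm_three]⟩

theorem ex_pl {P : Ideal (𝓞 Qb)} (h : Ov 3 P) : ∃ ι V, Pl ι V P := by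
  have h0 : P ≠ ⊥ := fun e => Nat.cast_ne_zero.2 three_ne_zero (Ideal.mem_bot.1 (e ▸ h.2.2))
  obtain ⟨ι, -⟩ := P010M6.exists_iota 3 (algebraMap ℚ ℂ) (algebraMap ℚ ℂ_[3])
  obtain ⟨Q, m⟩ : ∃ Q : Ideal (𝓞 Qb), ∀ x, x ∈ Q ↔ ‖ι (io x)‖ < 1 := ⟨
    { carrier := {x | av ι (io x) < 1}
      add_mem' := fun {a b} h k => by
        simp only [Set.mem_setOf_eq, map_add]
        exact (na ι _ _).trans_lt (max_lt h k)
      zero_mem' := by simp
      smul_mem' := fun c x h => by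
        simp only [Set.mem_setOf_eq, smul_eq_mul, map_mul]
        exact mul_lt_one_of_nonneg_of_lt_one_right (int_le (na ι) c) (apply_nonneg _ _) h },
    fun _ => Iff.rfl⟩
  have p : Q.IsPrime := ⟨(Ideal.ne_top_iff_one _).2 (by simp [m]), fun {a b} k => by_contra fun n => by
    simp only [m, not_or, not_lt, map_mul, norm_mul] at k n
    exact k.not_ge (one_le_mul_of_one_le_of_one_le n.1 n.2)⟩
  have t : ((3 : ℕ) : 𝓞 Qb) ∈ Q := by
    simp only [m, map_natCast]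
    rw [Nat.cast_ofNat, nm_three]
    norm_num
  obtain ⟨g, hg⟩ := P022.H916.exists_smul (algebraMap ℚ Qb) h.2.1 p (Ideal.ext fun x => by
    obtain ⟨n, rfl⟩ : ∃ n : ℤ, (n : 𝓞 ℚ) = x :=
      ⟨Rat.ringOfIntegersEquiv x, Rat.ringOfIntegersEquiv.injective (by simp)⟩
    simp only [below, Ideal.mem_comap, map_intCast, int_mem h.2.1 h.1 h.2.2, int_mem p h.1 t])
  obtain ⟨σ, hσ⟩ := P004K.ex_ex g
  refine ⟨(ι : ℂ →+* ℂ_[3]).comp σ, av _, ι.bijective.comp σ.bijective, fun _ => rfl,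
    vp_of h.2.1 h0 (na _) fun x => ?_⟩
  rw [← Ideal.smul_mem_pointwise_smul_iff (a := (g : GQ)), ← hg, m]
  exact iff_of_eq (congrArg (‖ι ·‖ < 1) (hσ x))

variable {K : Type} [Field K] [NumberField K] {J : K →+* ℂ} {D : ℕ} {θ : 𝓞 K}
  {V : AbsoluteValue ℂ ℝ}

/-- the residue of the generator -/
theorem sg (h : V3 V) (k : Kd J D θ) (d : D % 3 = 2) :
    ∃ u : ℤ, V (J θ - u) ≤ 1 / 3 ∧ V (J θ + u) = 1 := by
  obtain ⟨m, hm⟩ : ∃ m : ℕ, D + 1 = 3 * m := ⟨(D + 1) / 3, by omega⟩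
  have e : (J θ - 1) * (J θ + 1) = 3 * (-m : ℤ) := by
    have := congrArg (Nat.cast : ℕ → ℂ) hm
    push_cast at this ⊢
    linear_combination (P004C.Wa.Cj.jt_re k).2 - this
  have p := Bx.int3 h (-m)
  rw [← e, map_mul] at p
  have a : V (J θ - 1) ≤ 1 := by simpa using Bx.le_one h.1 k (θ - 1)
  have b : V (J θ + 1) ≤ 1 := by simpa using Bx.le_one h.1 k (θ + 1)
  have t : V (-2) = 1 := Bx.one_of h.1 (by
    rw [show (-2 - 1 : ℂ) = -3 by norm_num, V.map_neg, h.2]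
    norm_num)
  have s := Bx.sub_le h.1 (J θ - 1) (J θ + 1)
  rw [show J θ - 1 - (J θ + 1) = -2 by ring, t] at s
  rcases le_max_iff.1 s with s | s
  · exact ⟨-1, by simpa [a.antisymm s] using p, by simpa [← sub_eq_add_neg] using a.antisymm s⟩
  · exact ⟨1, by simpa [b.antisymm s] using p, by simpa using b.antisymm s⟩

/-- the residue field has three elements -/
theorem res (h : V3 V) (k : Kd J D θ) (d : D % 3 = 2) (x : 𝓞 K) :
    ∃ c : ℤ, V (J x - c) ≤ 1 / 3 := by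
  obtain ⟨u, a, -⟩ := sg h k d
  obtain ⟨s, c⟩ := P004C.Wa.Cj.ex_cg k
  obtain ⟨t, ht⟩ := c.fix (x + s x) (by rw [map_add, c.ss, add_comm])
  obtain ⟨r, hr⟩ := c.sub x
  have e : 2 * J x = t + r * J θ := by
    have : 2 * x = t + r * θ := by linear_combination ht + hr
    simpa [map_ofNat] using congrArg (fun y : 𝓞 K => J y) this
  refine ⟨2 * t + 2 * r * u, ?_⟩
  rw [show J x - (2 * t + 2 * r * u : ℤ) = (2 * r : ℤ) * (J θ - u) - 3 * J x by
    push_cast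
    linear_combination 2 * e]
  refine (Bx.sub_le h.1 _ _).trans (max_le ?_ ?_) <;> rw [map_mul]
  · exact (mul_le_of_le_one_left (V.nonneg _) h.1.apply_intCast_le_one).trans a
  · exact h.2 ▸ mul_le_of_le_one_right (V.nonneg _) (Bx.le_one h.1 k x)

theorem spl (h : V3 V) (k : Kd J D θ) (d : D % 3 = 2) :
    ∃ x : 𝓞 K, V (J x) < 1 ∧ V (conj (J x)) = 1 := by
  obtain ⟨u, a, b⟩ := sg h k d
  obtain ⟨s, c⟩ := P004C.Wa.Cj.ex_cg k
  refine ⟨θ - u, by simpa using a.trans_lt (by norm_num), ?_⟩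
  rw [← c.cj, map_sub, c.st, map_intCast, ← b, ← V.map_neg (J θ + u)]
  simp [add_comm, sub_eq_add_neg]

theorem lk (j : K →+* Qb) : Lk (Jc j) = Oc (JJ j) 1 := P004C.Ln.Io.lk j

end Io

open Io in
/-- **IOT** -/
theorem iot : IOT := by
  refine fun P hP => ⟨ex_pl hP, fun ι V h => ?_⟩
  have v : V3 V := ⟨h.vp.1, by rw [h.eq, map_ofNat, nm_three]⟩
  refine ⟨v, fun K _ _ j D θ k d3 => ?_⟩
  have im := P004C.Ln.Io.im k
  obtain ⟨η, hη⟩ := P004K.Rc.iq0 j ⟨k.two, im⟩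
  have l : P027H.IsLat (Lk (Jc j)) := lk j ▸ P004K.Hg.Bs.lat ⟨hη.1, hη.2⟩ one_pos
  have d := norm_pos_iff.2 ((map_ne_zero ι).2 (P004K.Gm.disc_ne l))
  refine ⟨⟨_, k.two, im, k.upm, by simpa only [h.eq] using spl v k d3, Real.rpow_pos_of_pos d _,
    Real.rpow_inv_natCast_pow d.le (by norm_num), h.bij.2⟩,
    fun x => ⟨Bx.le_one v.1 k x, ?_, res v k d3 x⟩, lk j⟩
  refine ((h.vp.2 (j x)).2.symm.trans ⟨fun ⟨s, t, a, b, c⟩ => ?_, fun a =>
    ⟨1, RingOfIntegers.mapRingHom j x, hP.2.1.one_notMem, a, by simp⟩⟩)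
  have : s * RingOfIntegers.mapRingHom j x = t := RingOfIntegers.ext c
  exact (hP.2.1.mem_or_mem (this ▸ b)).resolve_left a

end Vale.Agent.P014Y.Ln
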