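import Vale.Agent.P014Y.Ln.St1
import Vale.Agent.P004C.Ln.Lvx

/-!
# P014 Y, block LN: the level ideal exists
-/

set_option linter.all false

open NumberField Module
open scoped Classical NumberTheorySymbols

noncomputable section

namespace Vale.Agent.P014Y.Ln

open Vale.Agent.P022 (Qb GQ GK below)
open P004K (Cn Cop)
open P014Y.F (Crv Fld)
open P004F.Qx (IM)
open P004R.Qf (sp_list sp_sq sp_mem sp_one cn_nm)
open P004C.Ln (Jc)
open P004C.Ln.Lx (cn_of nm' sp_symm max_of)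

namespace Lx

theorem pr (e : Crv) : ∀ p ∈ e.S, p.Prime := fun p k => (e.ov p k).1

theorem thr (e : Crv) : 3 ∈ e.S := e.pm

theorem dvd_iff (e : Crv) {p : ℕ} (hp : p.Prime) : p ∣ e.S.prod ↔ p ∈ e.S :=
  ⟨mem_list_primes_of_dvd_prod hp.prime fun q k => (pr e q k).prime, List.dvd_prod⟩

theorem third (e : Crv) : e.S.prod / 3 = (e.S.erase 3).prod := by
  rw [← List.prod_erase (thr e), Nat.mul_div_cancel_left _ three_pos]

theorem dvd_third (e : Crv) {p : ℕ} (hp : p.Prime) : p ∣ e.S.prod / 3 ↔ p ∈ e.S ∧ p ≠ 3 := by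
  rw [third, and_comm, ← e.nd.mem_erase_iff]
  exact ⟨mem_list_primes_of_dvd_prod hp.prime fun q k => (pr e q (List.mem_of_mem_erase k)).prime,
    List.dvd_prod⟩

theorem kd {e : Crv} (b : Fld e) : P004C.Wa.Kd (Jc b.j) b.δ' b.θ :=
  ⟨b.iq.two, b.upm, b.adm.sq, b.adm.m8, b.th, b.im⟩

theorem nd {e : Crv} (b : Fld e) {p : ℕ} (h : p ∈ e.S) : ¬ p ∣ b.δ' := fun d => by
  rcases eq_or_ne p 2 with rfl | n
  · have := b.adm.m8
    omega
  · have k := b.adm.spl p h n
    have : NeZero p := ⟨(pr e p h).ne_zero⟩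
    rw [jacobiSym.eq_zero_iff_not_coprime.2] at k
    · exact zero_ne_one k
    · rw [Int.neg_gcd, Int.gcd_natCast_natCast, Nat.gcd_eq_right d]
      exact (pr e p h).one_lt.ne'

theorem m3 {e : Crv} (b : Fld e) : b.δ' % 3 = 2 := by
  have k := b.adm.spl 3 (thr e) (by norm_num)
  have := nd b (thr e)
  by_contra c
  rw [jacobiSym.mod_left' (a₂ := 2) (by omega)] at k
  norm_num at k

end Lx

open Lx

theorem lvx : LVX := fun e b => by
  have hp := pr e
  refine ⟨kd b, m3 b, fun d => ((dvd_third e Nat.prime_three).1 d).2 rfl,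
    Nat.mul_div_cancel' (List.dvd_prod (thr e)),
    fun p h => dvd_iff e h, fun p h d => by_contra fun k => (e.bad p h k).1 d,
    fun m m0 dm hm => ?_⟩
  have hL : ∀ p ∈ m.primeFactorsList, p ∈ e.S := fun p k =>
    hm p (Nat.prime_of_mem_primeFactorsList k) (Nat.dvd_of_mem_primeFactorsList k)
  have h3 : 3 ∈ m.primeFactorsList := (Nat.mem_primeFactorsList m0.ne').2
    ⟨Nat.prime_three, (List.dvd_prod (thr e)).trans dm⟩
  have s := sp_list hp b.ch.spl _ hL 1 ⊤ ⊤ one_pos sp_one (by simp)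
  have s' := sp_list hp (fun p k => sp_symm b.iq.two (hp p k) (b.ch.spl p k)) _ hL 1 ⊤ ⊤ one_pos
    sp_one (by simp)
  have s2 := fun N I I' (c : P004F.Qx.Ch b.j N I I' e.S e.P b.Q b.φ) (n0 : 0 < N) =>
    (sp_list hp c.spl (e.S ++ e.S ++ m.primeFactorsList) (fun p k => by
      simp only [List.mem_append, or_self] at k
      exact k.elim id (hL p)) _ _ _ n0 c.lev c.cop).cop
  simp only [List.map_append, List.prod_append] at s2
  rw [Nat.prod_primeFactorsList m0.ne', one_mul, Ideal.top_mul, Ideal.top_mul] at s s'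
  have v := Ideal.le_of_dvd (List.dvd_prod (List.mem_map_of_mem
    (f := fun p => below b.j (e.P p)) h3))
  have q := Ideal.le_of_dvd (List.dvd_prod (List.mem_map_of_mem (f := b.Q) h3))
  have ts : ∀ w : Ideal (𝓞 b.K), w.IsPrime → (m.primeFactorsList.map b.Q).prod ≤ w → tS b ≤ w := by
    intro w hw le
    rw [← Multiset.prod_coe] at le
    obtain ⟨I, hI, le⟩ := hw.multiset_prod_le.1 le
    obtain ⟨p, k, rfl⟩ := List.mem_map.1 (Multiset.mem_coe.1 hI)
    rcases eq_or_ne p 3 with rfl | n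
    · exact Ideal.mul_le_left.trans le
    · obtain ⟨c, hc⟩ := (dvd_third e (hp p (hL p k))).2 ⟨hL p k, n⟩
      refine Ideal.mul_le_right.trans ((Ideal.span_singleton_le_iff_mem _).2 ?_)
      rw [hc, Nat.cast_mul]
      exact w.mul_mem_right _ (le (sp_mem (b.ch.spl p (hL p k))).2)
  generalize (m.primeFactorsList.map fun p => below b.j (e.P p)).prod = n at *
  generalize (m.primeFactorsList.map b.Q).prod = n' at *
  have a2 := b.ch.spl 3 (thr e)
  have mx := max_of Nat.prime_three (cn_nm a2.cn)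
  have mx' := max_of Nat.prime_three (nm' b.iq.two three_pos a2)
  obtain ⟨x, hx, ν, hν, e1⟩ := Submodule.mem_sup.1 ((Ideal.eq_top_iff_one _).1
    (Ideal.isCoprime_iff_sup_eq.1 ((Ideal.isCoprime_iff_sup_eq.2 s.cop).pow (m := 2) (n := 2))))
  refine ⟨n, n', ν, ⟨m0, s.cop, s.mul, s.cn.2, s'.cn.2, cn_nm s.cn⟩, v, ?_, fun N I I' ch dN => ?_, q,
    fun w hw k => ?_, ts, ?_, hν, ?_⟩
  · by_contra k
    exact mx.ne_top (top_le_iff.1 (s.cop ▸ sup_le v fun x hx => by_contra fun z => k ⟨x, hx, z⟩))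
  · have n0 : 0 < N := Nat.pos_of_dvd_of_pos ((dvd_mul_right _ _).trans dN) m0
    have s3 := sp_sq hp ch.spl (fun _ => id) n0 ch.lev ch.cop
    have c : IsCoprime (IM b.j I e.S e.P) n' := Ideal.isCoprime_iff_sup_eq.2 (top_le_iff.1
      (s2 N I I' ch n0 ▸ sup_le_sup (by rw [← mul_assoc, ← pow_two]; exact Ideal.mul_le_left)
        (by rw [← mul_assoc]; exact Ideal.mul_le_right)))
    refine ⟨s3.cn, Ideal.le_of_dvd ((c.pow_right (n := 2)).dvd_of_dvd_mul_right ?_)⟩
    rw [← mul_pow, s.mul, Ideal.span_singleton_pow, Ideal.dvd_span_singleton]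
    obtain ⟨t, rfl⟩ := dN
    rw [show ((N * e.S.prod * t : ℕ) : 𝓞 b.K) ^ 2 = (N * e.S.prod ^ 2 : ℕ) * (N * t ^ 2) by
      push_cast; ring]
    exact Ideal.mul_mem_right _ _ (sp_mem s3).1
  · have : below b.j (e.P 3) * b.Q 3 ≤ w := by
      rw [a2.mul, Ideal.span_singleton_le_iff_mem]
      exact_mod_cast k
    exact (hw.mul_le.1 this).imp (fun h => (mx.eq_of_le hw.ne_top h).symm)
      fun h => (mx'.eq_of_le hw.ne_top h).symm
  · exact Nat.Coprime.symm (Nat.coprime_of_dvd fun p h d => nd b (hm p h d))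
  · rw [show ν - 1 = -x by linear_combination e1]
    exact neg_mem hx

end Vale.Agent.P014Y.Ln
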