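import Vale.Agent.P014Y.Ln.St1
import Vale.Agent.P004C.Ln.Sml

/-!
# P014 Y, block LN: if the anchor fails then the period is small
-/

set_option autoImplicit false
set_option linter.all false

open NumberField Module UpperHalfPlane
open scoped Classical Real NumberTheorySymbols

noncomputable section

namespace Vale.Agent.P014Y.Ln

open Vale.Agent.P022 (Qb GQ GK below)
open Vale.Agent.P027H Vale.Agent.P027M.M
open P004K (Cn Cop HG1 CJ0 jL Zp)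
open P004F.Qx (IM QEXP)
open P004C.Ln (Jc Jo)
open P004C.Ln.Sm0

theorem sml (qe : QEXP) (lkg : LKG) (sum : SUM) (xi : XI) (iot : IOT) (lvx : LVX) (hg1 : HG1)
    (cj : CJ0) : SML := by
  intro e e₂ eS ι V pl m G A ρ m0 dm hm law hG ρ1 hA
  have hp : ∀ p ∈ e.S, p.Prime := fun p k => (e.ov p k).1
  have v2 := ((iot _ (e.ov 3 e.pm)).2 ι V pl).1
  have hV := v2.1
  obtain ⟨u, hu, s, hs, hq, h1⟩ := qe _ _ _ _ _ _ _ _ _ _ e₂.rn e₂.par e.S e.nd hp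
  obtain ⟨T₁, h1⟩ := h1 e.P fun p k => (e.ov p k).2
  have dM : e₂.N * e.S.prod ^ 2 ∣ m ^ 2 :=
    (Dvd.intro e₂.N (by ring)).trans (pow_dvd_pow_of_dvd dm 2)
  have hM := Nat.pos_of_dvd_of_pos dM (pow_pos m0 2)
  obtain ⟨T₂, δ₀, d0, h2⟩ := lkg V _ (e.ov 3 e.pm) v2 pl.vp _ m m0 dM u hu s hs (hq 3 e.pm).1
    G A ρ law hG ρ1 (hA s (hq 3 e.pm).2)
  refine ⟨max T₁ T₂, fun b hb I I' Y hd Ω ba n n' ν lv β δ₁ d1 hβ => ⟨max (max δ₀ δ₁) (1 / 3),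
    max_lt (max_lt d0 d1) (by norm_num), le_max_right _ _, le_max_of_le_left (le_max_right _ _),
    fun n₀ c χ ζ ξ ly l an => ?_⟩⟩
  obtain ⟨cn, im⟩ := lv.im _ I I' hd.ch dm
  obtain ⟨Ω₀, hΩ, h2⟩ := h2 _ (le_of_max_le_right hb) b.K b.j b.θ (lvx e b).1 n n' _ ν lv.sp lv.v
    cn im lv.nu lv.nu1
  have eΩ : V Ω₀ = Ω := (pow_left_inj₀ (V.nonneg _) ba.pos.le (by norm_num : 12 ≠ 0)).1
    (hΩ.trans ((pl.eq _).trans ba.per.symm))
  have c0 : 0 < c := Nat.pos_of_ne_zero ly.sq.ne_zero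
  have cm : c.Coprime m := Nat.coprime_of_dvd fun p h d d' => (ly.out p h d).1 (hm p h d')
  have cp := cm.coprime_dvd_right dm
  obtain ⟨T, tv, an⟩ : ∃ T, b.Tv c T ∧
      ∀ i < l, Zp (e.P 3) (∑ g ∈ T, ((χ g).choose i : Qb) * hh b e₂ Y c g) := by
    rcases l with _ | l
    · exact ((xi e b).1 c c0).imp fun T h => ⟨h, fun i k => absurd k (Nat.not_lt_zero i)⟩
    obtain ⟨T, an⟩ := not_forall.1 (an l l.lt_succ_self)
    obtain ⟨tv, an⟩ := Classical.not_imp.1 an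
    exact ⟨T, tv, fun i hi => by_contra fun z => an ⟨i, Nat.lt_succ_iff.1 hi, z⟩⟩
  obtain ⟨B, ro, ar⟩ := ((xi e b).2 n₀ c χ ζ ly.ad ly.sq ly.rt).2.2 T m m0 tv
  obtain ⟨τ, hτ⟩ := (hg1 b.K b.j b.iq _ c _ hM c0 ((cm.pow_right 2).coprime_dvd_right dM) cn).1
  have vJ : V (J(c | 3) : ℤ) = 1 := by
    have := jacobiSym.sq_one (a := c) (b := 3) ((Int.gcd_natCast_natCast c 3).trans
      (cm.coprime_dvd_right (((List.dvd_prod e.pm).mul_left _).trans dm)))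
    exact rt two_ne_zero (by exact_mod_cast this)
  have vW : V (J(c | 3) * Ω₀) = V Ω₀ := by rw [V.map_mul, vJ, one_mul]
  have key : ∀ g : T, V (io (hh b e₂ Y c g)) ≤ 1 ∧ V (2 * π * P004C.Wa.lf 1 (m ^ 2) G
      (P004K.st (Jo (Jc b.j)) (B g) (P004K.Oc (Jo (Jc b.j)) c)) (c * Jc b.j ν / (m ^ 2 : ℕ)) -
      J(c | 3) * Ω₀ * io (hh b e₂ Y c g)) ≤ δ₀ * V (J(c | 3) * Ω₀) := fun g => by
    obtain ⟨σ, hσ⟩ := P004K.ex_ex g
    obtain ⟨τ', c'⟩ := (cj σ _ hM).1 τ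
    rw [vW]
    exact h2 c (B g) g σ τ τ' _ c0 cm (ro.cop g) (ar g) hσ hτ c' ((h1 b.δ' (le_of_max_le_left hb)
      b.adm.sq b.K b.j b.iq b.θ b.th _ _ _ _ hd.ch c c0 cp _ (hd.hg c c0 cp.coprime_mul_right_right)
      g (tv.1 g g.2) 3 e.pm).2 σ τ τ' hσ hτ c')
  have z1 : V ζ = 1 := rt (pow_ne_zero _ three_ne_zero) ly.rt
  have s1 := sum e b e₂ I I' Y hd V v2 pl.vp c l χ ζ T c0 cp (by
      have := hV ζ (-1)
      rwa [V.map_neg, V.map_one, z1, max_self, ← sub_eq_add_neg] at this)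
    (fun g hg => ⟨tv.1 g hg, (pl.vp.2 _).1.2 (key ⟨g, hg⟩).1⟩) an
  refine ⟨T, inferInstance, B, ro, ?_⟩
  rw [← Finset.sum_coe_sort] at s1
  have hξ : ∀ g : T, ξ (B g) = ζ ^ χ g := fun g => ly.xi.1 _ _ (cop_l (ro.cop g)) (ar g)
  simp only [← hξ] at s1
  rw [← eΩ, ← vW]
  exact fin hV (fun g => by rw [hξ, V.map_pow, z1, one_pow]) (fun g => hβ _ (cop_r (ro.cop g)))
    d1.le key (s1.trans (max_le_max_right _ (le_max_right _ _)))
    (le_max_of_le_left (le_max_of_le_left (le_max_left _ _)))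
    (le_max_of_le_left (le_max_of_le_left (le_max_right _ _)))

end Vale.Agent.P014Y.Ln
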