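import Vale.Agent.P014Y.Ln.St1
import Vale.Agent.P004C.Ln.Xi

/-!
# P014 Y, block LN: ring class characters from the Galois side, small sums
-/

set_option autoImplicit false
set_option linter.all false

open NumberField Ideal
open scoped Classical ComplexConjugate

noncomputable section

namespace Vale.Agent.P014Y.Ln

open Vale.Agent.P022 (Qb GQ GK below)
open Vale.Agent.P027M.M (io)
open P004K (Cop Iq Ar Hc RC1 RC2)
open P004C.Ln.Xx
open P027M.S (Inert)
open P004F.Qx (UNV)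

theorem xi (r0 : RC1) (r2 : RC2) : XI := by
  refine fun e b => ⟨fun c hc => ?_, fun n c χ ζ ad sq hz => ?_⟩
  · haveI := Subgroup.quotient_finite_of_isOpen _ (r0 b.K b.j b.iq c hc).2.1
    haveI := Fintype.ofFinite (GQ ⧸ Hc b.j c)
    refine ⟨(Finset.univ.image fun q : GQ ⧸ Hc b.j c => q.out).filter (· ∈ b.Γ),
      fun g k => (Finset.mem_filter.1 k).2, fun g k => ?_⟩
    have m : g⁻¹ * (g : GQ ⧸ Hc b.j c).out ∈ Hc b.j c := QuotientGroup.eq.1 (Quotient.out_eq _).symm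
    refine ⟨_, ⟨Finset.mem_filter.2 ⟨Finset.mem_image_of_mem _ (Finset.mem_univ _), ?_⟩, m⟩,
      fun h ⟨a, a'⟩ => ?_⟩
    · simpa using mul_mem k m.1
    · obtain ⟨q, -, rfl⟩ := Finset.mem_image.1 (Finset.mem_filter.1 a).1
      rw [QuotientGroup.eq.2 a', QuotientGroup.out_eq']
  replace hz : ζ ^ P014U.pp ^ n = 1 := hz
  have hc : 0 < c := sq.ne_zero.bot_lt
  obtain ⟨r1, r, r3, r4, r5, -⟩ := r2 b.K b.j b.iq c hc
  have k1 : ∀ g ∈ Hc b.j c, ζ ^ χ g = 1 := fun g k => by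
    obtain ⟨d, hd⟩ := ad.ker g k
    rw [hd, pow_mul, hz, one_pow]
  have km : ∀ g ∈ b.Γ, ∀ h ∈ b.Γ, ζ ^ χ (g * h) = ζ ^ χ g * ζ ^ χ h := fun g p h q =>
    (pow_eq_pow_of_modEq (ad.add g p h q) hz).trans (pow_add _ _ _)
  have z0 : ζ ≠ 0 := fun k => by simp [k] at hz
  refine ⟨⟨fun I => if h : Cop c I then ζ ^ χ (r1 I h).choose else 0, fun I g p a => ?_,
    fun I p => dif_neg p⟩, fun ξ h => ?_, fun T t ht hT => ?_⟩
  · have s := (r1 I p).choose_spec
    have k := (r4 _ _ _ s).1 a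
    refine (dif_pos p).trans ?_
    rw [← mul_inv_cancel_left (r1 I p).choose g, km _ s.1 _ k.1, k1 _ k, mul_one]
  · have prn : ∀ (k : ℤ) (a : 𝓞 b.K), Cop c (span {k + c * a}) → ξ (span {k + c * a}) = 1 :=
      fun k a p => by
      obtain ⟨g, q⟩ := r1 _ p
      rw [h.1 _ g p q, k1 g ((r5 _ _ p q).2 ⟨_, _, rfl⟩)]
    have zr : ∀ I, ξ I = 0 ↔ ¬ Cop c I := fun I => ⟨fun k p => by
      obtain ⟨g, q⟩ := r1 _ p
      exact pow_ne_zero _ z0 ((h.1 _ g p q).symm.trans k), h.2 I⟩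
    have mul : ∀ I I', ξ (I * I') = ξ I * ξ I' := fun I I' => by
      by_cases p : Cop c (I * I')
      · obtain ⟨u, v⟩ := cop_mul.1 p
        obtain ⟨g, q⟩ := r1 _ u
        obtain ⟨g', q'⟩ := r1 _ v
        rw [h.1 _ _ p (r3 _ _ _ _ u v q q'), h.1 _ _ u q, h.1 _ _ v q', km _ q.1 _ q'.1]
      · rw [h.2 _ p, eq_comm, mul_eq_zero, zr, zr, ← not_and_or, ← cop_mul]
        exact p
    have rat : ∀ k : ℤ, k ≠ 0 → IsCoprime k (c : ℤ) → ξ (span {(k : 𝓞 b.K)}) = 1 := fun k p q => by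
      simpa using prn k 0 (cop_span.2 ⟨by simpa using p, by simpa using q.intCast (R := 𝓞 b.K)⟩)
    refine ⟨fun I => (em (Cop c I)).symm.imp (h.2 I) fun p => ?_, fun hr => ⟨⟨?_, ?_, mul,
      fun I => (zr I).trans (by rw [Cop, not_and_or, not_not]), fun x n p => ?_⟩, rat,
      fun q hq d => ?_⟩⟩
    · obtain ⟨g, q⟩ := r1 _ p
      rw [h.1 _ g p q, ← pow_mul, mul_comm, pow_mul, show ζ ^ 3 ^ n = 1 from hz, one_pow]
    · simpa using hc.ne'
    · simpa using rat 1 one_ne_zero isCoprime_one_left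
    · obtain ⟨a, k⟩ := mem_span_singleton'.1 p
      obtain rfl : x = (1 : ℤ) + c * a := by push_cast; linear_combination -k
      exact prn 1 a (cop_span.2 ⟨n, 1, -a, by push_cast; ring⟩)
    · obtain ⟨P, o, g, hg, i, n⟩ := hr q hq d
      obtain ⟨s, rfl⟩ := d
      have cp := Nat.coprime_of_squarefree_mul sq
      have s0 := Nat.pos_of_mul_pos_left hc
      rw [Nat.mul_div_cancel_left _ hq.pos]
      obtain ⟨I, p, a⟩ := r g hg 1 one_pos
      replace p := cop_le p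
      obtain ⟨-, -, -, -, t5, t6, -⟩ := r2 b.K b.j b.iq s s0
      have p' : Cop (s * q) I := mul_comm q s ▸ p
      obtain ⟨k, x, rfl⟩ := (t5 I g (cop_le p') (t6 q I g hq.pos p' (mul_comm q s ▸ a))).1
        (P004C.Ln.Su.in_hc r2 b.iq s0 cp o hg i)
      obtain ⟨u, v, y⟩ := (cop_int (K := b.K) (a := k) (b := s) (by simpa using
        (cop_span.1 (cop_le p')).2)).mul_left (cp.cast (R := ℤ))
      obtain ⟨u', v', y'⟩ := cp.cast (R := ℤ)
      have c1 : IsCoprime (u * q + v' * s) (q : ℤ) := ⟨1, u' - u, by linear_combination y'⟩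
      have c2 : IsCoprime (u * q + v' * s) (s : ℤ) := ⟨k, v - k * v', by linear_combination y⟩
      have y0 : (u : 𝓞 b.K) * (k * q) + v * s = 1 := by exact_mod_cast y
      have f : ξ (span {((u * q + v' * s : ℤ) : 𝓞 b.K) * (k + s * x)}) = ζ ^ χ g := by
        rw [← span_singleton_mul_span_singleton, mul, h.1 _ g p a, rat _ (fun z => ?_)
          (Nat.cast_mul (α := ℤ) q s ▸ c1.mul_right c2), one_mul]
        rw [z, isCoprime_zero_left, Int.ofNat_isUnit] at c1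
        exact hq.not_isUnit c1
      refine ⟨_, mem_span_singleton'.2 ⟨v' * k - v + (u * q + v' * s) * x, ?_⟩,
        f ▸ pow_ne_zero _ z0, f ▸ n⟩
      push_cast
      linear_combination -y0
  · choose B h1 h2 using fun g : T => r g (hT.1 g g.2) t ht
    refine ⟨B, ⟨h1, fun I p => ?_⟩, h2⟩
    obtain ⟨g, a⟩ := r1 I p
    obtain ⟨s, ⟨u, v⟩, z⟩ := hT.2 g a.1
    exact ⟨⟨s, u⟩, (eo_iff r2 b.iq hc p (cop_le (h1 _)) a (h2 _)).2 v, fun i k =>
      Subtype.ext (z i ⟨i.2, (eo_iff r2 b.iq hc p (cop_le (h1 _)) a (h2 _)).1 k⟩)⟩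

open Finset P004C.Ln.Su in
theorem sum_row (r1 : RC1) (r2 : RC2) (hu : UNV) : SUM := by
  intro e b e₂ I I' Y hd V h2 hV c l χ ζ T hc cop hz hT hs
  have o2 := e.ov 3 e.pm
  have c2 : Nat.Coprime 3 c :=
    (cop.coprime_dvd_right ((List.dvd_prod e.pm).mul_left _)).symm
  have n := (r1 b.K b.j b.iq c hc).2.2.1
  have fx : ∀ g s, Inert (e.P 3) s → s (hh b e₂ Y c g) = hh b e₂ Y c g := fun g s k => by
    rw [hh, map_div₀, map_natCast, ← zf_ga, fx_ga n g (fx_dep n _ _ _ _ _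
      (hd.fx c hc (Nat.Coprime.coprime_mul_right_right cop))) s
      (in_hc r2 b.iq hc c2 o2 (b.le 3 e.pm (P022D.W.inP_le_dec k)) k)]
  obtain ⟨N, hN⟩ := (T.image χ).bddAbove
  have ex : ∀ g ∈ T, ζ ^ χ g = ∑ i ∈ range (N + 1), (ζ - 1) ^ i * (χ g).choose i := fun g k => by
    conv_lhs => rw [← sub_add_cancel ζ 1, _root_.add_pow]
    simp only [one_pow, mul_one]
    refine sum_subset (range_mono (Nat.succ_le_succ (hN (by simpa using ⟨g, k, rfl⟩))))
      fun i _ p => ?_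
    rw [Nat.choose_eq_zero_of_lt (by simpa using p), Nat.cast_zero, mul_zero]
  rw [sum_congr rfl fun g k => by rw [ex g k, sum_mul], sum_comm]
  refine sum_le h2.1 (le_max_of_le_left (by norm_num)) fun i _ => ?_
  simp only [mul_assoc, ← mul_sum]
  rw [map_mul, map_pow]
  by_cases p : i < l
  · have := (hV.2 _).1.1 (hu 3 _ o2.1 o2.2.1 o2.2.2 _ (fun s k => by
      simp only [map_sum, map_mul, map_natCast, fx _ s k]) (hs i p))
    simp only [map_div₀, map_sum, map_mul, map_natCast, Nat.cast_ofNat, map_ofNat, h2.2] at this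
    exact le_max_of_le_left ((mul_le_of_le_one_left (V.nonneg _)
      (pow_le_one₀ (V.nonneg _) hz)).trans ((div_le_one (by norm_num)).1 this))
  · refine le_max_of_le_right ((mul_le_of_le_one_right (by positivity) ?_).trans
      (pow_le_pow_of_le_one (V.nonneg _) hz (by omega)))
    refine sum_le h2.1 zero_le_one fun g k => ?_
    rw [map_mul]
    exact mul_le_one₀ (h2.1.apply_natCast_le_one) (V.nonneg _) ((hV.2 _).1.1 (hT g k).2)

end Vale.Agent.P014Y.Ln
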