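import Vale.Agent.P014Y.Ln.Lkg
import Vale.Agent.P014Y.Ln.Xi
import Vale.Agent.P014Y.Ln.Sml
import Vale.Agent.P014Y.Ln.Iot
import Vale.Agent.P014Y.Ln.Lvx
import Vale.Agent.P004K.Rc.All
import Vale.Agent.P004K.Hg.At
import Vale.Agent.P004F.Qx.Exp
import Vale.Agent.P004F.Qx.Dep
import Vale.Agent.P004F.Qx.Vex
import Vale.Agent.P004F.Qx.Unv

/-! # P014 Y, block LN: the link half without hypotheses -/

namespace Vale.Agent.P014Y.Ln

open P004K P004F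

theorem xi0 : XI := xi x_rc1 x_rc2

theorem sml0 : SML :=
  have h := hg1 Rc.iq jh x_rc1 cj0
  sml (Qx.qexp Qx.vex h (Qx.dep_row h x_rc2)) (lkg x_rc1) (sum_row x_rc1 x_rc2 Qx.unv) xi0 iot lvx
    h cj0

end Vale.Agent.P014Y.Ln
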