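import Vale.Agent.P014Y.Ln.St0
import Vale.Agent.P004C.Ln.Bex

/-!
# P014 Y, block LN, row BEX: Hecke characters of weight one which are congruent to one
-/

open NumberField Module Ideal
open scoped Classical nonZeroDivisors NumberTheorySymbols

noncomputable section

namespace Vale.Agent.P014Y.Ln

open P004K (Cn)
open P004C.Wa (Kd)
open P004C.Ln.Bx (ext root gi gi_mul gi_inj gi_one sp0 gi_sp cop_mul)

namespace Bx

variable {V : AbsoluteValue ℂ ℝ} {z w : ℂ} {ρ : ℝ}

theorem sub_le (h : IsNonarchimedean V) (z w : ℂ) : V (z - w) ≤ max (V z) (V w) := by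
  simpa [sub_eq_add_neg] using h z (-w)

theorem one_of (h : IsNonarchimedean V) (k : V (z - 1) < 1) : V z = 1 := by
  have := h.add_eq_right_of_lt (x := z - 1) (y := 1) (by simpa using k)
  rwa [sub_add_cancel, map_one] at this

theorem mul_le (h : IsNonarchimedean V) (r : ρ < 1) (k : V (z - 1) ≤ ρ) (l : V (w - 1) ≤ ρ) :
    V (z * w - 1) ≤ ρ := by
  rw [show z * w - 1 = z * (w - 1) + (z - 1) by ring]
  refine (h _ _).trans (max_le ?_ k)
  rwa [map_mul, one_of h (k.trans_lt r), one_mul]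

theorem inv_eq (h : IsNonarchimedean V) (k : V (z - 1) < 1) : V (z⁻¹ - 1) = V (z - 1) := by
  have e := one_of h k
  have z0 : z ≠ 0 := fun u => by simp [u] at e
  rw [show z⁻¹ - 1 = -(z⁻¹ * (z - 1)) by field_simp; ring, V.map_neg, map_mul, map_inv₀, e]
  simp

theorem pow_le (h : IsNonarchimedean V) (r : ρ < 1) (k : V (z - 1) ≤ ρ) (n : ℕ) :
    V (z ^ n - 1) ≤ ρ := by
  induction n with
  | zero => simpa using (V.nonneg _).trans k
  | succ n ih => rw [pow_succ]; exact mul_le h r ih k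

theorem int3 (h : V3 V) (a : ℤ) : V (3 * a) ≤ 1 / 3 := by
  rw [map_mul, h.2]
  exact mul_le_of_le_one_right (by norm_num) h.1.apply_intCast_le_one

theorem chi (h : V3 V) {a : ℤ} (k : IsCoprime a 3) : V (a * J(a | 3) - 1) ≤ 1 / 3 := by
  have e : J(a | 3) = J(a % 3 | 3) := jacobiSym.mod_left a 3
  have : a % 3 = 1 ∨ a % 3 = 2 := by
    by_contra c
    exact absurd (Int.isUnit_iff.1 (k.isUnit_of_dvd' (by omega : (3 : ℤ) ∣ a) dvd_rfl)) (by omega)
  have s : a * J(a | 3) - 1 = 3 * ((a * J(a | 3) - 1) / 3) := by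
    rcases this with q | q <;> rw [e, q] <;> norm_num <;> omega
  have := int3 h ((a * J(a | 3) - 1) / 3)
  rwa [← Int.cast_ofNat, ← Int.cast_mul, ← s, Int.cast_sub, Int.cast_mul, Int.cast_one] at this

theorem cop_eq (h : V3 V) (k : V (z - 1) < 1) {n : ℕ} (c : n.Coprime 3) :
    V (z ^ n - 1) = V (z - 1) := by
  have s : ∀ j : ℕ, V (∑ i ∈ Finset.range j, z ^ i - j) ≤ V (z - 1) := fun j => by
    induction j with
    | zero => simp
    | succ j ih =>
      rw [Finset.sum_range_succ, Nat.cast_succ, add_sub_add_comm]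
      exact (h.1 _ _).trans (max_le ih (pow_le h.1 k le_rfl j))
  have n1 : V n = 1 := by
    have := one_of h.1 ((chi h (Nat.isCoprime_iff_coprime.2 c)).trans_lt (by norm_num))
    rw [map_mul, Int.cast_natCast] at this
    have a : V n ≤ 1 := h.1.apply_natCast_le_one
    have b : V (J(n | 3) : ℤ) ≤ 1 := h.1.apply_intCast_le_one
    nlinarith [V.nonneg (n : ℂ), V.nonneg (J(n | 3) : ℤ)]
  have := h.1.add_eq_right_of_lt (x := ∑ i ∈ Finset.range n, z ^ i - n) (y := n)
    (n1 ▸ (s n).trans_lt k)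
  rw [sub_add_cancel, n1] at this
  rw [← geom_sum_mul, map_mul, this, one_mul]

/-- roots of elements which are near to one -/
theorem unif (h : V3 V) (N : ℕ) : N ≠ 0 → ∀ ρ < 1, ∃ δ < 1, ∀ z, V (z - 1) < 1 →
    V (z ^ N - 1) ≤ ρ → V (z - 1) ≤ δ := by
  induction N using Nat.strong_induction_on with
  | _ N ih =>
    intro n0 ρ r
    by_cases c : 3 ∣ N
    · obtain ⟨n, rfl⟩ := c
      obtain ⟨δ, d, H⟩ := ih n (by omega) (by omega) √√(max ρ (1 / 3))
        (Real.sqrt_lt' one_pos |>.2 (by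
          rw [one_pow]
          exact Real.sqrt_lt' one_pos |>.2 (by simp [r]; norm_num)))
      refine ⟨δ, d, fun z a b => H z a (Real.le_sqrt_of_sq_le (Real.le_sqrt_of_sq_le ?_))⟩
      have c := (pow_le h.1 a le_rfl n).trans_lt a
      calc _ = V (z ^ n - 1) * V ((z ^ n - 1) ^ 3) := by rw [map_pow]; ring
        _ ≤ V ((z ^ n - 1) ^ 3) := mul_le_of_le_one_left (V.nonneg _) c.le
        _ ≤ _ := by
          rw [show (z ^ n - 1) ^ 3 = (z ^ (3 * n) - 1) - 3 * (z ^ n * (z ^ n - 1)) by ring]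
          refine (sub_le h.1 _ _).trans (max_le_max b ?_)
          rw [map_mul, map_mul, h.2, one_of h.1 c]
          linarith
    · exact ⟨ρ, r, fun z a b =>
        cop_eq h a ((Nat.Prime.coprime_iff_not_dvd Nat.prime_three).2 c).symm ▸ b⟩

/-- the one units -/
def U1 (h : IsNonarchimedean V) : Subgroup ℂˣ where
  carrier := {z | V (z - 1) < 1}
  mul_mem' a b := (mul_le h (max_lt a b) (le_max_left _ _) (le_max_right _ _)).trans_lt (max_lt a b)
  one_mem' := by simp
  inv_mem' {x} a := by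
    show V (((x⁻¹ : ℂˣ) : ℂ) - 1) < 1
    rwa [Units.val_inv_eq_inv_val, inv_eq h a]

variable {K : Type} [Field K] [NumberField K] {J : K →+* ℂ} {D : ℕ} {θ : 𝓞 K}

theorem le_one (h : IsNonarchimedean V) (hK : Kd J D θ) (x : 𝓞 K) : V (J x) ≤ 1 := by
  obtain ⟨s, c⟩ := P004C.Wa.Cj.ex_cg hK
  obtain ⟨t, ht⟩ := c.fix (x + s x) (by rw [map_add, c.ss, add_comm])
  obtain ⟨N, hN⟩ := c.fix (x * s x) (by rw [map_mul, c.ss, mul_comm])
  have e2 : J x ^ 2 = t * J x - N := by
    have : x ^ 2 = t * x - N := by linear_combination x * ht - hN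
    simpa using congrArg (fun y : 𝓞 K => J y) this
  by_contra! u
  have := sub_le h (t * J x) N
  rw [← e2, map_pow, map_mul] at this
  have a : V t ≤ 1 := h.apply_intCast_le_one
  have b : V N ≤ 1 := h.apply_intCast_le_one
  rcases le_max_iff.1 this with v | v <;> nlinarith

theorem ex_bd (h : IsNonarchimedean V) (hK : Kd J D θ) {n : Ideal (𝓞 K)}
    (k : ∀ x ∈ n, V (J x) < 1) : ∃ ρ < 1, ∀ x ∈ n, V (J x) ≤ ρ := by
  obtain ⟨s, rfl⟩ := IsNoetherian.noetherian n
  obtain ⟨g, hg, b⟩ := (insert 0 s).exists_max_image (fun x : 𝓞 K => V (J x))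
    (Finset.insert_nonempty _ _)
  refine ⟨V (J g), ?_, fun x hx => ?_⟩
  · rcases Finset.mem_insert.1 hg with rfl | e
    · simp
    · exact k g (Submodule.subset_span e)
  · induction hx using Submodule.span_induction with
    | mem y e => exact b y (Finset.mem_insert_of_mem e)
    | zero => simp
    | add y y' _ _ e e' => simpa using (h (J y) (J y')).trans (max_le e e')
    | smul r y _ e =>
      simpa using (mul_le_of_le_one_left (V.nonneg _) (le_one h hK r)).trans e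

theorem cr {m : ℕ} (h : 3 ∣ m) : P004C.Ln.Cr m (e3 m) where
  one := by simp [e3, isCoprime_one_left]
  mul a b := by
    simp only [e3, IsCoprime.mul_left_iff, jacobiSym.mul_left]
    split_ifs <;> simp_all
  per a b e := by
    obtain ⟨c, hc⟩ := e
    obtain ⟨k, rfl⟩ := h
    rw [show a = b + (3 * k : ℕ) * c by rw [← hc]; ring]
    simp only [e3, IsCoprime.add_mul_left_left_iff]
    rw [jacobiSym.mod_left' (a₂ := b) (by push_cast; rw [mul_assoc, Int.add_mul_emod_self_left])]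
  zero a := by
    simp only [e3, ite_eq_right_iff, Int.cast_eq_zero]
    refine ⟨fun k c => ?_, fun k c => absurd c k⟩
    exact (jacobiSym.eq_zero_iff_not_coprime.1 (k c)) (Int.isCoprime_iff_gcd_eq_one.1
      (c.of_isCoprime_of_dvd_right (Int.natCast_dvd_natCast.2 h)))

end Bx

open Bx

theorem bex : BEX := by
  intro V hV K _ _ J D θ hK m n m0 m3 hn nv
  have hε := cr m3
  generalize he : e3 m = ε at hε
  have sg : ε (-1) = -1 := by
    rw [← he, e3, if_pos isCoprime_one_left.neg_left]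
    norm_num
  choose d hd using hn.2
  obtain ⟨ρ, r1, r2⟩ := ex_bd hV.1 hK nv
  have E1 : ∀ (x : 𝓞 K) (c : ℤ), x - c ∈ n → ε (d x) = ε c := fun x c h => hε.per _ _ ((hn.1 _).1 (by
    simpa using sub_mem h (hd x)))
  have E2 : ∀ x y, ε (d (x * y)) = ε (d x) * ε (d y) := fun x y => by
    rw [← hε.mul]
    refine E1 _ _ ?_
    rw [show x * y - (d x * d y : ℤ) = x * (y - d y) + d y * (x - d x) by push_cast; ring]
    exact add_mem (mul_mem_left _ _ (hd y)) (mul_mem_left _ _ (hd x))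
  have E3 : ∀ x, x - 1 ∈ n → ε (d x) = 1 := fun x h => (E1 x 1 (by simpa using h)).trans hε.one
  have E4 : ∀ x, ε (d x) ≠ 0 ↔ span {x} ⊔ n = ⊤ := fun x => by
    rw [← isCoprime_iff_sup_eq, isCoprime_iff_exists]
    refine ⟨fun h => ?_, fun ⟨a, ha, b, hb, e⟩ h => ?_⟩
    · obtain ⟨u, w, e⟩ := not_not.1 ((hε.zero _).not.1 h)
      refine ⟨u * x, mul_mem_left _ _ (mem_span_singleton_self x), w * (m : ℤ) - u * (x - d x),
        sub_mem (mul_mem_left _ _ ((hn.1 _).2 dvd_rfl)) (mul_mem_left _ _ (hd x)), ?_⟩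
      have := congrArg (Int.cast : ℤ → 𝓞 K) e
      push_cast at this ⊢
      linear_combination this
    · obtain ⟨c, rfl⟩ := mem_span_singleton'.1 ha
      have := E3 (c * x) (by rw [← e]; simpa using hb)
      rw [E2, h, mul_zero] at this
      exact zero_ne_one this
  let φ : 𝓞 K → ℂ := fun x => (J x)⁻¹ ^ 1 * ε (d x)
  have F1 : ∀ x y, φ (x * y) = φ x * φ y := fun x y => by
    simp only [φ, E2, map_mul, RingOfIntegers.coe_eq_algebraMap, mul_inv, mul_pow]
    ring
  have F2 : ∀ x y, span {x} = span {y} → φ x = φ y := fun x y e => by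
    obtain ⟨u, rfl⟩ := span_singleton_eq_span_singleton.1 e
    rw [F1]
    rcases hK.upm u with rfl | rfl
    · simp [φ, E3]
    · simp [φ, E1 (-1) (-1) (by simp), sg]
  have r3 : max ρ (1 / 3) < 1 := max_lt r1 (by norm_num)
  have F4 : ∀ x, ε (d x) ≠ 0 → V (φ x - 1) ≤ max ρ (1 / 3) := fun x h => by
    have c := not_not.1 ((hε.zero _).not.1 h)
    have q : ε (d x) = J(d x | 3) := by rw [← he, e3, if_pos c]
    have c3 := c.of_isCoprime_of_dvd_right (Int.natCast_dvd_natCast.2 m3)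
    have q2 : (J(d x | 3) : ℂ) * J(d x | 3) = 1 := by
      exact_mod_cast (sq _).symm.trans (jacobiSym.sq_one (Int.isCoprime_iff_gcd_eq_one.1 c3))
    have u : V (J x * J(d x | 3) - 1) ≤ max ρ (1 / 3) := by
      rw [show J x * J(d x | 3) - 1 = J (x - d x : 𝓞 K) * J(d x | 3) + (d x * J(d x | 3) - 1) by
        simp; ring]
      refine (hV.1 _ _).trans (max_le_max ?_ (chi hV c3))
      rw [map_mul]
      exact (mul_le_of_le_one_right (V.nonneg _) hV.1.apply_intCast_le_one).trans (r2 _ (hd x))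
    rwa [← inv_eq hV.1 (u.trans_lt r3), mul_inv, inv_eq_of_mul_eq_one_left q2, ← q,
      ← pow_one (J x)⁻¹] at u
  have F3 : ∀ x, ε (d x) ≠ 0 → φ x ≠ 0 := fun x h e => by
    have := one_of hV.1 ((F4 x h).trans_lt r3)
    simp [e] at this
  have v0 : ∀ x : 𝓞 K, ε (d x) ≠ 0 → x ≠ 0 := fun x h e => F3 x h (by simp [φ, e])
  let S₁ : Submonoid (𝓞 K) :=
    { carrier := {x | ε (d x) ≠ 0}
      mul_mem' := fun a b => by
        show ε _ ≠ 0
        rw [E2]
        exact mul_ne_zero a b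
      one_mem' := by simp [E3] }
  obtain ⟨g, g1, g2⟩ := ext (U1 hV.1) (fun N hN x hx => by
      exact root (V := V) N hN x (fun y => V (y - 1) < 1)
        (fun y _ c => by rw [V.map_sub]; exact not_lt.1 c) (by rwa [V.map_sub]))
    S₁ (fun x => gi (span {x})) φ (fun a ha b hb => gi_sp (v0 a ha) (v0 b hb))
    (fun a _ b _ => F1 a b) (fun a ha => ⟨Units.mk0 _ (F3 a ha), (F4 a ha).trans_lt r3, rfl⟩)
    fun a ha b hb e => F2 a b (gi_inj (sp0 (v0 a ha)) (sp0 (v0 b hb)) e)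
  let b : Ideal (𝓞 K) → ℂ := fun I => if I ≠ ⊥ ∧ I ⊔ n = ⊤ then g (gi I) else 0
  have B1 : ∀ x, x ≠ 0 → b (span {x}) = φ x := fun x h => by
    by_cases c : ε (d x) = 0
    · simp [b, φ, c, ← E4]
    · simp [b, h, ← E4, c, g2 x c]
  have B2 : ∀ I I', b (I * I') = b I * b I' := fun I I' => by
    by_cases c : I ≠ ⊥ ∧ I ⊔ n = ⊤
    · by_cases c' : I' ≠ ⊥ ∧ I' ⊔ n = ⊤
      · simp only [b]
        rw [if_pos c, if_pos c', if_pos ⟨mul_ne_zero c.1 c'.1, cop_mul.2 ⟨c.2, c'.2⟩⟩,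
          gi_mul c.1 c'.1, map_mul, Units.val_mul]
      · simp only [b]
        rw [if_neg c', mul_zero, if_neg fun u =>
          c' ⟨right_ne_zero_of_mul u.1, (cop_mul.1 u.2).2⟩]
    · simp only [b]
      rw [if_neg c, zero_mul, if_neg fun u => c ⟨left_ne_zero_of_mul u.1, (cop_mul.1 u.2).1⟩]
  have B3 : b 1 = 1 := by simp [b, gi_one]
  have B4 : ∀ I, b I = 0 ↔ I = ⊥ ∨ I ⊔ n ≠ ⊤ := fun I => by
    simp only [b, ite_eq_right_iff, Units.ne_zero, imp_false, not_and_or, not_not, ne_eq]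
  obtain ⟨δ, d1, d2⟩ := unif hV (Fintype.card (ClassGroup (𝓞 K))) Fintype.card_ne_zero _ r3
  refine ⟨b, δ, d1, ⟨⟨B3, B2, B4, fun x h e => ?_⟩, fun x c h e => ?_⟩, fun I h => ?_⟩
  · simp [B1 x h, φ, E3 x e]
  · simp only [B1 x h, φ, E1 x c e]
  · have c := not_or.1 ((B4 I).not.1 h)
    have v : b I = g (gi I) := if_pos ⟨c.1, not_not.1 c.2⟩
    refine d2 _ (v ▸ g1 _) ?_
    have z : I ∈ (Ideal (𝓞 K))⁰ := mem_nonZeroDivisors_of_ne_zero c.1
    obtain ⟨y, hy⟩ := (ClassGroup.mk0_eq_one_iff (pow_mem z (Fintype.card (ClassGroup (𝓞 K))))).1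
      (show ClassGroup.mk0 (⟨I, z⟩ ^ Fintype.card (ClassGroup (𝓞 K))) = 1 by
        rw [map_pow, pow_card_eq_one])
    have y0 : y ≠ 0 := fun e => pow_ne_zero _ c.1 (hy.trans (by simp [e]))
    have bp : ∀ j, b (I ^ j) = b I ^ j := fun j => by
      induction j with
      | zero => simpa using B3
      | succ j ih => rw [pow_succ, B2, ih, pow_succ]
    have y2 : b I ^ Fintype.card (ClassGroup (𝓞 K)) = φ y := by
      rw [← bp, ← B1 y y0]
      exact congrArg b hy
    rw [y2]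
    exact F4 y (right_ne_zero_of_mul (y2 ▸ pow_ne_zero _ h))

end Vale.Agent.P014Y.Ln
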