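import Vale.Agent.P014Y.Ln.St2
import Vale.Agent.P014Y.Ln.Bex
import Vale.Agent.P014Y.C.Al.Cmb1
import Vale.Agent.P014Y.Fe.Dep

/-!
# P014 Y, block LN: one component of the family
-/

set_option autoImplicit false
set_option linter.all false

open NumberField Module Ideal
open scoped Classical ComplexConjugate

noncomputable section

namespace Vale.Agent.P014Y.Ln.An

open P004C.Wa (Kd RC)
open P004C.Ln (Dp)
open P014Y.C (Base Vb dv Pv Av HC AC sc Sm TF)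
open P014Y.C.Cm (cop_mul)
open P014Y.Fe (Dv Pc cd cj)

section

variable {K : Type} [Field K] [NumberField K]

omit [NumberField K] in
theorem mem_dvd {w : Ideal (𝓞 K)} {a b : ℕ} (h : (a : 𝓞 K) ∈ w) (k : a ∣ b) : (b : 𝓞 K) ∈ w := by
  obtain ⟨t, rfl⟩ := k
  rw [Nat.cast_mul]
  exact w.mul_mem_right _ h

omit [NumberField K] in
theorem sup_top {I I' : Ideal (𝓞 K)} {a b : ℕ} (h : (a : 𝓞 K) ∈ I) (h' : (b : 𝓞 K) ∈ I')
    (k : a.Coprime b) : I ⊔ I' = ⊤ := by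
  obtain ⟨u, v, e⟩ := (Nat.isCoprime_iff_coprime.2 k).map (Int.castRingHom (𝓞 K))
  rw [eq_top_iff_one, ← e]
  exact add_mem (mem_sup_left (I.mul_mem_left _ (by simpa using h)))
    (mem_sup_right (I'.mul_mem_left _ (by simpa using h')))

omit [NumberField K] in
theorem map_mem {M : Type} [Field M] [Algebra K M] {g : Ideal (𝓞 K)} {a : ℕ}
    (h : (a : 𝓞 K) ∈ g) : (a : 𝓞 M) ∈ g.map (algebraMap (𝓞 K) (𝓞 M)) :=
  map_natCast (algebraMap (𝓞 K) (𝓞 M)) a ▸ mem_map_of_mem _ h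

theorem ex_max {q : ℕ} (hq : q.Prime) : ∃ w : Ideal (𝓞 K), w.IsMaximal ∧ (q : 𝓞 K) ∈ w := by
  obtain ⟨w, a, b⟩ := exists_le_maximal (span {(q : 𝓞 K)}) fun e => by
    have := congrArg absNorm e
    rw [absNorm_span_natCast, absNorm_top, pow_eq_one_iff] at this
    exact this.elim hq.ne_one finrank_pos.ne'
  exact ⟨w, a, b (mem_span_singleton_self _)⟩

variable {f : Ideal (𝓞 K)} {φ : Ideal (𝓞 K) → ℂ} {m : ℕ}

theorem dv_mem (h : Dv m (cd f)) : ∃ j, ((m ^ j : ℕ) : 𝓞 K) ∈ f :=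
  h.imp fun _ k => mem_dvd (absNorm_mem f) ((dvd_mul_left _ _).trans k)

theorem rc_nz (h : RC (fun _ => 1) f φ) (d : Dv m (cd f)) (m1 : m ≠ 1) {I : Ideal (𝓞 K)}
    (c : (absNorm I).Coprime m) : φ I ≠ 0 := fun z => ((h.zero _).1 z).elim
  (fun y => m1 (by simpa [y] using c)) fun y => (dv_mem d).elim fun j k =>
    y (sup_top (absNorm_mem _) k (c.pow_right j))

theorem re_sq (h : Pc f φ) (re : cj φ = φ) (I : Ideal (𝓞 K)) : φ I = 0 ∨ φ I ^ 2 = 1 :=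
  or_iff_not_imp_left.2 fun z => by
    have e : conj (φ I) = φ I := congrFun re I
    rw [sq, ← congrArg (φ I * ·) e, Complex.mul_conj', Fe.Dep.psi_nrm h.rc z]
    simp

variable {ι : ℂ →+* ℂ_[3]} {J : K →+* ℂ} {M : Type} [Field M] [NumberField M] [Algebra K M]
  {I I' : Ideal (𝓞 M)}

theorem pv_mul (h : Pv ι J I) (k : Pv ι J I') : Pv ι J (I * I') := by
  obtain ⟨s, a, b⟩ := h
  obtain ⟨s', a', b'⟩ := k
  exact ⟨s * s', by simp [a, a'], by rw [map_mul]; exact mul_mem_mul b b'⟩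

theorem pv_mono (e : I ≤ I') (h : Pv ι J I) : Pv ι J I' := h.imp fun _ k => ⟨k.1, e k.2⟩

end

/-- the data over `K` -/
structure Ks {K : Type} [Field K] [NumberField K] (J : K →+* ℂ) (V : AbsoluteValue ℂ ℝ)
    (m c k : ℕ) (n' : Ideal (𝓞 K)) (α γ : Ideal (𝓞 K) → ℂ) (δ : ℝ) : Prop where
  m0 : 0 < m
  c0 : 0 < c
  m3 : 3 ∣ m
  k3 : 3 ≤ k
  ha : HC J 1 (n' * span {(c : 𝓞 K)}) α
  hg : HC J k (span {(c : 𝓞 K)}) γ
  cg : ∀ I, (absNorm I).Coprime (m * c) → absNorm I % 3 = 1 → V (α I - γ I) ≤ δ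
  nr : ∀ I, (absNorm I).Coprime (m * c) → V (γ I - 1) < 1
  pv : ∃ s ∈ n' * span {(c : 𝓞 K)}, V (J s) = 1
  mn : (m : 𝓞 K) ∈ n'
  big : ∃ q : ℕ, q.Prime ∧ q ∣ c ∧ 17 < q
  d3 : 1 / 3 ≤ δ
  rt : ∀ z, z ^ 3 = 1 → V (z - 1) ≤ δ

variable {K : Type} [Field K] [NumberField K] {ι : ℂ →+* ℂ_[3]} {J : K →+* ℂ} {Ω : ℝ} {D : ℕ}
  {θ : 𝓞 K} {V : AbsoluteValue ℂ ℝ} {L M : Type} [Field L] [NumberField L] [Field M]
  [NumberField M] [Algebra K M] [Algebra L M]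

theorem v_cd (e : ∀ z, V z = ‖ι z‖) (f : Ideal (𝓞 L)) :
    V (cd f) = ‖(discr L : ℂ_[3])‖ * ‖(absNorm f : ℂ_[3])‖ := by
  rw [e, map_natCast, cd, Nat.cast_mul, norm_mul]
  congr 1
  rcases Int.natAbs_eq (discr L) with h | h <;> conv_rhs => rw [h]
  · rw [Int.cast_natCast]
  · rw [Int.cast_neg, norm_neg, Int.cast_natCast]

/-- **one component, one character** -/
theorem one (csx : CSX) (dvl : DVL) (nrm : NRM) (fin : FIN) (B : Base ι J Ω) (kd : Kd J D θ)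
    (hV : V3 V) (e : ∀ z, V z = ‖ι z‖) (bc : Bc D θ L M) (z3 : Z3 L) (dg : finrank ℚ L ≤ 8)
    {m c k : ℕ} {n' : Ideal (𝓞 K)} {α γ : Ideal (𝓞 K) → ℂ} {δ : ℝ} (S : Ks J V m c k n' α γ δ)
    {t : Ideal (𝓞 M)} (pr : ∀ w : Ideal (𝓞 M), w.IsMaximal →
      (n'.map (algebraMap (𝓞 K) (𝓞 M)) ≤ w → t ≤ w) ∧ (¬ n'.map (algebraMap (𝓞 K) (𝓞 M)) ≤ w →
        ((m : 𝓞 M) ∈ w ↔ Av ι J w ∨ t ≤ w) ∧ (t ≤ w → 3 ∉ w ∧ ∀ u : ℂ, u = 0 ∨ u ^ 2 = 1 →
          δ < V (1 - u * γ (relNorm (𝓞 K) w)))))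
    {f₀ f : Ideal (𝓞 L)} {φ₀ φ : Ideal (𝓞 L) → ℂ} (p₀ : Pc f₀ φ₀) (re : cj φ₀ = φ₀)
    (d₀ : Dv m (cd f₀)) (p : Pc f φ) (six : ∀ I, φ I = 0 ∨ φ I ^ 6 = 1)
    (cub : ∀ I, φ I ≠ 0 → φ I ^ 3 = φ₀ I) (d : Dv m (cd f)) {n : ℕ} {b : Basis (Fin n) K M}
    (vb : Vb ι J b) {s : Ideal (𝓞 M)} {l : ℕ} (sm : Sm s l) (lc : l.Coprime (m * c))
    {η y : ℝ} (dη : δ < η) (η1 : η ≤ 1)
    (s1 : φ₀ (relNorm (𝓞 L) s) = -1 ∨ η ≤ V (1 - l * cM M φ₀ γ s))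
    (hy : y = sc Ω (dv ι J b * ‖(absNorm f₀ : ℂ_[3])‖) n k * V (∑' I, Dp t (cM M φ₀ γ) I)) :
    η * y ≤ 1 ∧ (δ < η * y → ∃ z, AC (cM M φ α) z ∧
      √(V (cd f)) * Ef V m (cM M φ α) * V z = Ω ^ n * y) := by
  obtain ⟨g₀, F₀, e₀, v₀, n₀, h₀⟩ := csx K ι J Ω D θ B kd L M bc z3 f₀ φ₀ p₀ fun I =>
    (re_sq p₀ re I).imp_right fun u => by rw [show 6 = 2 * 3 from rfl, pow_mul, u, one_pow]
  obtain ⟨g₁, F₁, e₁, v₁, n₁, h₁⟩ := csx K ι J Ω D θ B kd L M bc z3 f φ p six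
  have zM : Z3 M := z3.elim fun w hw => ⟨algebraMap L M w, by
    simpa using congrArg (algebraMap L M) hw⟩
  obtain ⟨tf, nm⟩ := nrm M
  obtain ⟨nm, -⟩ := nm zM
  obtain ⟨G, hG⟩ : ∃ G, G = (n' * span {(c : 𝓞 K)}).map (algebraMap (𝓞 K) (𝓞 M)) := ⟨_, rfl⟩
  obtain ⟨F, hF⟩ : ∃ F, F = g₁ * g₀ * G := ⟨_, rfl⟩
  have vG : Pv ι J G := by
    obtain ⟨x, a, b⟩ := S.pv
    exact ⟨x, e _ ▸ b, hG ▸ mem_map_of_mem _ a⟩
  have vF : Pv ι J F := hF ▸ pv_mul (pv_mul v₁ v₀) vG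
  have Gc : G ≤ (span {(c : 𝓞 K)}).map (algebraMap (𝓞 K) (𝓞 M)) := hG ▸ map_mono mul_le_right
  have Gn : G ≤ n'.map (algebraMap (𝓞 K) (𝓞 M)) := hG ▸ map_mono mul_le_left
  have FG : F ≤ G := hF ▸ mul_le_right
  obtain ⟨c₀, l₀⟩ := h₀ k _ γ F S.hg vF (hF ▸ mul_mono mul_le_right Gc)
  obtain ⟨c₁, l₁⟩ := h₁ 1 _ α F S.ha vF (hF ▸ mul_mono mul_le_left hG.le)
  obtain ⟨j₀, m₀⟩ := dv_mem d₀
  obtain ⟨j₁, m₁⟩ := dv_mem d
  have m₀' : ((m ^ j₀ : ℕ) : 𝓞 M) ∈ g₀ := mul_le_left (e₀.le (map_mem m₀))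
  have m₁' : ((m ^ j₁ : ℕ) : 𝓞 M) ∈ g₁ := mul_le_left (e₁.le (map_mem m₁))
  have mG : ((m * c : ℕ) : 𝓞 M) ∈ G := hG ▸ map_mem (by
    rw [Nat.cast_mul]; exact mul_mem_mul S.mn (mem_span_singleton_self _))
  have lm := lc.coprime_dvd_right (dvd_mul_right m c)
  have m1 : m ≠ 1 := fun z => by have := S.m3; omega
  have dp : Dp F (cM M φ α) = cM M φ α := funext fun I => by
    refine ite_eq_left_iff.2 fun x => by_contra fun z => x ?_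
    have a := mul_ne_zero_iff.1 (Ne.symm z)
    have a1 := not_or.1 (mt (S.ha.zero _).2 a.2)
    have a2 : cM M φ₀ γ I ≠ 0 := mul_ne_zero (cub _ a.1 ▸ pow_ne_zero _ a.1)
      (mt (S.hg.zero _).1 (not_or.2 ⟨a1.1, not_not.2 (cop_mul.1 (not_not.1 a1.2)).2⟩))
    have b0 := cop_mul.1 (not_not.1 (not_or.1 (mt (c₀.zero _).2 a2)).2)
    have b1 := cop_mul.1 (not_not.1 (not_or.1 (mt (c₁.zero _).2 (Ne.symm z))).2)
    rw [hF, hG]
    exact cop_mul.2 ⟨cop_mul.2 ⟨(cop_mul.1 b1.1).1, (cop_mul.1 b0.1).1⟩, b1.2⟩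
  rw [dp] at l₁
  obtain ⟨q, q1, q2, q3⟩ := S.big
  obtain ⟨w₀, w1, w2⟩ := ex_max (K := M) q1
  have c3 : ∀ I : Ideal (𝓞 M), (absNorm I).Coprime (m * c) → absNorm I % 3 = 1 := fun I x =>
    nm I (x.coprime_dvd_right (S.m3.mul_right c))
  have pm : ∀ w : Ideal (𝓞 M), w.IsMaximal → Pv ι J w → ∀ j, ((m ^ j : ℕ) : 𝓞 M) ∈ w → t ≤ w :=
    fun w a v j x => by
      by_contra z
      exact z ((((pr w a).2 fun u => z ((pr w a).1 u)).1.1 (a.isPrime.mem_of_pow_mem j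
        (by exact_mod_cast x))).resolve_left fun u => u.2 v)
  have key := fin K ι J Ω V B e M n b vb zM k m l F F₀ t s (cM M φ₀ γ) η y S.k3 S.m0 sm vF
    ?_ ⟨w₀, w1, ?_, ?_, tf ?_ w₀ q w1 q1 q3 w2⟩ l₀ c₀.mul ?_ (fun w a x => ?_) (fun w a x => ?_) ?_
  · obtain ⟨k1, k2⟩ := key
    refine ⟨k1, fun dy => ?_⟩
    have key := k2 (m * c) F₁ _ δ (Nat.mul_pos S.m0 S.c0) (S.m3.mul_right c) l₁
      (fun I x _ => ?_) S.d3 dη (fun w a x u => ?_) dy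
    · obtain ⟨z, z1, z2⟩ := key
      refine ⟨z, z1, ?_⟩
      have := B.pos
      rw [← z2, v_cd e, ← dvl K ι J Ω D θ B kd L M bc n b vb, ← n₁, e (absNorm F₁), map_natCast, sc]
      simp only [pow_one, Real.div_sqrt, Nat.sub_self, Nat.factorial_zero, Nat.cast_one, norm_one,
        one_div, inv_pow]
      field_simp
    · have x1 : (absNorm (relNorm (𝓞 K) I)).Coprime (m * c) := by rwa [absNorm_relNorm]
      have x2 := rc_nz p.rc d m1 (I := relNorm (𝓞 L) I) (by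
        rw [absNorm_relNorm]; exact x.coprime_dvd_right (dvd_mul_right m c))
      have x3 := (six _).resolve_left x2
      have x4 := S.cg _ x1 (by rw [absNorm_relNorm]; exact c3 I x)
      have x5 := Bx.one_of hV.1 (S.nr _ x1)
      have x6 := S.rt (φ (relNorm (𝓞 L) I) ^ 2) (by rw [← pow_mul, x3])
      have x7 : V (φ (relNorm (𝓞 L) I)) = 1 :=
        (pow_eq_one_iff_of_nonneg (V.nonneg _) (n := 6) (by norm_num)).1
          (by rw [← map_pow, x3, map_one])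
      unfold cM
      rw [← cub _ x2]
      generalize φ (relNorm (𝓞 L) I) = u at *
      generalize α (relNorm (𝓞 K) I) = a at *
      generalize γ (relNorm (𝓞 K) I) = g at *
      rw [show u * a - u ^ 3 * g = u * (a - g) - u * ((u ^ 2 - 1) * g) by ring]
      refine (Bx.sub_le hV.1 _ _).trans (max_le ?_ ?_)
      · rwa [map_mul, x7, one_mul]
      · rwa [map_mul, map_mul, x7, x5, one_mul, mul_one]
    · exact (((pr w a).2 fun v => a.ne_top ((sup_eq_left.2 (FG.trans (Gn.trans v))).symm.trans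
        x)).2 u).2 _ (re_sq p₀ re _)
  · rw [sup_comm, hF]
    have ml := mem_span_singleton_self (l : 𝓞 M)
    exact cop_mul.2 ⟨cop_mul.2 ⟨sup_top ml m₁' (lm.pow_right _), sup_top ml m₀' (lm.pow_right _)⟩,
      sup_top ml mG lc⟩
  · refine FG.trans (Gc.trans ?_)
    rw [map_span, Set.image_singleton, map_natCast, span_singleton_le_iff_mem]
    exact mem_dvd w2 q2
  · exact fun x => w1.ne_top ((sup_idem w₀).symm.trans (sup_top w2 (b := 3) (by exact_mod_cast x)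
      ((Nat.coprime_primes q1 Nat.prime_three).2 (by omega))))
  · rw [← finrank_mul_finrank ℚ L M, bc.two]
    omega
  · refine s1.elim (fun s1 => η1.trans ?_) id
    have sc : (absNorm s).Coprime (m * c) := sm.2.2.1 ▸ lc
    have x1 := S.nr (relNorm (𝓞 K) s) (by rwa [absNorm_relNorm])
    have x2 := c3 s sc
    rw [sm.2.2.1] at x2
    have x3 : V ((l : ℂ) - 1) < 1 := by
      rw [show (l : ℂ) - 1 = 3 * ((l / 3 : ℕ) : ℤ) by
        rw [Int.cast_natCast, sub_eq_iff_eq_add]; exact_mod_cast by omega]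
      exact (Bx.int3 hV _).trans_lt (by norm_num)
    have x4 := (Bx.mul_le hV.1 (max_lt x3 x1) (le_max_left _ _) (le_max_right _ _)).trans_lt
      (max_lt x3 x1)
    have x5 : V (3 : ℂ) < 1 := hV.2.trans_lt (by norm_num)
    unfold cM
    rw [s1, show 1 - (l : ℂ) * (-1 * γ (relNorm (𝓞 K) s)) =
      -(-(l * γ (relNorm (𝓞 K) s) - 1) - 3 + 1) by ring, V.map_neg]
    refine (Bx.one_of hV.1 ?_).ge
    rw [add_sub_cancel_right]
    exact (Bx.sub_le hV.1 _ _).trans_lt (max_lt (by rwa [V.map_neg]) x5)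
  · rw [hF, a.isPrime.mul_le, a.isPrime.mul_le, hG, Ideal.map_mul, a.isPrime.mul_le] at x
    rcases x with (x | x) | x | x
    · exact .inr (pm w a (pv_mono x v₁) _ (x m₁'))
    · exact .inr (pm w a (pv_mono x v₀) _ (x m₀'))
    · exact .inr ((pr w a).1 x)
    · exact .inl ((c₀.zero w).2 (.inr fun z => a.ne_top
        ((sup_eq_left.2 (mul_le_right.trans x)).symm.trans z)))
  · obtain ⟨u, v⟩ := (pr w a).2 fun v => a.ne_top
      ((sup_eq_left.2 (FG.trans (Gn.trans v))).symm.trans x)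
    exact ⟨u, fun z => (v z).1⟩
  · rw [hy, e (absNorm F₀), map_natCast, n₀]

end Vale.Agent.P014Y.Ln.An
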