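import Vale.Agent.P014Y.Ln.St0
import Vale.Agent.P004C.Ln.Cfc

/-!
# P014 Y, block LN: congruences of coefficients at three
-/

set_option autoImplicit false

open scoped Classical NumberTheorySymbols

noncomputable section

namespace Vale.Agent.P014Y.Ln

open P004C.Ln (Hm)

namespace Cfc

variable {V : AbsoluteValue ℂ ℝ}

theorem add_le (h : V3 V) {x y : ℂ} {r : ℝ} (a : V x ≤ r) (b : V y ≤ r) : V (x + y) ≤ r :=
  (h.1 x y).trans (max_le a b)

theorem sub_le (h : V3 V) {x y : ℂ} {r : ℝ} (a : V x ≤ r) (b : V y ≤ r) : V (x - y) ≤ r := by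
  rw [sub_eq_add_neg]
  exact add_le h a (by rwa [V.map_neg])

theorem nat_le (h : V3 V) (n : ℕ) : V n ≤ 1 := by
  induction n with
  | zero => simp
  | succ n ih =>
    rw [Nat.cast_succ]
    exact add_le h ih V.map_one.le

theorem int_le (h : V3 V) (n : ℤ) : V n ≤ 1 := by
  obtain ⟨k, rfl | rfl⟩ := n.eq_nat_or_neg
  · simpa using nat_le h k
  · simpa using nat_le h k

theorem mul_le {x y : ℂ} {r : ℝ} (a : V x ≤ r) (b : V y ≤ 1) : V (x * y) ≤ r := by
  rw [V.map_mul]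
  exact (mul_le_of_le_one_right (V.nonneg _) b).trans a

theorem three_le (h : V3 V) {n : ℤ} (d : 3 ∣ n) : V n ≤ 1 / 3 := by
  obtain ⟨k, rfl⟩ := d
  push_cast
  exact mul_le h.2.le (int_le h k)

theorem jac_sq {n : ℕ} (o : ¬ 3 ∣ n) : J(n | 3) ^ 2 = 1 :=
  jacobiSym.sq_one (Int.isCoprime_iff_gcd_eq_one.1 (Nat.isCoprime_iff_coprime.2
    ((Nat.Prime.coprime_iff_not_dvd Nat.prime_three).2 o).symm))

theorem jac_dvd {n : ℕ} (o : ¬ 3 ∣ n) : (3 : ℤ) ∣ J(n | 3) * n - 1 := by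
  have h : n % 3 = 1 ∨ n % 3 = 2 := by omega
  rw [jacobiSym.mod_left]
  rcases h with h | h
  · rw [show (n : ℤ) % (3 : ℕ) = 1 by omega, jacobiSym.one_left]
    omega
  · rw [show (n : ℤ) % (3 : ℕ) = 2 by omega, show J(2 | 3) = -1 by norm_num]
    omega

theorem jac_le (h : V3 V) {n : ℕ} (o : ¬ 3 ∣ n) : V (J(n | 3) * n - 1) ≤ 1 / 3 := by
  have := three_le h (jac_dvd o)
  push_cast at this
  exact this

theorem cop_eq (h : V3 V) {n : ℕ} (o : ¬ 3 ∣ n) : V n = 1 := by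
  refine le_antisymm (nat_le h n) (not_lt.1 fun l => ?_)
  have := h.1 (J(n | 3) * n) (-((J(n | 3) : ℂ) * n - 1))
  rw [V.map_neg, show (J(n | 3) : ℂ) * n + -(J(n | 3) * n - 1) = 1 by ring, V.map_one] at this
  refine absurd this (not_le.2 (max_lt ?_ ((jac_le h o).trans_lt (by norm_num))))
  rw [mul_comm]
  exact (mul_le le_rfl (int_le h _)).trans_lt l

/-- products of congruent numbers -/
theorem prod_le (h : V3 V) {x y x' y' : ℂ} {r : ℝ} (a : V (x - x') ≤ r) (b : V (y - y') ≤ r)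
    (r1 : r ≤ 1) (c : V x' ≤ 1) (d : V y' ≤ 1) : V (x * y - x' * y') ≤ r := by
  have e : V y ≤ 1 := by simpa using add_le h (b.trans r1) d
  rw [show x * y - x' * y' = (x - x') * y + (y - y') * x' by ring]
  exact add_le h (mul_le a e) (mul_le b c)

theorem cg (h : V3 V) {N R : ℕ} {a : ℕ → ℤ} {e A : ℕ → ℂ} {ρ : ℝ} (a1 : a 1 = 1)
    (t : P004N.TE N a fun n => (a n : ℂ)) (r : 3 ∣ R)
    (q : ∀ p : ℕ, p.Prime → ¬ p ∣ R → ¬ p ∣ N ∧
      V (A p - J(p | 3) * a p) ≤ ρ ∧ V (e p - J(p | 3)) ≤ ρ)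
    (l : 1 / 3 ≤ ρ) (u : ρ ≤ 1) (H : Hm R e A) (i : ℕ) :
    i.Coprime R → V (A i - J(i | 3) * a i) ≤ ρ := by
  have ja : ∀ j : ℕ, V (J(j | 3) * a j) ≤ 1 := fun j => mul_le (int_le h _) (int_le h _)
  induction i using Nat.strong_induction_on with
  | _ i ih =>
  intro c
  by_cases i1 : i = 1
  · rw [i1, H.one, a1]
    simpa using le_trans (by norm_num) l
  obtain ⟨p, hp, n, rfl⟩ := Nat.exists_prime_and_dvd i1
  have d : ¬ p ∣ R := (Nat.Prime.coprime_iff_not_dvd hp).1 (Nat.Coprime.coprime_mul_right c)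
  have cn : n.Coprime R := Nat.Coprime.coprime_mul_left c
  have n0 : n ≠ 0 := by
    rintro rfl
    rw [Nat.coprime_zero_left] at cn
    omega
  have ln : n < p * n := by nlinarith [hp.one_lt, Nat.pos_of_ne_zero n0]
  have p3 : ¬ 3 ∣ p := fun z => d ((Nat.prime_dvd_prime_iff_eq Nat.prime_three hp).1 z ▸ r)
  obtain ⟨q1, q2, q3⟩ := q p hp d
  have k1 := prod_le h q2 (ih n ln cn) u (ja _) (ja _)
  have : (a (p * n) : ℂ) = a p * a n - if p ∣ n then (p : ℂ) * a (n / p) else 0 :=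
    eq_sub_of_add_eq (t p hp q1 n)
  rw [P004C.Ln.Cf.te H hp d n0, this, Nat.cast_mul, jacobiSym.mul_left, Int.cast_mul]
  split_ifs with w
  · obtain ⟨n, rfl⟩ := w
    have s : (J(p | 3) : ℂ) ^ 2 = 1 := by exact_mod_cast jac_sq p3
    have k2 : V (e p - p) ≤ ρ := by
      rw [show e p - p = (e p - J(p | 3)) - (J(p | 3) * p - 1) * J(p | 3) by
        linear_combination (p : ℂ) * s]
      exact sub_le h q3 (mul_le ((jac_le h p3).trans l) (int_le h _))
    have k3 := prod_le h k2 (ih n (lt_of_le_of_lt (Nat.le_mul_of_pos_left _ hp.pos) ln)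
      (Nat.Coprime.coprime_mul_left cn)) u (nat_le h _) (ja _)
    have k4 := sub_le h k1 k3
    rw [Nat.mul_div_cancel_left _ hp.pos]
    rw [Nat.cast_mul, jacobiSym.mul_left, Int.cast_mul] at k4 ⊢
    refine le_of_eq_of_le (congrArg V ?_) k4
    linear_combination (p : ℂ) * J(n | 3) * a n * s
  · refine le_of_eq_of_le (congrArg V ?_) k1
    ring

end Cfc

/-- **congruences of coefficients** -/
theorem cfc : CFC := by
  intro V h N R a e A ρ s a1 t r q l u H c i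
  obtain ⟨k, d, o, w⟩ := c i
  have w' := congrArg V w
  rw [V.map_mul, Cfc.cop_eq h o, one_mul, ← Int.cast_natCast (R := ℂ) 3, ← Int.cast_mul] at w'
  have b := w'.le.trans ((Cfc.three_le h (dvd_mul_right _ _)).trans l)
  unfold P004F.Qx.dp at b
  split_ifs at b ⊢ with z
  · have i2 : ¬ 3 ∣ i := fun y => by
      have := Nat.dvd_gcd y r
      rw [z] at this
      omega
    have i0 : (i : ℂ) ≠ 0 := by
      rw [Nat.cast_ne_zero]
      rintro rfl
      exact i2 (dvd_zero 3)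
    rw [show s.coeff i - A i = (s.coeff i - a i / i) - ((J(i | 3) : ℂ) * i - 1) * (a i / i) -
      (A i - J(i | 3) * a i) by field_simp; ring]
    refine Cfc.sub_le h (Cfc.sub_le h b (Cfc.mul_le ((Cfc.jac_le h i2).trans l) ?_))
      (Cfc.cg h a1 t r q l u H i z)
    rw [map_div₀, Cfc.cop_eq h i2, div_one]
    exact Cfc.int_le h _
  · simpa using b

end Vale.Agent.P014Y.Ln
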