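import Vale.Agent.P014Y.Ln.St0
import Vale.Agent.P014Y.Base
import Vale.Agent.P014Y.F.Defs

/-!
# P014 Y, block LN: the link half, rows over the frame
-/

set_option autoImplicit false

open NumberField Module UpperHalfPlane CongruenceSubgroup
open scoped Classical MatrixGroups Real ComplexConjugate NumberTheorySymbols

noncomputable section

namespace Vale.Agent.P014Y.Ln

open Vale.Agent.P022 (Qb GQ GK below)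
open Vale.Agent.P027M.M
open P004K (Cn Cop Ar Hc Ip Zp)
open Vale.Agent.P027M.S (Inert)
open Vale.Agent.P022E.GW (Ov)
open P004M.TE (Pt ga)
open P004F.Qx (Vp Cq Ch IM zf dep)
open P004C.Wa (MW QE Kd Sp)
open P004C.Ln (Jc Rg Ro Xi pc)
open P014Y.C (Base)
open P014Y.F (Crv Fld Hg)

section

variable {e : Crv} (b : Fld e)

/-- Heegner points of a second curve over the same field -/
structure Hd (e₂ : Crv) (I I' : Ideal (𝓞 b.K)) (Y : ℕ → Pt e₂.A e₂.B) : Prop where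
  S : e₂.S = e.S
  ch : Ch b.j e₂.N I I' e.S e.P b.Q b.φ
  hg : ∀ c, 0 < c → c.Coprime e₂.N → Hg e₂ b.j I c (Y c)
  fx : ∀ c, 0 < c → c.Coprime e₂.N → ∀ g ∈ Hc b.j c, ga g (Y c) = Y c

/-- the values which enter the anchor -/
def hh (e₂ : Crv) (Y : ℕ → Pt e₂.A e₂.B) (c : ℕ) (g : GQ) : Qb :=
  zf (ga g (dep e₂.N e₂.w e₂.a e.S b.φ (Y c))) / (e.S.prod ^ 2 : ℕ)

/-- the analytic side for the second curve -/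
def An0 (e₂ : Crv) (Y : ℕ → Pt e₂.A e₂.B) (c : ℕ) (χ : GQ → ℕ) (l : ℕ) : Prop :=
  ∀ T, b.Tv c T → ∃ i ≤ l, ¬ Zp (e.P 3) (∑ g ∈ T, ((χ g).choose i : Qb) * hh b e₂ Y c g)

theorem hd0 : Hd b e b.I b.I' b.Y := ⟨rfl, b.ch, b.hg, b.fx⟩

theorem an0 {c : ℕ} {χ : GQ → ℕ} {l : ℕ} : b.An e.S c χ l ↔ An0 b e b.Y c χ l := Iff.rfl

/-- the primes over `S` which are not over `v` -/
def tS : Ideal (𝓞 b.K) := b.Q 3 * Ideal.span {((e.S.prod / 3 : ℕ) : 𝓞 b.K)}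

/-- one layer, one character -/
structure Lay (n c : ℕ) (χ : GQ → ℕ) (ζ : ℂ) (ξ : Ideal (𝓞 b.K) → ℂ) : Prop where
  ad : b.Ad n c χ
  sq : Squarefree c
  out : ∀ q : ℕ, q.Prime → q ∣ c → q ∉ e.S ∧ ¬ q ∣ b.δ'
  rt : ζ ^ 3 ^ n = 1
  xi : Xi b.j c χ ζ ξ
  ram : ∀ q : ℕ, q.Prime → q ∣ c → ∃ P, Ov q P ∧ ∃ g ∈ b.Γ, Inert P g ∧ ζ ^ χ g ≠ 1
  big : ∃ q : ℕ, q.Prime ∧ q ∣ c ∧ 17 < q

/-- the level ideal -/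
structure Lv (m : ℕ) (n n' : Ideal (𝓞 b.K)) (ν : 𝓞 b.K) : Prop where
  sp : Sp m n n'
  v : n ≤ below b.j (e.P 3)
  v' : ∃ s ∈ n', s ∉ below b.j (e.P 3)
  im : ∀ N I I', Ch b.j N I I' e.S e.P b.Q b.φ → N * e.S.prod ∣ m →
    Cn (N * e.S.prod ^ 2) (IM b.j I e.S e.P) ∧ n ^ 2 ≤ IM b.j I e.S e.P
  q3 : n' ≤ b.Q 3
  thr : ∀ w : Ideal (𝓞 b.K), w.IsPrime → 3 ∈ w → w = below b.j (e.P 3) ∨ w = b.Q 3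
  ts : ∀ w : Ideal (𝓞 b.K), w.IsPrime → n' ≤ w → tS b ≤ w
  cop : b.δ'.Coprime m
  nu : ν ∈ n' ^ 2
  nu1 : ν - 1 ∈ n ^ 2

end

/-- it exists -/
def LVX : Prop := ∀ (e : Crv) (b : Fld e), Kd (Jc b.j) b.δ' b.θ ∧ b.δ' % 3 = 2 ∧
  ¬ 3 ∣ e.S.prod / 3 ∧ 3 * (e.S.prod / 3) = e.S.prod ∧
  (∀ p : ℕ, p.Prime → (p ∣ e.S.prod ↔ p ∈ e.S)) ∧ (∀ p : ℕ, p.Prime → p ∣ e.N → p ∈ e.S) ∧
  ∀ m : ℕ, 0 < m → e.S.prod ∣ m → (∀ p : ℕ, p.Prime → p ∣ m → p ∈ e.S) → ∃ n n' ν, Lv b m n n' ν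

/-- ring class characters from the Galois side -/
def XI : Prop := ∀ (e : Crv) (b : Fld e), (∀ c, 0 < c → ∃ T, b.Tv c T) ∧
  ∀ (n c : ℕ) (χ : GQ → ℕ) (ζ : ℂ), b.Ad n c χ → Squarefree c →
    ζ ^ 3 ^ n = 1 → (∃ ξ, Xi b.j c χ ζ ξ) ∧ (∀ ξ, Xi b.j c χ ζ ξ →
      (∀ I, ξ I = 0 ∨ ξ I ^ 3 ^ n = 1) ∧ ((∀ q : ℕ, q.Prime → q ∣ c → ∃ P, Ov q P ∧
        ∃ g ∈ b.Γ, Inert P g ∧ ζ ^ χ g ≠ 1) → Rg c ξ)) ∧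
    ∀ T t, 0 < t → b.Tv c T → ∃ B : T → Ideal (𝓞 b.K), Ro c t B ∧ ∀ g, Ar b.j c (B g) g

/-- divisibility by `T ^ l` gives small sums -/
def SUM : Prop := ∀ (e : Crv) (b : Fld e) (e₂ : Crv) I I' Y, Hd b e₂ I I' Y →
  ∀ V : AbsoluteValue ℂ ℝ, V3 V → Vp V (e.P 3) →
  ∀ (c l : ℕ) (χ : GQ → ℕ) (ζ : ℂ) (T : Finset GQ), 0 < c → c.Coprime (e₂.N * e.S.prod) →
  V (ζ - 1) ≤ 1 → (∀ g ∈ T, g ∈ b.Γ ∧ Ip (e.P 3) (hh b e₂ Y c g)) →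
  (∀ i < l, Zp (e.P 3) (∑ g ∈ T, ((χ g).choose i : Qb) * hh b e₂ Y c g)) →
  V (∑ g ∈ T, ζ ^ χ g * io (hh b e₂ Y c g)) ≤ max (1 / 3) (V (ζ - 1) ^ l)

/-- **if the anchor fails below `l` then the period is small** -/
def SML : Prop := ∀ e e₂ : Crv, e₂.S = e.S → ∀ ι V, Pl ι V (e.P 3) → ∀ (m : ℕ) (G : ℍ → ℂ)
  (A : ℕ → ℂ) (ρ : ℝ), 0 < m → e₂.N * e.S.prod ∣ m → (∀ p : ℕ, p.Prime → p ∣ m → p ∈ e.S) →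
  MW (m ^ 2) (e3 m) G → QE G A → ρ < 1 →
  (∀ s, Cq 3 (P004F.Qx.dp e.S.prod e₂.a) s → ∀ i : ℕ, V (s.coeff i - A i) ≤ ρ) →
  ∃ T : ℕ, ∀ b : Fld e, T ≤ b.δ' → ∀ I I' Y, Hd b e₂ I I' Y → ∀ Ω, Base ι (Jc b.j) Ω →
  ∀ n n' ν, Lv b m n n' ν →
  ∀ (β : Ideal (𝓞 b.K) → ℂ) (δ₁ : ℝ), δ₁ < 1 → (∀ I, Cop m I → V (β I - 1) ≤ δ₁) →
  ∃ δ : ℝ, δ < 1 ∧ 1 / 3 ≤ δ ∧ δ₁ ≤ δ ∧ ∀ n₀ c χ ζ ξ, Lay b n₀ c χ ζ ξ →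
    ∀ l : ℕ, (∀ l' < l, ¬ An0 b e₂ Y c χ l') →
    ∃ (κ : Type) (_ : Fintype κ) (B : κ → Ideal (𝓞 b.K)), Ro c m B ∧
      V (2 * π * pc (Jc b.j) 1 (m ^ 2) c G (fun I => ξ I * β I) ν B) ≤
        Ω * max δ (V (ζ - 1) ^ l)

end Vale.Agent.P014Y.Ln
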