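import Vale.Agent.P014Y.Ln.St3
import Vale.Agent.P014Y.Ln.An1
import Vale.Agent.P014Y.Ln.Cfc
import Vale.Agent.P014Y.Fe.Mul
import Vale.Agent.P014Y.Tp.St

/-!
# P014 Y, block LN: the two forms and the data over `K`
-/

set_option autoImplicit false
set_option linter.all false

open NumberField Module Ideal UpperHalfPlane
open scoped Classical ComplexConjugate NumberTheorySymbols

noncomputable section

namespace Vale.Agent.P014Y.Ln.An

open Vale.Agent.P022 (Qb GQ)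
open Vale.Agent.P022E.GW (Ov Fb)
open P004C.Ln (Hm Rg)
open P004F.Qx (Cq)
open P014Y.C (Base HC La)
open P014Y.F (Crv)
open P014Y.Fe (Eg)
open P014Y.Tp (G3 Tr ts tw)

variable {V : AbsoluteValue ℂ ℝ} {m R : ℕ} {G G' : ℍ → ℂ} {A B B' : ℕ → ℂ}

theorem v_two (h : V3 V) : V 2 = 1 := by simpa using Cfc.cop_eq h (n := 2) (by norm_num)

theorem ex_s (h : V3 V) : ∃ s : ℂ, s ^ 2 = -2 ∧ V (s - 1) ≤ 1 / 3 := by
  obtain ⟨s, hs⟩ := IsAlgClosed.exists_pow_nat_eq (-2 : ℂ) two_pos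
  have k : ∀ s : ℂ, s ^ 2 = -2 → V (s - 1) ≤ V (-s - 1) → V (s - 1) ≤ 1 / 3 := fun s hs l => by
    have a : V (s - 1) * V (-s - 1) = 1 / 3 := by
      rw [← map_mul, ← h.2]
      congr 1
      linear_combination -hs
    have b := h.1 (-(s - 1)) (-(-s - 1))
    rw [V.map_neg, V.map_neg, max_eq_right l, show -(s - 1) + -(-s - 1) = 2 by ring, v_two h] at b
    exact a ▸ le_mul_of_one_le_right (V.nonneg _) b
  rcases le_total (V (s - 1)) (V (-s - 1)) with l | l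
  · exact ⟨s, hs, k s hs l⟩
  · exact ⟨-s, by rwa [neg_sq], k _ (by rwa [neg_sq]) (by rwa [neg_neg])⟩

theorem ts_near (h : V3 V) {s : ℂ} (hs : V (s - 1) ≤ 1 / 3) (g : G3) {k : ℤ}
    (e : (k : ZMod 3) = g.trace) : V (ts s g - k) ≤ 1 / 3 := by
  have a : ∀ u : ℂ, V (u - 1) ≤ 1 / 3 → V (u * g.trace.valMinAbs - k) ≤ 1 / 3 := fun u hu => by
    rw [show u * g.trace.valMinAbs - k = (u - 1) * g.trace.valMinAbs +
      ((g.trace.valMinAbs - k : ℤ) : ℂ) by push_cast; ring]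
    refine Cfc.add_le h (Cfc.mul_le hu (Cfc.int_le h _)) (Cfc.three_le h ?_)
    refine (ZMod.intCast_zmod_eq_zero_iff_dvd _ 3).1 ?_
    rw [Int.cast_sub, ZMod.coe_valMinAbs, e, sub_self]
  unfold ts
  split_ifs
  · exact a _ (by rw [show (-2 - 1 : ℂ) = -3 by ring, V.map_neg, h.2])
  · exact a _ (by simp)
  · exact a _ hs

theorem e3_eq {p : ℕ} (c : p.Coprime m) : e3 m p = J(p | 3) :=
  if_pos (Nat.isCoprime_iff_coprime.2 c)

theorem hm_of (E : Eg m (e3 m) G A B) (h : ∀ p : ℕ, p.Prime → p ∣ m → p ∣ R) :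
    Hm R (fun p => J(p | 3)) A where
  one := E.one
  mul a b c := by
    rcases eq_or_ne b 0 with rfl | b0
    · rw [Nat.coprime_zero_right a |>.1 c, E.one, one_mul, one_mul]
    by_cases d : b.Coprime m
    · exact Fb.a_mul E.chr.one E.qe E.hk b0 d c.symm
    · rw [E.dep b d, E.dep _ fun z => d z.coprime_mul_left, mul_zero]
  pow p k hp n := by
    have c : p.Coprime m := hp.coprime_iff_not_dvd.2 fun z => n (h p hp z)
    have := Fb.hk_co E.qe hp (E.hk p c) E.chr.one (p ^ (k + 1))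
    rw [if_pos (dvd_pow_self p k.succ_ne_zero), ← pow_succ', pow_succ p k,
      Nat.mul_div_cancel _ hp.pos, e3_eq c, ← pow_succ] at this
    linear_combination this

theorem cg_of (cfc : CFC) (h : V3 V) (E : Eg m (e3 m) G A B) (e : Crv) (r3 : 3 ∣ R) (rm : R ∣ m)
    (nm : e.N ∣ m) (pm : ∀ p : ℕ, p.Prime → p ∣ m → p ∣ R)
    (cg : ∀ p : ℕ, p.Prime → ¬ p ∣ R → V (A p - J(p | 3) * e.a p) ≤ 1 / 3) (s)
    (hs : Cq 3 (P004F.Qx.dp R e.a) s) (i : ℕ) : V (s.coeff i - A i) ≤ 1 / 3 := by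
  have := cfc V h e.N R e.a _ A _ s e.rn.one e.rn.te r3 (fun p hp n =>
    ⟨fun z => n (pm p hp (z.trans nm)), cg p hp n, by simp⟩) le_rfl (by norm_num) (hm_of E pm) hs i
  split_ifs at this with c
  · exact this
  · rwa [E.dep i fun z => c (z.coprime_dvd_right rm)]

/-- the congruences at the primes -/
theorem cg_pr (h : V3 V) {s : ℂ} (hs : V (s - 1) ≤ 1 / 3) {ρ : GQ → G3} {S : List ℕ}
    {a a' : ℕ → ℤ} (t : Tr a S ρ) (t' : Tr a' S (tw ρ)) (m0 : 0 < m) (E : Eg m (e3 m) G A B)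
    (fr : ∀ l P g, Ov l P → l ∉ S.toFinset → Fb l P g → A l = ts s (ρ g) ∧ (ρ g).det = l)
    {p : ℕ} (hp : p.Prime) (n : p ∉ S) (c : p.Coprime m) (m3 : 3 ∣ m) :
    V (conj (A p) - J(p | 3) * a p) ≤ 1 / 3 ∧ V (A p - J(p | 3) * a' p) ≤ 1 / 3 := by
  obtain ⟨P, o⟩ := P022K.GW.Pl.ex_ov hp
  obtain ⟨g, f⟩ : ∃ φ, Fb p P φ := P022D.W.exists_phi o.1 o.2.1 o.2.2
  obtain ⟨e, d⟩ := fr p P g o (by simpa using n) f
  have n3 : ¬ 3 ∣ p := fun z => by
    have := Nat.eq_one_of_dvd_coprimes c z m3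
    omega
  constructor
  · rw [← Fe.Ml.cj_eq m0 E hp.ne_zero c, e3_eq c, map_intCast, ← mul_sub, mul_comm, e]
    exact Cfc.mul_le (ts_near h hs _ (t p P g o n f)) (Cfc.int_le h _)
  · rw [e, ← Int.cast_mul]
    refine ts_near h hs _ ?_
    have := (ZMod.intCast_zmod_eq_zero_iff_dvd _ 3).2 (Cfc.jac_dvd n3)
    push_cast at this ⊢
    rw [t' p P g o n f, tw, Matrix.trace_smul, d, smul_eq_mul]
    linear_combination (ρ g).trace * this

theorem v_tp (h : V3 V) (n : ℕ) : ∀ z : ℂ, z ^ 3 ^ n = 1 → V (z - 1) < 1 := by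
  induction n with
  | zero => intro z hz; simp [show z = 1 by simpa using hz]
  | succ n ih =>
    intro z hz
    have a := ih (z ^ 3) (by rw [← pow_mul, ← pow_succ', hz])
    have b : V z = 1 := (pow_eq_one_iff_of_nonneg (V.nonneg _) (n := 3 ^ (n + 1))
      (by positivity)).1 (by rw [← map_pow, hz, map_one])
    have c : V (z - 1) ≤ 1 := Cfc.sub_le h b.le (by simp)
    have d := Bx.sub_le h.1 (z ^ 3 - 1) (3 * (z * (z - 1)))
    rw [show z ^ 3 - 1 - 3 * (z * (z - 1)) = (z - 1) ^ 3 by ring, map_pow, map_mul, map_mul, h.2,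
      b] at d
    exact lt_of_pow_lt_pow_left₀ 3 zero_le_one (by
      rw [one_pow]; exact d.trans_lt (max_lt a (by linarith)))

variable {K : Type} [Field K] [NumberField K] {ι : ℂ →+* ℂ_[3]} {J : K →+* ℂ} {Ω : ℝ} {h k c : ℕ}
  {ξ lam : Ideal (𝓞 K) → ℂ}

theorem la_near (hV : V3 V) (hx : ∀ x : 𝓞 K, V (J x) ≤ 1 ∧ ∃ k : ℤ, V (J x - k) ≤ 1 / 3)
    (L : La J h k lam) {I : Ideal (𝓞 K)} (o : (absNorm I).Coprime 3) : V (lam I - 1) ≤ 1 / 3 := by
  obtain ⟨α, h1, h2⟩ := L.2 I fun e => by simp [e] at o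
  obtain ⟨y, hy⟩ := mem_span_singleton'.1 (h1 ▸ pow_mem_pow (absNorm_mem I) h)
  have h3 : V (J y) * V (J α) = 1 := by
    rw [← V.map_mul, ← map_mul, show (y : K) * α = (y * α : 𝓞 K) from rfl, hy]
    simp [Cfc.cop_eq hV (Nat.prime_three.coprime_iff_not_dvd.1 o.symm)]
  have h4 : V (J α) = 1 :=
    le_antisymm (hx α).1 (h3.ge.trans (mul_le_of_le_one_left (V.nonneg _) (hx y).1))
  obtain ⟨t, ht⟩ := (hx α).2
  have t3 : ¬ 3 ∣ t := fun z => by
    have := Cfc.add_le hV ht (Cfc.three_le hV z)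
    rw [sub_add_cancel, h4] at this
    norm_num at this
  have h5 : V (J α ^ 2 - 1) ≤ 1 / 3 := by
    rw [show J α ^ 2 - 1 = (J α - t) * (J α + t) + ((t ^ 2 - 1 : ℤ) : ℂ) by push_cast; ring]
    refine Cfc.add_le hV (Cfc.mul_le ht (Cfc.add_le hV h4.le (Cfc.int_le hV t)))
      (Cfc.three_le hV ?_)
    have : t % 3 = 1 ∨ t % 3 = 2 := by omega
    refine Int.dvd_of_emod_eq_zero ?_
    rcases this with z | z <;> simp [sq, Int.sub_emod, Int.mul_emod, z]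
  rw [h2, pow_mul, inv_pow]
  refine Bx.pow_le hV.1 (by norm_num) ?_ _
  rwa [Bx.inv_eq hV.1 (h5.trans_lt (by norm_num))]

theorem hc_g (B : Base ι J Ω) (r : Rg c ξ) (L : La J h k lam) :
    HC J (2 * h * k) (span {(c : 𝓞 K)}) fun I => ξ I * lam I := by
  have n : ∀ I, I ≠ ⊥ → lam I ≠ 0 := fun I x z => by
    have := C.Cm.la_nm B L x
    rw [z, norm_zero, eq_comm, inv_eq_zero] at this
    exact x (absNorm_eq_zero_iff.1 (by exact_mod_cast pow_eq_zero_iff'.1 this |>.1))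
  refine ⟨by rw [r.rc.one, (C.Cm.la_cm B L).one, one_mul], fun I I' => by
    rw [r.rc.mul, (C.Cm.la_cm B L).mul, mul_mul_mul_comm], fun I => ?_, fun x x0 x1 => ?_⟩
  · rw [mul_eq_zero, r.rc.zero]
    exact or_iff_left_of_imp fun z => .inl (by_contra fun y => n I y z)
  · rw [r.rc.prn x x0 x1, one_mul, C.Cm.la_eq B L (mt span_singleton_eq_bot.1 x0) (α := x ^ h)
      (span_singleton_pow _ _).symm, Algebra.norm_self, mul_comm 2 h, mul_assoc, pow_mul _ h]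
    simp

/-- the final inequality -/
theorem fin_le {v δ y : ℝ} {n : ℕ} {p q : ℕ → Prop} (v0 : 0 < v) (v1 : v < 1) (d0 : 0 ≤ δ)
    (d : δ < v ^ n) (hy : v ^ n ≤ y) (h : ∀ l l', (∀ i < l, ¬ p i) → (∀ i < l', ¬ q i) →
      y ≤ (max δ (v ^ l) * max δ (v ^ l')) ^ 4) : ∃ l l', p l ∧ q l' ∧ y ≤ v ^ (4 * (l + l')) := by
  have d1 : δ < 1 := d.trans_le (pow_le_one₀ v0.le v1.le)
  have m1 : ∀ l, max δ (v ^ l) ≤ 1 := fun l => max_le d1.le (pow_le_one₀ v0.le v1.le)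
  have m0 : ∀ l, 0 ≤ max δ (v ^ l) := fun l => le_max_of_le_left d0
  have k : ∀ l l', y ≤ (max δ (v ^ l) * max δ (v ^ l')) ^ 4 → y ≤ max δ (v ^ l) := fun l l' e =>
    e.trans ((pow_le_of_le_one (mul_nonneg (m0 _) (m0 _)) (mul_le_one₀ (m1 _) (m0 _) (m1 _))
      four_ne_zero).trans (mul_le_of_le_one_right (m0 _) (m1 _)))
  have lt : max δ (v ^ (n + 1)) < y :=
    (max_lt d (pow_lt_pow_right_of_lt_one₀ v0 v1 n.lt_succ_self)).trans_le hy
  have hp : ∃ l, p l := by_contra fun z => (k _ 0 (h (n + 1) 0 (fun i _ u => z ⟨i, u⟩)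
    fun i u => absurd u i.not_lt_zero)).not_gt lt
  have hq : ∃ l, q l := by_contra fun z => (k _ 0 (mul_comm (max δ _) _ ▸ h 0 (n + 1)
    (fun i u => absurd u i.not_lt_zero) fun i _ u => z ⟨i, u⟩)).not_gt lt
  have e := h _ _ (fun i => Nat.find_min hp) fun i => Nat.find_min hq
  have a : ∀ l, y ≤ max δ (v ^ l) → max δ (v ^ l) = v ^ l := fun l u =>
    max_eq_right (by_contra fun z => (d.trans_le hy).not_ge (by rwa [max_eq_left (not_le.1 z).le] at u))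
  refine ⟨_, _, Nat.find_spec hp, Nat.find_spec hq, ?_⟩
  have e' := a _ (k _ _ (by rwa [mul_comm] at e))
  rwa [a _ (k _ _ e), e', ← pow_add, ← pow_mul, mul_comm] at e

end Vale.Agent.P014Y.Ln.An
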