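import Vale.Agent.P014Y.Tp.St

/-!
# P014 Y, block LN: the export with smoothing primes which depend on the layer
-/

set_option autoImplicit false

open NumberField Module Matrix
open scoped Classical

noncomputable section

namespace Vale.Agent.P014Y.Ln

open Vale.Agent.P022 (Qb GQ)
open P004C.Al (Ic)
open P004C.Wa (Sp)
open P004C.Ln (Jc Dp)
open C (Base Vb dv sc La Sm)
open F (Crv Fld)
open Tp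

/-- **the analytic side, any sign character** -/
def ANB : Prop := ∀ (e e' : Crv) (ρ : GQ → G3), Rh ρ e.S.toFinset →
  (∃ g h, ρ g * ρ h ≠ ρ h * ρ g) → e'.S = e.S → Tr e.a e.S ρ → Tr e'.a e.S (tw ρ) →
  ∀ (κ : Type) [Fintype κ] (x : κ → Fin 2 → ZMod 3) (L : κ → Type) [∀ i, Field (L i)]
    [∀ i, NumberField (L i)] (jL : ∀ i, L i →+* Qb), Fam ρ x jL → ∀ ι V, Pl ι V (e.P 3) →
  ∃ T : ℕ, ∀ b : Fld e, T ≤ b.δ' → Im b.j ρ → ∀ I I' Y, Hd b e' I I' Y →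
  ∀ Ω, Base ι (Jc b.j) Ω → ∀ (M : κ → Type) [∀ i, Field (M i)] [∀ i, NumberField (M i)]
    [∀ i, Algebra b.K (M i)] [∀ i, Algebra (L i) (M i)] (jM : ∀ i, M i →+* Qb),
  (∀ i, Cp b.j (jL i) (jM i)) → ∀ (n : κ → ℕ) (β : ∀ i, Basis (Fin (n i)) b.K (M i))
    (ψ : ∀ i, Ideal (𝓞 (M i)) → ℂ), (∀ i, Vb ι (Jc b.j) (β i)) →
  (∀ i, Ic (jM i) (fun g => th 0 (ρ g)) (ψ i)) →
  ∀ B : ℕ, ∃ δ : ℝ, δ < 1 ∧ ∀ n₀ c χ ζ ξ, Lay b n₀ c χ ζ ξ →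
  (∃ w w' : Ideal (𝓞 b.K), Sp c w w') → ∀ (h k : ℕ) lam, La (Jc b.j) h k lam → 3 ≤ 2 * h * k →
  ∀ (a : ∀ i, Ideal (𝓞 (M i)) → ℂ) (y : ℝ), (∀ i I, a i I = ψ i I *
    (ξ (Ideal.relNorm (𝓞 b.K) I) * lam (Ideal.relNorm (𝓞 b.K) I))) →
  y = ∏ i, sc Ω (dv ι (Jc b.j) (β i) * cf ι (Jc b.j) (ψ i)) (n i) (2 * h * k) *
    V (∑' I, Dp ((tS b).map (algebraMap (𝓞 b.K) (𝓞 (M i)))) (a i) I) →
  δ < V (ζ - 1) → V (ζ - 1) ^ B ≤ y → (∀ i (w : Ideal (𝓞 (M i))), w.IsMaximal →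
    ((e.S.prod / 3 : ℕ) : 𝓞 (M i)) ∈ w → ∀ u : ℂ, u = 0 ∨ u ^ 2 = 1 → V (ζ - 1) ^ 3 ≤
      V (1 - u * (ξ (Ideal.relNorm (𝓞 b.K) w) * lam (Ideal.relNorm (𝓞 b.K) w)))) →
  (∀ i t, 0 < t → ∃ (s : Ideal (𝓞 (M i))) (l : ℕ), Sm s l ∧ l.Coprime t ∧
    (ψ i s = -1 ∨ V (ζ - 1) ≤ V (1 - l * a i s))) →
  ∃ l l', An0 b e b.Y c χ l ∧ An0 b e' Y c χ l' ∧ y ≤ V (ζ - 1) ^ (4 * (l + l'))

end Vale.Agent.P014Y.Ln
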