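import Mathlib.Analysis.Complex.CauchyIntegral
import Mathlib.Analysis.Complex.Convex
import Mathlib.Analysis.Analytic.Uniqueness

/-!
# P014 Y, block LN: values of continuations at `s = 0`
-/

open Filter Topology

noncomputable section

namespace Vale.Agent.P014Y.Ln

/-- `z` is the value at `0` of the continuation of `f` from `1 < re s` -/
def Cv (f : ℂ → ℂ) (z : ℂ) : Prop := ∃ δ : ℝ, 0 < δ ∧ ∃ D E : ℂ → ℂ,
  DifferentiableOn ℂ D {s | -δ < s.re} ∧ DifferentiableOn ℂ E {s | -δ < s.re} ∧ E 0 ≠ 0 ∧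
    D 0 = E 0 * z ∧ ∀ s : ℂ, 1 < s.re → D s = E s * f s

namespace Cv

variable {f g : ℂ → ℂ} {z w : ℂ}

theorem of_on {δ : ℝ} (d : 0 < δ) (h : DifferentiableOn ℂ f {s | -δ < s.re}) : Cv f (f 0) :=
  ⟨δ, d, f, fun _ => 1, h, differentiableOn_const _, one_ne_zero, (one_mul _).symm,
    fun _ _ => (one_mul _).symm⟩

theorem of_diff (h : Differentiable ℂ f) : Cv f (f 0) := of_on one_pos h.differentiableOn

theorem congr (h : Cv f z) (e : ∀ s : ℂ, 1 < s.re → f s = g s) : Cv g z := by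
  obtain ⟨δ, d, D, E, a, b, c, k, h⟩ := h
  exact ⟨δ, d, D, E, a, b, c, k, fun s hs => e s hs ▸ h s hs⟩

theorem sub1 (δ δ' : ℝ) : {s : ℂ | -min δ δ' < s.re} ⊆ {s | -δ < s.re} := fun _ a =>
  show _ < _ from (neg_le_neg (min_le_left _ _)).trans_lt a.out

theorem sub2 (δ δ' : ℝ) : {s : ℂ | -min δ δ' < s.re} ⊆ {s | -δ' < s.re} := fun _ a =>
  show _ < _ from (neg_le_neg (min_le_right _ _)).trans_lt a.out

theorem mul (h : Cv f z) (h' : Cv g w) : Cv (fun s => f s * g s) (z * w) := by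
  obtain ⟨δ, d, D, E, a, b, c, k, h⟩ := h
  obtain ⟨δ', d', D', E', a', b', c', k', h'⟩ := h'
  exact ⟨min δ δ', lt_min d d', fun s => D s * D' s, fun s => E s * E' s,
    (a.mono (sub1 _ _)).mul (a'.mono (sub2 _ _)), (b.mono (sub1 _ _)).mul (b'.mono (sub2 _ _)),
    mul_ne_zero c c', by simp only [k, k']; ring, fun s hs => by simp only [h s hs, h' s hs]; ring⟩

theorem prod {ι : Type} (S : Finset ι) {f : ι → ℂ → ℂ} {z : ι → ℂ} (h : ∀ i ∈ S, Cv (f i) (z i)) :
    Cv (fun s => ∏ i ∈ S, f i s) (∏ i ∈ S, z i) := by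
  classical
  induction S using Finset.induction_on with
  | empty => simpa using of_diff (differentiable_const (1 : ℂ))
  | insert a S ha ih =>
    simp only [Finset.prod_insert ha]
    exact (h a (by simp)).mul (ih fun i hi => h i (by simp [hi]))

theorem pow (h : Cv f z) (n : ℕ) : Cv (fun s => f s ^ n) (z ^ n) := by
  simpa using prod (Finset.range n) (f := fun _ => f) (z := fun _ => z) fun _ _ => h

theorem uniq (h : Cv f z) (h' : Cv g w) (e : ∀ s : ℂ, 1 < s.re → f s = g s) : z = w := by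
  obtain ⟨δ, d, D, E, a, b, c, k, h⟩ := h
  obtain ⟨δ', d', D', E', a', b', c', k', h'⟩ := h'
  have o : ∀ r : ℝ, IsOpen {s : ℂ | r < s.re} := fun r =>
    isOpen_lt continuous_const Complex.continuous_re
  have m0 : 0 < min δ δ' := lt_min d d'
  have := (((a.mono (sub1 δ δ')).mul (b'.mono (sub2 _ _))).analyticOnNhd
    (o _)).eqOn_of_preconnected_of_eventuallyEq
    (((b.mono (sub1 δ δ')).mul (a'.mono (sub2 _ _))).analyticOnNhd (o _))
    (convex_halfSpace_re_gt _).isPreconnected (z₀ := 2)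
    (by simp only [Set.mem_ofPred_eq, Complex.re_ofNat]; linarith)
    (((o 1).eventually_mem (by simp)).mono fun s a => by
      simp only [Pi.mul_apply, h s a, h' s a, e s a]; ring) (x := 0) (by simpa using m0)
  simp only [Pi.mul_apply, k, k'] at this
  exact mul_left_cancel₀ (mul_ne_zero c c') (by linear_combination this)

end Cv

end Vale.Agent.P014Y.Ln
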