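import Vale.Agent.P014Y.Ln.St2
import Vale.Agent.P014Y.C.Cg.Cgx

/-!
# P014 Y, Ln: row CGX
-/

namespace Vale.Agent.P014Y.Ln

theorem cgx : CGX := C.Cg.cgx0

end Vale.Agent.P014Y.Ln
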