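import Vale.Agent.P014Y.Ln.St2
import Vale.Agent.P014Y.C.As.Vaq
import Vale.Agent.P004C.Ln.Pv3a
import Vale.Agent.P004C.Ln.Hex

/-!
# P014 Y, block LN: the conductor at `v` (row `CSX`, helper16)
-/

set_option autoImplicit false
set_option linter.all false

open NumberField Module Ideal
open scoped Classical

noncomputable section

namespace Vale.Agent.P014Y.Ln

open P004C.Wa (Kd Sp RC)
open P004C.Ln (Dp)
open P004C.Ln.Pv (cop_mul coe_nm nm0)
open P014Y.C (Base Pv Av HC)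
open P014Y.C.Al.Gx P014Y.C.As.Vq
open P014Y.C.Cg (Lc)

namespace Cs

section

variable {R A : Type} [CommRing R] [CommRing A]

theorem top_of {x : R} {F : Ideal R} (h : x - 1 ∈ F) : span {x} ⊔ F = ⊤ := by
  rw [eq_top_iff_one, show (1 : R) = x - (x - 1) by ring]
  exact sub_mem (mem_sup_left (mem_span_singleton_self x)) (mem_sup_right h)

theorem top_max {x : R} {P : Ideal R} (m : P.IsMaximal) (h : x ∉ P) : span {x} ⊔ P = ⊤ :=
  by_contra fun k => h ((m.eq_of_le k le_sup_right).ge (mem_sup_left (mem_span_singleton_self x)))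

theorem cop_pow {I f : Ideal R} (h : I ⊔ f = ⊤) (j : ℕ) : I ⊔ f ^ j = ⊤ :=
  isCoprime_iff_sup_eq.1 (isCoprime_iff_sup_eq.2 h).pow_right

theorem cn_pow {n n' : Ideal R} {m : ℕ} (c : n ⊔ n' = ⊤) (e : n * n' = span {(m : R)})
    (h : ∀ x : R, ∃ k : ℤ, x - k ∈ n) (j : ℕ) (x : R) : ∃ k : ℤ, x - k ∈ n ^ j := by
  induction j with
  | zero => exact ⟨0, by simp⟩
  | succ j ih =>
    obtain ⟨k, h1⟩ := ih
    rw [← mul_top (n ^ j), ← cop_pow c j, Ideal.mul_sup, ← mul_pow, e, span_singleton_pow,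
      Submodule.mem_sup] at h1
    obtain ⟨z, hz, w, hw, h1⟩ := h1
    obtain ⟨y, rfl⟩ := mem_span_singleton'.1 hw
    obtain ⟨l, h2⟩ := h y
    refine ⟨k + l * m ^ j, ?_⟩
    rw [show x - (k + l * m ^ j : ℤ) = z + m ^ j * (y - l) by push_cast; linear_combination -h1,
      pow_succ]
    exact add_mem hz (mul_mem_mul (pow_mem_pow
      ((mul_le_left : n * n' ≤ n) (e ▸ mem_span_singleton_self _)) j) h2)

/-- the part of an ideal which divides a power of `a` -/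
theorem part [IsDedekindDomain R] (a f : Ideal R) (h : f ≠ ⊥) :
    ∃ j f₁ f₂, f = f₁ * f₂ ∧ a ^ j ≤ f₁ ∧ f₂ ⊔ a = ⊤ := by
  induction f using UniqueFactorizationMonoid.induction_on_prime with
  | h₁ => exact absurd rfl h
  | h₂ I u => exact ⟨0, ⊤, I, by simp, le_top, by rw [isUnit_iff.1 u, top_sup_eq]⟩
  | h₃ I P n p ih =>
    obtain ⟨j, f₁, f₂, rfl, a1, a2⟩ := ih n
    by_cases k : P ⊔ a = ⊤
    · exact ⟨j, f₁, P * f₂, by ring, a1,
        (sup_comm _ _).trans (cop_mul.2 ⟨(sup_comm _ _).trans k, (sup_comm _ _).trans a2⟩)⟩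
    · exact ⟨j + 1, P * f₁, f₂, by ring, (pow_succ' a j).le.trans (mul_mono (le_sup_right.trans
        (((isPrime_of_prime p).isMaximal p.ne_zero).eq_of_le k le_sup_left).ge) a1), a2⟩

theorem two {f N N' : Ideal R} (c : N ⊔ N' = ⊤) (l : N * N' ≤ f) : f = (f ⊔ N') * (f ⊔ N) := by
  refine le_antisymm ?_ ?_
  · refine (mul_top f).ge.trans ?_
    rw [← c, Ideal.mul_sup, mul_comm f N']
    exact sup_le (mul_mono le_sup_left le_sup_right) (mul_mono le_sup_right le_sup_left)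
  · rw [Ideal.sup_mul, Ideal.mul_sup N']
    exact sup_le mul_le_left (sup_le mul_le_right (mul_comm N N' ▸ l))

variable (a : A →+* R) {N : Ideal R} (su : ∀ x, ∃ y, x - a y ∈ N)
include su

theorem cm {f : Ideal A} (l : N.comap a ≤ f) : (f.map a ⊔ N).comap a = f := by
  have := comap_map_of_surjective ((Ideal.Quotient.mk N).comp a) (fun z => by
    obtain ⟨x, rfl⟩ := Ideal.Quotient.mk_surjective z
    obtain ⟨y, h⟩ := su x
    exact ⟨y, (Ideal.Quotient.eq.2 h).symm⟩) f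
  rwa [← map_map, ← comap_comap, ← comap_comap, comap_map_of_surjective _
    Ideal.Quotient.mk_surjective, ← RingHom.ker_eq_comap_bot, mk_ker, sup_eq_left.2 l] at this

theorem mc {F : Ideal R} (l : N ≤ F) : F ≤ (F.comap a).map a ⊔ N := fun x hx => by
  obtain ⟨y, h⟩ := su x
  rw [show x = a y + (x - a y) by ring]
  exact add_mem (mem_sup_left (mem_map_of_mem _ (by simpa using sub_mem hx (l h)))) (mem_sup_right h)

theorem crd {F : Ideal R} (l : N ≤ F) : Nat.card (A ⧸ F.comap a) = Nat.card (R ⧸ F) :=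
  Nat.card_eq_of_bijective (quotientMap F a le_rfl) ⟨quotientMap_injective, fun z => by
    obtain ⟨x, rfl⟩ := Ideal.Quotient.mk_surjective z
    obtain ⟨y, h⟩ := su x
    exact ⟨Ideal.Quotient.mk _ y, quotientMap_mk.trans (Ideal.Quotient.eq.2 (l h)).symm⟩⟩

end

variable {K L M : Type} [Field K] [NumberField K] [Field L] [NumberField L] [Field M]
  [NumberField M] [Algebra K M] {ι : ℂ →+* ℂ_[3]} {J : K →+* ℂ} {Ω : ℝ}

theorem cn {I : Ideal (𝓞 K)} (h : absNorm I = 3) (a : 𝓞 K) : ∃ k : ℤ, a - k ∈ I := by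
  have : Fact (Nat.Prime 3) := ⟨Nat.prime_three⟩
  have t : I ≠ ⊤ := fun e => by simp [e] at h
  have c : Nat.card (𝓞 K ⧸ I) = 3 := by rw [← h, absNorm_apply, Submodule.cardQuot_apply]
  obtain ⟨k, hk⟩ := mem_zmultiples_of_prime_card c
    (fun e : (1 : 𝓞 K ⧸ I) = 0 => t (Ideal.Quotient.zero_eq_one_iff.1 e.symm))
    (g' := Ideal.Quotient.mk I a)
  refine ⟨k, Ideal.Quotient.eq.1 ?_⟩
  rw [← hk, map_intCast]
  exact zsmul_one k

/-- the powers of `v` -/
theorem sp (B : Base ι J Ω) (j : ℕ) : Sp (3 ^ j) (vv ι J ^ j) (vv ι (Jc J) ^ j) ∧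
    absNorm (vv ι (Jc J) ^ j) = 3 ^ j := by
  obtain ⟨e, n⟩ := vv_two B
  have c := vv_cop B
  have n' : absNorm (vv ι (Jc J)) = 3 := by
    have := absNorm_span_natCast (S := 𝓞 K) 3
    rw [RingOfIntegers.rank, B.two, Nat.cast_ofNat, ← e, map_mul, n] at this
    omega
  exact ⟨⟨by positivity, isCoprime_iff_sup_eq.1 (isCoprime_iff_sup_eq.2 c).pow,
    by rw [← mul_pow, e, span_singleton_pow]; simp, cn_pow c (m := 3) e (cn n) j,
    cn_pow ((sup_comm _ _).trans c) (m := 3) ((mul_comm _ _).trans e) (cn n') j, by rw [map_pow, n]⟩,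
    by rw [map_pow, n']⟩

theorem nm3 (ι : ℂ →+* ℂ_[3]) (J : K →+* ℂ) {f : Ideal (𝓞 L)} (h : f ⊔ span {3} = ⊤) :
    ‖(absNorm f : ℂ_[3])‖ = 1 := by
  have c : (absNorm f).Coprime 3 := (Nat.prime_three.coprime_iff_not_dvd.2 fun e => by
    obtain ⟨P, a, b, c⟩ := exists_isMaximal_dvd_of_dvd_absNorm' Nat.prime_three f e
    have k : ((3 : ℕ) : ℤ) ∈ P.under ℤ := b ▸ mem_span_singleton_self _
    rw [mem_comap, map_natCast] at k
    exact a.ne_top (top_unique (h ▸ sup_le (le_of_dvd c) ((span_singleton_le_iff_mem _).2 k)))).symm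
  obtain ⟨a, b, e⟩ := c.cast (R := 𝓞 K)
  simpa using (not_vv (ι := ι) (J := J) (s := absNorm f)).1 fun z => vv_prime.one_notMem
    (e ▸ add_mem (mul_mem_left _ _ z) (mul_mem_left _ _ two_vv))

/-- norms of elements which are one modulo `g`, any degree -/
theorem nm1 {g : Ideal (𝓞 K)} {x : 𝓞 M} (h : x - 1 ∈ g.map (algebraMap (𝓞 K) (𝓞 M))) :
    Algebra.intNorm (𝓞 K) (𝓞 M) x - 1 ∈ g := by
  have k : algebraMap (𝓞 K) (𝓞 (AlgebraicClosure K)) (Algebra.intNorm (𝓞 K) (𝓞 M) x) =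
      ∏ σ : M →ₐ[K] AlgebraicClosure K, RingOfIntegers.mapAlgHom σ x := by
    apply RingOfIntegers.ext
    have := Algebra.norm_eq_prod_embeddings K (AlgebraicClosure K) (x : M)
    rw [← coe_nm] at this
    rw [RingOfIntegers.coe_eq_algebraMap (∏ _, _), map_prod]
    exact this
  rw [← comap_map_eq_self_of_faithfullyFlat (B := 𝓞 (AlgebraicClosure K)) g, mem_comap, map_sub,
    map_one, ← Ideal.Quotient.eq, k, map_prod, map_one]
  refine Finset.prod_eq_one fun σ _ => ?_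
  rw [← map_one (Ideal.Quotient.mk _), Ideal.Quotient.eq]
  have k1 := mem_map_of_mem (RingOfIntegers.mapAlgHom σ) h
  rw [map_sub, map_one] at k1
  refine map_le_iff_le_comap.2 (map_le_iff_le_comap.2 fun y hy => ?_) k1
  rw [mem_comap, mem_comap, AlgHom.commutes]
  exact mem_map_of_mem _ hy

theorem cop_rel {g : Ideal (𝓞 K)} {I : Ideal (𝓞 M)} :
    relNorm (𝓞 K) I ⊔ g = ⊤ ↔ I ⊔ g.map (algebraMap (𝓞 K) (𝓞 M)) = ⊤ := by
  refine ⟨fun e => eq_top_iff.2 ?_, fun e => ?_⟩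
  · rw [← map_top (algebraMap (𝓞 K) (𝓞 M)), ← e, Ideal.map_sup]
    exact sup_le_sup_right (map_le_iff_le_comap.2 (relNorm_le_comap _ I)) _
  · obtain ⟨x, hx, y, hy, u⟩ := Submodule.mem_sup.1 ((eq_top_iff_one _).1 e)
    exact top_unique ((top_of (nm1 (x := x) (by rw [← u]; simpa using hy))).ge.trans
      (sup_le_sup_right ((span_singleton_le_iff_mem _).2 (intNorm_mem_spanNorm _ hx)) g))

theorem hc_dp {k : ℕ} {G F F' : Ideal (𝓞 M)} {a : Ideal (𝓞 M) → ℂ} (h : HC J k (G * F) a)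
    (l : F' ≤ G) : HC J k (F' * F) (Dp F' a) := by
  refine ⟨by rw [Dp, if_pos (by simp), h.one], fun I I' => ?_, fun I => ?_, fun x x0 x1 => ?_⟩
  · have : I * I' ⊔ F' = ⊤ ↔ I ⊔ F' = ⊤ ∧ I' ⊔ F' = ⊤ := by
      simp only [← isCoprime_iff_sup_eq, IsCoprime.mul_left_iff]
    simp only [Dp, this, h.mul]
    by_cases p : I ⊔ F' = ⊤ <;> by_cases q : I' ⊔ F' = ⊤ <;> simp [p, q]
  · by_cases p : I ⊔ F' = ⊤
    · have q : I ⊔ G = ⊤ := top_unique (p ▸ sup_le_sup_left l I)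
      simp only [Dp, p, if_true, h.zero, Ne, cop_mul, q]
    · simp [Dp, p, cop_mul]
  · rw [Dp, if_pos (top_of (mul_le_left x1)), h.prn x x0 (mul_mono_left l x1)]

variable [Algebra L M] {k : ℕ} {f : Ideal (𝓞 L)} {g : Ideal (𝓞 K)} {φ : Ideal (𝓞 L) → ℂ}
  {α : Ideal (𝓞 K) → ℂ}

theorem val (ha : HC J k g α) {x : 𝓞 M} (x0 : x ≠ 0) (x1 : x - 1 ∈ g.map (algebraMap _ (𝓞 M))) :
    cM M φ α (span {x}) = φ (span {Algebra.intNorm (𝓞 L) (𝓞 M) x}) *
      (J (Algebra.norm K (x : M)))⁻¹ ^ k := by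
  rw [cM, relNorm_singleton, relNorm_singleton, ha.prn _ (nm0 x0) (nm1 x1), Algebra.norm_self,
    coe_nm]
  rfl

theorem hcm (r : RC (fun _ => 1) f φ) (ha : HC J k g α) :
    HC J k (f.map (algebraMap _ (𝓞 M)) * g.map (algebraMap _ (𝓞 M))) (cM M φ α) := by
  refine ⟨?_, fun I I' => ?_, fun I => ?_, fun x x0 x1 => ?_⟩
  · rw [cM, map_one, map_one, r.one, ha.one, mul_one]
  · simp only [cM, map_mul, r.mul, ha.mul]
    ring
  · simp only [cM, mul_eq_zero, r.zero, ha.zero, relNorm_eq_bot_iff, Ne, cop_rel, cop_mul]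
    tauto
  · rw [val ha x0 (mul_le_right x1), r.prn _ (nm0 x0) (nm1 (mul_le_left x1)), one_mul]

theorem pair {D : ℕ} {θ : 𝓞 K} (h2 : finrank ℚ K = 2) (B : Bc D θ L M) : ∃ σ : 𝓞 M →+* 𝓞 M,
    (∀ y : 𝓞 L, σ (algebraMap _ _ y) = algebraMap _ _ y) ∧
    (∀ x, algebraMap _ _ (Algebra.intNorm (𝓞 L) (𝓞 M) x) = x * σ x) ∧
    ∀ x : 𝓞 K, algebraMap _ _ x * σ (algebraMap _ _ x) = (Algebra.norm ℤ x : ℤ) := by
  obtain ⟨σ, a, -, nl⟩ := P004C.Wa.Co.aut2 L M B.two
  obtain ⟨s, -, b, n⟩ := P004C.Wa.Co.aut2 ℚ K h2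
  have : Algebra.IsQuadraticExtension ℚ K := ⟨h2⟩
  have c := (σ.restrictScalars ℚ).restrictNormal_commutes K
  have e : (σ.restrictScalars ℚ).restrictNormal K = s := (b _).resolve_left fun e => by
    obtain ⟨y, hy⟩ := a (algebraMap K M θ) (by simpa [e] using (c θ).symm)
    exact B.ne y hy
  refine ⟨RingOfIntegers.mapRingEquiv σ.toRingEquiv, fun y => RingOfIntegers.ext (σ.commutes y),
    fun x => RingOfIntegers.ext ?_, fun x => RingOfIntegers.ext ?_⟩
  · have := nl x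
    rw [← coe_nm] at this
    exact this
  have := congrArg (algebraMap K M) (n x)
  rw [map_mul, ← e, c, ← Algebra.coe_norm_int] at this
  refine this.symm.trans ?_
  simp

end Cs

open Cs in
/-- **CSX** -/
theorem csx (spl : SPL) : CSX := by
  intro K _ _ ι J Ω D θ B kd L M _ _ _ _ _ _ bc _ f φ pc h6
  obtain ⟨j, f₁, f₂, rfl, a1, a2⟩ := part (span {3}) f pc.rc.ne
  obtain ⟨S, n'⟩ := sp B j
  obtain ⟨su, kr, -⟩ := (spl K J D θ kd L M bc).2.2 _ _ _ S
  obtain ⟨σ, s1, s2, s3⟩ := pair kd.two bc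
  have c12 : f₁ ⊔ f₂ = ⊤ := top_unique ((cop_pow a2 j).ge.trans (sup_le le_sup_right
    (a1.trans le_sup_left)))
  rw [span_singleton_pow] at a1
  have mul := congrArg (Ideal.map (algebraMap (𝓞 K) (𝓞 M))) S.mul
  have cop := congrArg (Ideal.map (algebraMap (𝓞 K) (𝓞 M))) S.cop
  rw [Ideal.map_mul, map_span, Set.image_singleton, map_natCast] at mul
  rw [Ideal.map_sup, Ideal.map_top] at cop
  have nV : (vv ι J ^ j).map (algebraMap (𝓞 K) (𝓞 M)) = VV ι J M ^ j := Ideal.map_pow _ _ _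
  have p' : (vv ι (Jc J) ^ j).map (algebraMap (𝓞 K) (𝓞 M)) ⊔ VV ι J M = ⊤ := by
    rw [← Ideal.map_sup, sup_comm, cop_pow (vv_cop B), Ideal.map_top]
  have mK : ∀ x ∈ vv ι J ^ j, _ := fun x => mem_map_of_mem (algebraMap (𝓞 K) (𝓞 M)) (x := x)
  have N0 : VV ι J M ^ j ≠ ⊥ := pow_ne_zero _
    (map_ne_bot_of_ne_bot (S := 𝓞 M) (vv_ne (ι := ι) (J := J)))
  rw [← nV] at N0
  generalize (vv ι J ^ j).map (algebraMap (𝓞 K) (𝓞 M)) = N at su kr mul cop nV mK N0
  generalize (vv ι (Jc J) ^ j).map (algebraMap (𝓞 K) (𝓞 M)) = N' at mul cop p'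
  have l : N.comap (algebraMap (𝓞 L) (𝓞 M)) ≤ f₁ := fun y hy => a1 (by simpa using (kr y).1 hy)
  have cF := cm _ su l
  have e2 := two cop (f := f₁.map (algebraMap (𝓞 L) (𝓞 M))) (mul.le.trans
    ((span_singleton_le_iff_mem _).2 (by
      simpa [map_ofNat] using mem_map_of_mem (algebraMap (𝓞 L) (𝓞 M)) (a1 (mem_span_singleton_self _)))))
  have mF := @mc _ _ _ _ _ _ su
  have nF : N ≤ f₁.map (algebraMap (𝓞 L) (𝓞 M)) ⊔ N := le_sup_right
  generalize hF : f₁.map (algebraMap (𝓞 L) (𝓞 M)) ⊔ N = F at cF e2 nF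
  have e : (f₁ * f₂).map (algebraMap (𝓞 L) (𝓞 M)) = (f₁.map (algebraMap (𝓞 L) (𝓞 M)) ⊔ N') *
      f₂.map (algebraMap (𝓞 L) (𝓞 M)) * F := by
    rw [Ideal.map_mul, mul_right_comm, ← e2]
  refine ⟨_, F, e, pv_iff.2 ((sup_comm _ _).trans (cop_mul.2 ⟨top_unique (p'.ge.trans
    (sup_le (le_sup_right.trans le_sup_right) le_sup_left)), (sup_comm _ _).trans
      (pv_iff.1 (pv_two (ι := ι) (J := J) ?_))⟩)), ?_, fun k g α F' ha pF lF => ?_⟩
  · have := congrArg (Ideal.map (algebraMap (𝓞 L) (𝓞 M))) a2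
    rwa [Ideal.map_sup, map_span, Set.image_singleton, map_ofNat, Ideal.map_top] at this
  · rw [map_mul, Nat.cast_mul, norm_mul, nm3 ι J a2, mul_one, ← cF, absNorm_apply, absNorm_apply,
      Submodule.cardQuot_apply, Submodule.cardQuot_apply, crd _ su nF]
  have H := e ▸ hcm (M := M) pc.rc ha
  refine ⟨H, hc_dp (mul_right_comm _ F _ ▸ H) lF, fun z => N0 (le_bot_iff.1 (z ▸ nF)),
    fun P m d => ⟨m, fun p => m.ne_top ?_⟩, fun P F₁ m eF => ?_, 1, fun x x1 => ?_⟩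
  · rw [← cop_pow (pv_iff.1 p) j, ← nV, sup_eq_left.2 (nF.trans (le_of_dvd d))]
  · have nP : N ≤ P := nF.trans (eF ▸ mul_le_left)
    have n1 : N ≤ F₁ := nF.trans (eF ▸ mul_le_right)
    have F0 : F₁ ≠ ⊥ := fun z => N0 (le_bot_iff.1 (z ▸ n1))
    have pm : (P.comap (algebraMap (𝓞 L) (𝓞 M))).IsMaximal := IsMaximal.under (𝓞 L) P
    obtain ⟨c, hc⟩ := dvd_iff_le.2 (cF.ge.trans (comap_mono (eF.le.trans mul_le_right)))
    have f0 : F₁.comap (algebraMap (𝓞 L) (𝓞 M)) ≠ 0 := fun z => pc.rc.ne (by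
      rw [hc, z, zero_mul, zero_mul, zero_eq_bot])
    have cp : P.comap (algebraMap (𝓞 L) (𝓞 M)) = c := pm.eq_of_le (fun z => m.ne_top (by
      rw [z, mul_top] at hc
      have := mF n1
      rw [← hc, hF, eF, ← dvd_iff_le] at this
      exact isUnit_iff.1 (isUnit_of_dvd_one ((mul_dvd_mul_iff_right F0).1 (by rwa [one_mul])))))
      (le_of_dvd ((mul_dvd_mul_iff_left f0).1 (by
        rw [← hc, dvd_iff_le, ← cF, eF, mul_comm P]
        exact le_comap_mul _)))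
    have ef : f₁ * f₂ = P.comap (algebraMap (𝓞 L) (𝓞 M)) *
        (F₁.comap (algebraMap (𝓞 L) (𝓞 M)) * f₂) := by
      rw [cp, ← mul_assoc, mul_comm c, ← hc]
    obtain ⟨y, y1, y2, y0, y3⟩ := pc.pm _ _ pm ef
    obtain ⟨s, v1, v2⟩ := pF
    obtain ⟨p, p1, r, p2⟩ := ex_one v1 j
    obtain ⟨w, w1, t, t1, w2⟩ := Submodule.mem_sup.1 ((eq_top_iff_one _).1 S.cop)
    have u1 := mK (1 - t * (r * s)) (by
      rw [show 1 - t * (r * s) = w + t * p by linear_combination -w2 - t * p2]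
      exact add_mem w1 (mul_mem_left _ _ p1))
    have u2 : algebraMap (𝓞 K) (𝓞 M) (t * (r * s)) ∈ F' := by
      rw [map_mul, map_mul]
      exact mul_mem_left _ _ (mul_mem_left _ _ v2)
    have u3 := s3 (t * (r * s))
    obtain ⟨q, hq⟩ := absNorm_dvd_norm_of_mem (mul_mem_right (r * s) _ t1)
    rw [map_sub, map_one] at u1
    rw [hq, n', Int.cast_mul, Int.cast_natCast] at u3
    generalize algebraMap (𝓞 K) (𝓞 M) (t * (r * s)) = u at u1 u2 u3
    have u4 : σ u ∈ N := by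
      rw [show σ u = (1 - u) * σ u + u * σ u by ring, u3]
      exact add_mem (mul_mem_right _ _ u1) (mul_mem_right _ _
        (mul_le_left (mul ▸ mem_span_singleton_self _ : _ ∈ N * N')))
    obtain ⟨x, hx⟩ : ∃ x, x = 1 + u * (algebraMap (𝓞 L) (𝓞 M) y - 1) := ⟨_, rfl⟩
    have x1 : x - 1 ∈ F' * F₁ := by
      rw [hx, add_sub_cancel_left]
      exact mul_mem_mul u2 (by simpa using mem_comap.1 (mul_le_left y1))
    have x2 : x - algebraMap (𝓞 L) (𝓞 M) y ∈ N := by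
      rw [show x - _ = (1 - u) * (1 - algebraMap (𝓞 L) (𝓞 M) y) by rw [hx]; ring]
      exact mul_mem_right _ _ u1
    have x3 : σ x - 1 ∈ N := by
      rw [hx, map_add, map_one, add_sub_cancel_left, map_mul]
      exact mul_mem_right _ _ u4
    have xP : x ∉ P := fun z => y2 (by simpa using sub_mem z (nP x2))
    have x0 : x ≠ 0 := fun z => xP (z ▸ zero_mem _)
    have k := P004C.Ln.Hx.cng (s := fun _ => (1 : ℂ)) (fun _ _ => (one_mul _).symm) pc.rc y0
      (nm0 (k := L) x0) (ef ▸ cop_mul.2 ⟨top_max pm y2, top_of y1⟩) (by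
        rw [mul_eq_inf_of_coprime c12]
        refine ⟨l (mem_comap.2 ?_), ?_⟩
        · rw [map_sub, s2, show x * σ x - _ = x * (σ x - 1) + (x - algebraMap (𝓞 L) (𝓞 M) y) by ring]
          exact add_mem (mul_mem_left _ _ x3) x2
        · simpa using sub_mem (nm1 (mul_le_right (mul_le_left (lF (mul_le_left x1)))))
            (mul_le_right y1))
    rw [mul_one, mul_one] at k
    refine ⟨x, x1, xP, ?_⟩
    rw [Dp, if_pos (top_of (mul_le_left x1)), val ha x0 (mul_le_right (lF (mul_le_left x1))), ← k]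
    exact fun z => y3 (mul_right_cancel₀ (pow_ne_zero _ (inv_ne_zero ((map_ne_zero J).2
      (Algebra.norm_ne_zero_iff.2 (by simpa using x0))))) (z.trans (one_mul _).symm))
  · rw [Dp, if_pos (top_of x1)]
    by_cases x0 : x = 0
    · exact .inl ((H.zero _).2 (.inl (by simp [x0])))
    rw [val ha x0 (mul_le_right (lF x1)), mul_assoc, ← mul_pow, inv_mul_cancel₀ ((map_ne_zero J).2
      (Algebra.norm_ne_zero_iff.2 (by simpa using x0))), one_pow, mul_one]
    exact (h6 _).imp (fun z => by rw [z, zero_mul]) id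

end Vale.Agent.P014Y.Ln
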