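import Vale.Agent.P014Y.Ln.St2
import Vale.Agent.P014Y.C.As.Val
import Vale.Agent.P014Y.C.As.Vaq

/-!
# P014 Y, block LN: discriminant and tame conductor at `v` (rows DVL, CFX)
-/

set_option linter.all false

open NumberField Module Algebra
open scoped Classical ComplexConjugate

noncomputable section

namespace Vale.Agent.P014Y.Ln

open P004C.Wa (Kd Sp)
open C C.Al.Gx C.Al.Ds C.As.Va
open Fe (Pc cj)

namespace Dl

variable {K : Type} [Field K] [NumberField K] {ι : ℂ →+* ℂ_[3]} {J : K →+* ℂ} {Ω : ℝ} {D : ℕ}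
  {θ : 𝓞 K}

theorem ex_eta (h : Kd J D θ) : ∃ η : 𝓞 K, 2 * η = 1 + θ := by
  obtain ⟨m, hm⟩ : ∃ m : ℤ, (D : ℤ) + 1 = 4 * m := ⟨(D + 1) / 4, by have := h.md; omega⟩
  have a : (θ : K) ^ 2 = -(D : K) := by simpa using congrArg (fun x : 𝓞 K => (x : K)) h.sq
  have b : (D : K) + 1 = 4 * m := by exact_mod_cast congrArg (Int.cast : ℤ → K) hm
  have int : IsIntegral ℤ ((1 + (θ : K)) / 2) :=
    ⟨Polynomial.X ^ 2 - Polynomial.X + Polynomial.C m, by monicity!, by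
      rw [Polynomial.eval₂_add, Polynomial.eval₂_sub, Polynomial.eval₂_pow,
        Polynomial.eval₂_X, Polynomial.eval₂_C, eq_intCast]
      linear_combination a / 4 - b / 4⟩
  exact ⟨⟨_, int⟩, RingOfIntegers.ext (by
    show (2 : K) * ((1 + (θ : K)) / 2) = 1 + θ
    ring)⟩

theorem cn {I : Ideal (𝓞 K)} {p : ℕ} (hp : p.Prime) (h : Ideal.absNorm I = p) (x : 𝓞 K) :
    ∃ k : ℤ, x - k ∈ I := by
  rw [Ideal.absNorm_apply, Submodule.cardQuot_apply] at h
  have : Finite (𝓞 K ⧸ I) := Nat.finite_of_card_ne_zero (h ▸ hp.ne_zero)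
  let _ := Fintype.ofFinite (𝓞 K ⧸ I)
  let e := ZMod.ringEquivOfPrime (𝓞 K ⧸ I) hp (Nat.card_eq_fintype_card.symm.trans h)
  obtain ⟨k, a⟩ := ZMod.intCast_surjective (e.symm (Ideal.Quotient.mk I x))
  exact ⟨k, Ideal.Quotient.eq.1 (by rw [map_intCast, ← map_intCast e, a, e.apply_symm_apply])⟩

/-- three splits -/
theorem sp3 (B : Base ι J Ω) : Sp 3 (vv ι J) (vv ι (As.Vq.Jc J)) := by
  obtain ⟨a, b⟩ := As.Vq.vv_two B
  have n := Ideal.absNorm_span_natCast (S := 𝓞 K) 3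
  rw [RingOfIntegers.rank, B.two, Nat.cast_ofNat, ← a, map_mul, b] at n
  exact ⟨three_pos, As.Vq.vv_cop B, by simpa using a, cn Nat.prime_three b,
    cn Nat.prime_three (by omega), b⟩

theorem n3 {l : ℕ} (h : ¬ 3 ∣ l) : ‖(l : ℂ_[3])‖ = 1 := by
  have := (PadicComplex.norm_extends' 3 ((l : ℕ) : ℚ_[3])).trans
    (Padic.norm_natCast_eq_one_iff.2 (Nat.prime_three.coprime_iff_not_dvd.2 h))
  rwa [map_natCast, PadicComplex.coe_natCast] at this

variable {L : Type} [Field L] [NumberField L] {M : Type} [Field M] [NumberField M] [Algebra K M]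
  [Algebra L M] {n : ℕ} {ω : Basis (Fin n) ℚ L} {b : Basis (Fin n) K M}

theorem sm (f : Fin n → M) (h : ∀ i, f i = algebraMap L M (ω i)) (y : L) :
    algebraMap L M y = ∑ j, (ω.repr y j : K) • f j := by
  conv_lhs => rw [← ω.sum_repr y, map_sum]
  refine Finset.sum_congr rfl fun j _ => ?_
  rw [map_rat_smul, h, Rat.cast_smul_eq_qsmul]

theorem rp (h : ∀ i, b i = algebraMap L M (ω i)) (y : L) (i : Fin n) :
    b.repr (algebraMap L M y) i = ω.repr y i := by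
  rw [sm (K := K) b h, b.repr_sum_self]

theorem tr (h : ∀ i, b i = algebraMap L M (ω i)) (y : L) :
    trace K M (algebraMap L M y) = trace ℚ L y := by
  have : leftMulMatrix b (algebraMap L M y) = (algebraMap ℚ K).mapMatrix (leftMulMatrix ω y) := by
    ext i j
    simp [leftMulMatrix_eq_repr_mul, h j, ← map_mul, rp h]
  simp [trace_eq_matrix_trace b, trace_eq_matrix_trace ω, this, Matrix.trace]

/-- the integral basis of `L` -/
theorem bas {η : 𝓞 K} (e : finrank K M = finrank ℚ L) (s : ∀ x : 𝓞 M, ∃ u v : 𝓞 L,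
    x = algebraMap (𝓞 L) (𝓞 M) u + algebraMap (𝓞 L) (𝓞 M) v * algebraMap (𝓞 K) (𝓞 M) η) :
    ∃ b : Basis (Fin (finrank ℚ L)) K M, Vb ι J b ∧ dv ι J b = ‖(discr L : ℂ_[3])‖ := by
  have q : Free.ChooseBasisIndex ℤ (𝓞 L) ≃ Fin (finrank ℚ L) := Fintype.equivFinOfCardEq
    (finrank_eq_card_basis (integralBasis L)).symm
  let ω := (integralBasis L).reindex q
  have s' (x : M) (k : IsIntegral ℤ x) : ∃ u v : 𝓞 L,
      x = algebraMap L M u + (η : K) • algebraMap L M v := by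
    obtain ⟨u, v, a⟩ := s ⟨x, k⟩
    exact ⟨u, v, by rw [Algebra.smul_def, mul_comm]; exact congrArg (fun y : 𝓞 M => (y : M)) a⟩
  have sp : ⊤ ≤ Submodule.span K (Set.range fun i => algebraMap L M (ω i)) := fun x _ => by
    have m (y : L) : algebraMap L M y ∈ Submodule.span K (Set.range fun i => algebraMap L M (ω i)) := by
      rw [sm (K := K) _ (fun _ => rfl) y]
      exact sum_mem fun i _ => Submodule.smul_mem _ _ (Submodule.subset_span ⟨i, rfl⟩)
    obtain ⟨N, N0, k⟩ := ((IsFractionRing.isAlgebraic_iff ℤ ℚ M).2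
      (Algebra.IsAlgebraic.isAlgebraic x)).exists_integral_multiple
    obtain ⟨u, v, a⟩ := s' _ k
    refine (Submodule.smul_mem_iff _ (Int.cast_ne_zero.2 N0 : (N : K) ≠ 0)).1 ?_
    rw [Int.cast_smul_eq_zsmul, a]
    exact add_mem (m _) (Submodule.smul_mem _ _ (m _))
  let b := basisOfTopLeSpanOfCardEqFinrank _ sp (by simp [e])
  have h : ∀ i, b i = algebraMap L M (ω i) := fun i => by simp [b]
  refine ⟨b, fun x => ⟨fun ⟨t, t1, k⟩ i => ?_, fun k => ?_⟩, ?_⟩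
  · obtain ⟨u, v, a⟩ := s' _ k
    have r (y : 𝓞 L) : IsIntegral ℤ (b.repr (algebraMap L M y) i) := by
      rw [rp h, Basis.repr_reindex_apply, integralBasis_repr_apply, eq_intCast, Rat.cast_intCast]
      exact isIntegral_algebraMap
    rw [← Algebra.smul_def] at a
    have : (t : K) * b.repr x i = b.repr (algebraMap L M u) i + η * b.repr (algebraMap L M v) i := by
      rw [← smul_eq_mul, ← Finsupp.smul_apply, ← map_smul, a, map_add, map_smul]
      rfl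
    have c := nm_int (ι.comp J) (this ▸ (r u).add (η.isIntegral_coe.mul (r v)) :
      IsIntegral ℤ ((t : K) * b.repr x i))
    simpa [t1] using c
  · rw [← b.sum_repr x, ← mem_Ov]
    refine sum_mem fun i _ => ?_
    rw [Algebra.smul_def, h]
    refine mul_mem ((vi_iff _).2 (k i)) ⟨1, by simp, ?_⟩
    simpa [ω] using map_isIntegral_int (algebraMap L M)
      (RingOfIntegers.basis L (q.symm i)).isIntegral_coe
  · have : Algebra.discr K b = (Algebra.discr ℚ ω : ℚ) := by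
      rw [discr_def, discr_def, ← eq_ratCast (algebraMap ℚ K), RingHom.map_det]
      congr 1
      ext i j
      simp [h, ← map_mul, tr h]
    rw [dv, this, Basis.coe_reindex, discr_reindex, ← coe_discr]
    simp

/-- real primitive characters are tame at three -/
theorem tame {f P : Ideal (𝓞 L)} {φ : Ideal (𝓞 L) → ℂ} (h : Pc f φ) (r : cj φ = φ)
    (m : P.IsMaximal) (t : (3 : 𝓞 L) ∈ P) : ¬ P * P ∣ f := fun ⟨g, e⟩ => by
  obtain ⟨x, a, -, x0, c⟩ := h.pm P (P * g) m (e.trans (mul_assoc _ _ _))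
  have k := h.rc.prn (x * x * x) (by simp [x0]) (by
    rw [e, mul_assoc]
    have a' : x - 1 ∈ P := Ideal.le_of_dvd (dvd_mul_right P g) a
    rw [show x * x * x - 1 = (3 * x + (x - 1) * (x - 1)) * (x - 1) by ring]
    exact Ideal.mul_mem_mul (add_mem (P.mul_mem_right x t) (P.mul_mem_left _ a')) a)
  rw [← Ideal.span_singleton_mul_span_singleton, ← Ideal.span_singleton_mul_span_singleton,
    h.rc.mul, h.rc.mul] at k
  obtain ⟨y, u⟩ := Complex.conj_eq_iff_real.1 (congrFun r (Ideal.span {x}))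
  rw [u] at k c
  have : y ^ 3 = 1 := by exact_mod_cast (pow_three' (y : ℂ)).trans k
  exact c (by rw [show y = 1 by nlinarith [sq_nonneg (y + 1 / 2), sq_nonneg (y - 1)]]; simp)

/-- the norm of an ideal which is squarefree at three -/
theorem nf {f : Ideal (𝓞 L)} (f0 : f ≠ ⊥)
    (h : ∀ P : Ideal (𝓞 L), P.IsMaximal → (3 : 𝓞 L) ∈ P → ¬ P * P ∣ f) :
    ∏ᶠ P ∈ {P : Ideal (𝓞 L) | (P.IsMaximal ∧ (3 : 𝓞 L) ∈ P) ∧ f ≤ P},
      ‖(Ideal.absNorm P : ℂ_[3])‖ = ‖(Ideal.absNorm f : ℂ_[3])‖ := by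
  have fin : {P : Ideal (𝓞 L) | (P.IsMaximal ∧ (3 : 𝓞 L) ∈ P) ∧ f ≤ P}.Finite :=
    Set.Finite.subset (s := {P | P ∣ f}) (UniqueFactorizationMonoid.fintypeSubtypeDvd f f0).finite
      fun P k => Ideal.dvd_iff_le.2 k.2
  obtain ⟨g, e⟩ : ∏ P ∈ fin.toFinset, P ∣ f := Finset.prod_dvd_of_coprime
    (fun P a Q c n => Ideal.isCoprime_iff_sup_eq.2 ((fin.mem_toFinset.1 a).1.1.coprime_of_ne
      (fin.mem_toFinset.1 c).1.1 n)) fun P a => Ideal.dvd_iff_le.2 (fin.mem_toFinset.1 a).2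
  have u : ¬ 3 ∣ Ideal.absNorm g := fun k => by
    obtain ⟨P, a, c, d⟩ := Ideal.exists_isMaximal_dvd_of_dvd_absNorm' Nat.prime_three g k
    have t : (3 : 𝓞 L) ∈ P := by
      simpa [Ideal.mem_comap] using c.ge (Ideal.mem_span_singleton_self _)
    exact h P a t (e ▸ mul_dvd_mul (Finset.dvd_prod_of_mem (fun P => P) (fin.mem_toFinset.2
      ⟨⟨a, t⟩, Ideal.dvd_iff_le.1 (e ▸ d.mul_left _)⟩)) d)
  rw [finprod_mem_eq_finite_toFinset_prod _ fin]
  conv_rhs => rw [e]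
  rw [map_mul, map_prod, Nat.cast_mul, norm_mul, n3 u, mul_one, Nat.cast_prod, norm_prod]

end Dl

open Dl

/-- **row DVL** -/
theorem dvl (spl : SPL) : DVL := fun K _ _ ι J Ω D θ B kd L M _ _ _ _ _ _ bc n b hb => by
  obtain ⟨e, s, -⟩ := spl K J D θ kd L M bc
  obtain ⟨η, hη⟩ := ex_eta kd
  obtain ⟨b', h1, h2⟩ := bas (ι := ι) (J := J) e fun x => let ⟨u, a, _⟩ := s η hη x; ⟨_, _, a⟩
  obtain ⟨g, -, hg⟩ := dg_ex (ι := ι) (J := J) (M := K) (N := M)
  rw [dv_eq hb hg, ← dv_eq h1 hg, h2]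

/-- **row CFX** -/
theorem cfx (spl : SPL) : CFX := fun K _ _ ι J Ω D θ B kd L M _ _ _ _ _ _ bc _ f φ h r => by
  obtain ⟨-, -, s⟩ := spl K J D θ kd L M bc
  obtain ⟨-, -, bij, -⟩ := s 3 _ _ (sp3 B)
  have av (w : Ideal (𝓞 M)) : Av ι J w ↔ w.IsMaximal ∧ (vv ι J).map (algebraMap (𝓞 K) (𝓞 M)) ≤ w := by
    rw [(As.vaq0 K ι J Ω B M).2.1, As.Vq.qm_one B]
  have z {P : Ideal (𝓞 L)} (m : P.IsMaximal) : φ P = 0 ↔ f ≤ P := by
    rw [h.rc.zero, or_iff_right (Ring.ne_bot_of_isMaximal_of_not_isField m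
      (RingOfIntegers.not_isField L))]
    exact ⟨fun k => le_sup_right.trans (m.eq_of_le k le_sup_left).ge, fun k => by
      rw [sup_eq_left.2 k]; exact m.ne_top⟩
  rw [Nat.cast_ofNat] at bij
  rw [← nf h.rc.ne fun P => tame h r, Tp.cf]
  refine finprod_mem_eq_of_bijOn (Ideal.relNorm (𝓞 L)) ⟨fun w ⟨a, c⟩ => ?_,
    bij.injOn.mono fun w a => (av w).1 a.1, fun P ⟨a, c⟩ => ?_⟩
    fun w _ => by rw [Ideal.absNorm_relNorm]
  · have := bij.mapsTo ((av w).1 a)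
    exact ⟨this, (z this.1).1 c⟩
  · obtain ⟨w, d, rfl⟩ := bij.surjOn a
    exact ⟨w, ⟨(av w).2 d, (z a.1).2 c⟩, rfl⟩

end Vale.Agent.P014Y.Ln
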