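import Vale.Agent.P014Y.Ln.Fin0

/-!
# P014 Y, block LN: change of the weight
-/

open NumberField Module Ideal
open scoped Classical

set_option linter.all false

noncomputable section

namespace Vale.Agent.P014Y.Ln

open P014Y.C
open P004C.Ln (Dp)

open Fi in
theorem fin (hC : Cg.CONG) (cgx : CGX) (nrm : NRM) : FIN := by
  intro K _ _ ι J Ω V B hV M _ _ _ n b vb z3 k m l f F₂ tS s a η y hk hm hs pf hl
    ⟨w₀, w1, w2, w3, w4⟩ h₂ ha hη hF hw hy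
  obtain ⟨n3, nK⟩ := (nrm M).2 z3
  obtain ⟨u1, u2⟩ := nK K ι J Ω B
  have nV : ∀ I : Ideal (𝓞 M), V (absNorm I) = ‖(absNorm I : ℂ_[3])‖ := fun I => by
    rw [hV, map_natCast]
  have f1 := fin_m hm (fun w => w.IsMaximal ∧ tS ≤ w ∧ w ⊔ f = ⊤) fun w k =>
    (hw w k.1 k.2.2).1.2 (.inr k.2.1)
  set T := f1.toFinset
  have hT : ∀ w, w ∈ T ↔ w.IsMaximal ∧ tS ≤ w ∧ w ⊔ f = ⊤ := fun w => f1.mem_toFinset
  have dF : ∀ I, I ⊔ f = ⊤ → Dp f a I = a I := fun I e => if_pos e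
  have t3 : ∀ w ∈ T, (3 : 𝓞 M) ∉ w := fun w k =>
    (hw w ((hT w).1 k).1 ((hT w).1 k).2.2).2 ((hT w).1 k).2.1
  have pT : ∀ w ∈ T, Pv ι J w := fun w k => pv_max ((hT w).1 k).1 (t3 w k)
  set E : ℝ := ∏ w ∈ T, ‖ι (1 - Dp f a w)‖
  have e1 : V (∑' I, Dp tS a I) = ‖ι (∑' I, Dp f a I)‖ * E := by
    rw [hV, tsum_congr (dp_eq ha hF hT), ← Cm.sieve h₂.hc.cm (h₂.hc.sum B.two B.im hk).of_norm T
      fun P hP => P004C.Al.Eu.prime_iff.2 ((hT P).1 hP).1, map_mul, norm_mul, map_prod, norm_prod]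
  have E0 : 0 ≤ E := Finset.prod_nonneg fun _ _ => norm_nonneg _
  have E1 : E ≤ 1 := Finset.prod_le_one (fun _ _ => norm_nonneg _) fun w k => by
    rw [map_sub, map_one, sub_eq_add_neg]
    exact Cm.add_le norm_one.le (by rw [norm_neg, lc_unit B pf h₂ ((hT w).1 k).2.2 (pT w k)])
  have sF : s ⊔ f = ⊤ := top_unique (hl.ge.trans (sup_le le_sup_right (le_sup_left.trans'
    ((span_singleton_le_iff_mem _).2 (hs.2.2.1 ▸ absNorm_mem s)))))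
  rw [hV, ← dF s sF] at hη
  have cx := fun k F a => cgx K ι J Ω B M n b vb s l hs k f F a pf hl (tf_mono w2 w4)
    (fun u _ => u2 u) ⟨w₀, w1, w2, w3⟩
  have c2 := (cx k F₂ _ h₂).2 hk
  rw [e1, ← mul_assoc, nV] at hy
  have X0 : 0 ≤ sc Ω (dv ι J b * ‖(absNorm F₂ : ℂ_[3])‖) n k * ‖ι (∑' I, Dp f a I)‖ :=
    mul_nonneg (sc_nn B (mul_nonneg (norm_nonneg _) (norm_nonneg _)) n k) (norm_nonneg _)
  have cc := hC K ι J Ω B M n b vb s l hs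
  set X := sc Ω (dv ι J b * ‖(absNorm F₂ : ℂ_[3])‖) n k * ‖ι (∑' I, Dp f a I)‖ with hX
  have big : η * y ≤ ‖ι (1 - l * Dp f a s)‖ * X := by
    rw [hy]
    exact mul_le_mul hη (mul_le_of_le_one_right X0 E1) (mul_nonneg X0 E0) (norm_nonneg _)
  refine ⟨big.trans c2, fun t F₁ a₁ δ ht _ h₁ hc d1 d2 d3 d4 => ?_⟩
  obtain ⟨z, hz⟩ := (cx 1 F₁ a₁ h₁).1 rfl
  have cg : ∀ I, Pv ι J I → ‖ι (a₁ I - Dp f a I)‖ ≤ δ := fun I p =>
    cong B u1 pf ht h₁ h₂ (fun I e e' => by rw [dF I e', ← hV]; exact hc I e e') d1 p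
  have e2 : ∏ w ∈ T, V (1 - (absNorm w * a₁ w)⁻¹) = E := Finset.prod_congr rfl fun w k => by
    obtain ⟨v1, v2, v3⟩ := (hT w).1 k
    have v5 := d3 w v1 v3 v2
    have := cg w (pT w k)
    rw [hV, ← dF w v3] at v5
    simp only [hV, map_sub, map_one, map_inv₀, map_mul, map_natCast] at this v5 ⊢
    exact fac (lc_unit B pf h₁ v3 (pT w k)) this
      (one_mod (n3 w (cop_norm (by simpa using cop3 v1 (t3 w k))))) d1 v5
  have aF : ∀ P : Ideal (𝓞 M), Av ι J P → P ⊔ f = ⊤ := fun P k => by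
    by_contra c
    exact k.2 (pv_mono (le_of k.1 c) pf)
  have f2 := fin_m hm (Av ι J) fun w k => (hw w k.1 (aF w k)).1.2 (.inl k)
  have s1 : Ef V m a₁ = ∏ᶠ w ∈ {P | Av ι J P} ∪ (T : Set (Ideal (𝓞 M))),
      V (1 - (absNorm w * a₁ w)⁻¹) := by
    refine finprod_mem_inter_mulSupport_eq' _ _ _ fun w k => ?_
    have c : w ⊔ f = ⊤ := by
      by_contra c
      exact k (by simp [lc_zero h₁ c])
    simp only [Set.mem_setOf_eq, Set.mem_union, Finset.mem_coe, hT]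
    exact ⟨fun k => ((hw w k.1 c).1.1 k.2).imp id fun u => ⟨k.1, u, c⟩, fun k =>
      k.elim (fun u => ⟨u.1, (hw w u.1 c).1.2 (.inl u)⟩)
        fun u => ⟨u.1, (hw w u.1 c).1.2 (.inr u.2.1)⟩⟩
  refine ⟨z, hz, ?_⟩
  rw [hy, hX, ← cc 1 k f F₁ F₂ a₁ _ z δ one_pos hk pf hl (tf_mono w2 w4) (fun u _ => u2 u)
    ⟨w₀, w1, w2, w3⟩ h₁ h₂ cg hz (d2.trans_le hη) (d4.trans_le big), s1, finprod_mem_union
      (Set.disjoint_left.2 fun w u u' => u.2 (pT w u')) f2 T.finite_toSet,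
    finprod_mem_coe_finset, e2]
  simp only [hV, map_natCast]
  ring

end Vale.Agent.P014Y.Ln
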