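import Vale.Agent.P014Y.Ln.St2
import Vale.Agent.P014Y.C.Al.Cmb2
import Vale.Agent.P014Y.C.As.Val

/-!
# P014 Y, block LN: norms from a field with the cube roots of unity (helper12)
-/

set_option autoImplicit false
set_option linter.all false

open NumberField Module
open scoped Classical

noncomputable section

namespace Vale.Agent.P014Y.Ln

open P014Y.C (Base Pv TF)
open P014Y.C.Cm (add_le add_eq un_le nm_two nm_cop)
open P014Y.C.Al.Gx (nm_le)

namespace Nr

variable {M : Type} [Field M] [NumberField M]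

theorem tf (hM : finrank ℚ M ≤ 16) {w : Ideal (𝓞 M)} {l : ℕ} (hw : w.IsMaximal) (hl : l.Prime)
    (h17 : 17 < l) (hlw : (l : 𝓞 M) ∈ w) : TF w := by
  intro u hu hf
  by_contra h1
  have hn : orderOf u ≠ 1 := fun e => h1 (orderOf_eq_one_iff.1 e)
  have hp := Nat.minFac_prime hn
  have ho : orderOf (u ^ (orderOf u / (orderOf u).minFac)) = (orderOf u).minFac :=
    orderOf_pow_orderOf_div hf.orderOf_pos.ne' (Nat.minFac_dvd _)
  generalize (orderOf u).minFac = p at hp ho
  generalize orderOf u / p = d at ho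
  have hv : IsPrimitiveRoot (((u ^ d : (𝓞 M)ˣ)) : 𝓞 M) p :=
    IsPrimitiveRoot.coe_units_iff.2 (ho ▸ IsPrimitiveRoot.orderOf _)
  have hq : Ideal.Quotient.mk w (u : 𝓞 M) = 1 := by
    rw [← map_one (Ideal.Quotient.mk w)]
    exact Ideal.Quotient.eq.2 hu
  have hpw : (p : 𝓞 M) ∈ w := by
    have h := congrArg (Ideal.Quotient.mk w) (hv.geom_sum_eq_zero hp.one_lt)
    simp only [map_sum, map_pow, Units.val_pow_eq_pow_val, hq, one_pow, Finset.sum_const,
      Finset.card_range, nsmul_eq_mul, mul_one, map_zero] at h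
    exact Ideal.Quotient.eq_zero_iff_mem.1 (by rw [map_natCast]; exact h)
  have hpl : p = l := by
    by_contra e
    obtain ⟨a, b, hab⟩ := Nat.isCoprime_iff_coprime.2 ((Nat.coprime_primes hp hl).2 e)
    refine hw.ne_top ((Ideal.eq_top_iff_one w).2 ?_)
    have h : (a : 𝓞 M) * p + b * l = 1 := by exact_mod_cast congrArg (Int.cast : ℤ → 𝓞 M) hab
    rw [← h]
    exact w.add_mem (w.mul_mem_left _ hpw) (w.mul_mem_left _ hlw)
  subst hpl
  have hv' := hv.map_of_injective (f := algebraMap (𝓞 M) M) (RingOfIntegers.coe_injective)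
  have h2 := minpoly.natDegree_le (A := ℚ) (algebraMap (𝓞 M) M ((u ^ d : (𝓞 M)ˣ) : 𝓞 M))
  rw [← Polynomial.cyclotomic_eq_minpoly_rat hv' hp.pos, Polynomial.natDegree_cyclotomic,
    Nat.totient_prime hp] at h2
  omega

theorem int3 {F : Type} [Field F] {w : F} (h : w ^ 2 + w + 1 = 0) :
    ∃ x : 𝓞 F, (x : F) = w ∧ x ^ 2 + x + 1 = 0 := by
  have i : IsIntegral ℤ w := IsIntegral.of_pow (n := 3) (by norm_num) (by
    rw [show w ^ 3 = 1 by linear_combination (w - 1) * h]; exact isIntegral_one)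
  exact ⟨⟨w, i⟩, rfl, Subtype.ext h⟩

/-- the order of a finite ring with a cube root of unity -/
theorem crd {R : Type} [CommRing R] [Finite R] {x : R} (h : x ^ 2 + x + 1 = 0)
    (c : (Nat.card R).Coprime 3) : Nat.card R % 3 = 1 := by
  have := Fintype.ofFinite R
  have := Fact.mk Nat.prime_three
  let f : Function.End R := fun y => x * y
  have a := Equiv.Perm.card_fixedPoints_modEq (f := f) (p := 3) (n := 1) (funext fun y => by
    change x * (x * (x * y)) = y
    linear_combination (x - 1) * y * h)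
  rw [Nat.card_eq_fintype_card] at c ⊢
  refine a.trans (congrArg (· % 3) (Fintype.card_eq_one_iff.2 ⟨⟨0, mul_zero x⟩, fun ⟨y, e⟩ => ?_⟩))
  replace e : x * y = y := e
  have t : 3 • y = 0 := by rw [nsmul_eq_mul]; push_cast; linear_combination y * h - (x + 2) * e
  exact Subtype.ext (AddMonoid.addOrderOf_eq_one_iff.1 (Nat.eq_one_of_dvd_coprimes c addOrderOf_dvd_card
    (addOrderOf_dvd_of_nsmul_eq_zero t)))

theorem md (z : Z3 M) (I : Ideal (𝓞 M)) (c : (Ideal.absNorm I).Coprime 3) :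
    Ideal.absNorm I % 3 = 1 := by
  obtain ⟨w, hw⟩ := z
  obtain ⟨x, -, h⟩ := int3 hw
  have : Finite (𝓞 M ⧸ I) := Nat.finite_of_card_ne_zero fun e : Ideal.absNorm I = 0 => by
    simp [e] at c
  exact crd (R := 𝓞 M ⧸ I) (x := Ideal.Quotient.mk I x) (by simpa using congrArg (Ideal.Quotient.mk I) h) c

variable {K : Type} [Field K] [NumberField K] {ι : ℂ →+* ℂ_[3]} {J : K →+* ℂ} {Ω : ℝ}

theorem n2 : ‖(2 : ℂ_[3])‖ = 1 := by simpa using nm_cop (m := 2) (by norm_num)

/-- `v` is not ramified -/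
theorem sml (B : Base ι J Ω) {s : 𝓞 K} (h : ‖ι (J s)‖ < 1) : ‖ι (J s)‖ ≤ 1 / 3 := by
  have a := un_le B (α := 1 + s) (by
    simpa using add_eq (x := 1) (y := ι (J s)) (by simpa using h))
  have b := add_eq (x := 2) (y := ι (J s)) (by rwa [n2])
  rw [show ι (J (1 + s : 𝓞 K)) ^ 2 - 1 = ι (J s) * (2 + ι (J s)) by simp; ring, norm_mul, b, n2] at a
  simpa using a

/-- four times the norm is `t ^ 2 + 3 b ^ 2` -/
theorem form [Algebra K M] (B : Base ι J Ω) (z : Z3 M) (x : 𝓞 M) :
    ∃ (t : 𝓞 K) (b : K), 4 * Algebra.norm K (x : M) = t ^ 2 + 3 * b ^ 2 := by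
  have := C.As.fd K M
  obtain ⟨w, hw⟩ := z
  have : Fact (∀ r : K, r ^ 2 ≠ -1 + -1 * r) := ⟨fun r e => by
    obtain ⟨y, -, h⟩ := int3 (w := r) (by linear_combination e)
    have u : y * (-1 - y) = 1 := by linear_combination -h
    rcases B.upm (Units.mkOfMulEqOne y _ u) with k | k <;>
      have k := congrArg Units.val k <;> change y = _ at k <;> rw [k] at h <;> norm_num at h⟩
  let φ := QuadraticAlgebra.lift (R := K) (a := -1) (b := -1) (A := M) ⟨w, by
    simp only [neg_smul, one_smul]; linear_combination hw⟩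
  let _ := φ.toRingHom.toAlgebra
  have : IsScalarTower K (QuadraticAlgebra K (-1) (-1)) M :=
    .of_algebraMap_eq fun y => (φ.commutes y).symm
  have := Module.Finite.of_restrictScalars_finite K (QuadraticAlgebra K (-1) (-1)) M
  have i := Algebra.isIntegral_norm (QuadraticAlgebra K (-1) (-1)) x.isIntegral_coe
  rw [← Algebra.norm_norm (S := QuadraticAlgebra K (-1) (-1))]
  generalize Algebra.norm (QuadraticAlgebra K (-1) (-1)) (x : M) = u at i
  have j := i.add (map_isIntegral_int (starRingEnd _) i)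
  rw [starRingEnd_apply, ← QuadraticAlgebra.algebraMap_trace_eq_add_star,
    isIntegral_algebraMap_iff (algebraMap K _).injective] at j
  refine ⟨⟨_, j⟩, u.im, ?_⟩
  rw [show Algebra.norm K u = u.norm from QuadraticAlgebra.det_toLinearMap_eq_norm u]
  change _ = u.trace ^ 2 + _
  rw [QuadraticAlgebra.norm_def, QuadraticAlgebra.trace_def]
  ring

theorem one [Algebra K M] (B : Base ι J Ω) (z : Z3 M) (x : 𝓞 M) (p : Pv ι J (Ideal.span {x})) :
    ‖ι (J (Algebra.norm K (x : M))) - 1‖ ≤ 1 / 3 := by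
  have := C.As.fd K M
  obtain ⟨t, b, e⟩ := form B z x
  rw [C.As.Va.pv_iff] at p
  have i : IsIntegral ℤ (3 * b) := IsIntegral.of_pow (n := 2) (by norm_num) (by
    rw [show (3 * b) ^ 2 = ((3 * (4 * RingOfIntegers.norm K x - t ^ 2) : 𝓞 K) : K) by
      change _ = 3 * (4 * Algebra.norm K (x : M) - (t : K) ^ 2)
      linear_combination -3 * e]
    exact RingOfIntegers.isIntegral_coe _)
  have l := sml B (s := ⟨_, i⟩)
  have tl := nm_le (ι := ι) (J := J) t
  have tu := un_le B (α := t)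
  change ‖ι (J (3 * b))‖ < 1 → ‖ι (J (3 * b))‖ ≤ _ at l
  replace e := congrArg (fun y => ι (J y)) e
  simp only [map_mul, map_add, map_pow, map_ofNat] at e l
  generalize ι (J (Algebra.norm K (x : M))) = Y at *
  generalize ι (J b) = b at *
  generalize ι (J t) = t at *
  have n4 : ‖4 * Y‖ = 1 := by
    rw [show 4 * Y = 2 * 2 * Y by ring, norm_mul, norm_mul, n2, p]; norm_num
  have e1 : ‖3 * b ^ 2‖ ≤ 1 := by
    rw [show 3 * b ^ 2 = 4 * Y + -t ^ 2 by linear_combination -e]
    exact add_le n4.le (by rw [norm_neg, norm_pow]; exact pow_le_one₀ (norm_nonneg _) tl)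
  rw [norm_mul, nm_two] at l
  have e2 : ‖3 * b ^ 2‖ ≤ 1 / 3 := by
    rw [norm_mul, norm_pow, nm_two] at e1 ⊢
    have := l (by nlinarith [norm_nonneg b])
    nlinarith [norm_nonneg b]
  have e3 : ‖t‖ = 1 := by
    have := add_eq (x := 4 * Y) (y := -(3 * b ^ 2)) (by rw [norm_neg, n4]; linarith)
    rw [n4, show 4 * Y + -(3 * b ^ 2) = t ^ 2 by linear_combination e, norm_pow] at this
    exact (pow_eq_one_iff_of_nonneg (norm_nonneg _) two_ne_zero).1 this
  rw [show Y - 1 = t ^ 2 - 1 + 3 * b ^ 2 + -(3 * Y) by linear_combination e]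
  exact add_le (add_le (tu e3) e2) (by rw [norm_neg, norm_mul, nm_two, p, mul_one])

end Nr

open Nr in
theorem nrm : NRM := fun M _ _ => ⟨fun h _ _ => tf h, fun z => ⟨md z, fun K _ _ ι J Ω _ B =>
  ⟨one B z, fun u => by
    have := C.As.fd K M
    have a := one B z u ⟨1, by simp, by simp [Ideal.span_singleton_eq_top.2 u.isUnit]⟩
    rcases B.upm (Units.map (RingOfIntegers.norm K) u) with k | k <;>
      have k := congrArg (fun y : (𝓞 K)ˣ => ((y : 𝓞 K) : K)) k
    · exact k
    · replace k : Algebra.norm K ((u : 𝓞 M) : M) = -1 := k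
      rw [k, map_neg, map_neg, map_one, map_one, show (-1 - 1 : ℂ_[3]) = -2 by ring, norm_neg,
        n2] at a
      norm_num at a⟩⟩⟩

end Vale.Agent.P014Y.Ln
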