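import Vale.Agent.P014Y.Ln.St3
import Vale.Agent.P014Y.Ln.Iot
import Vale.Agent.P004C.Ln.Prm

/-!
# P014 Y, block LN: the primes of `m` and of the level ideal (row PRM)
-/

set_option linter.all false

open NumberField Module Ideal
open scoped Classical

noncomputable section

namespace Vale.Agent.P014Y.Ln

open Vale.Agent.P022 (Qb GQ GK below)
open P004K (Cn Cop)
open P004C.Ln (Jc)
open P004C.Ln.Ac (sp_cn mem_dvd sup_top ex_p)
open P014Y.C (Av)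

/-- **row PRM** -/
theorem prm (lvx : LVX) : PRM := by
  intro e b ι V pl m n n' ν lv sm ms
  obtain ⟨kd, d3, o2, e2, sp, -⟩ := lvx e b
  have h3 : 3 ∈ e.S := (sp 3 Nat.prime_three).1 (Dvd.intro _ e2)
  obtain ⟨hV, io⟩ := (iot _ (e.ov 3 h3)).2 ι V pl
  have hx := (io b.K b.j b.δ' b.θ kd d3).2.1
  have m0 := lv.sp.pos
  have m2 : 3 ∣ m := (List.dvd_prod h3).trans sm
  have v1 : ∀ x : 𝓞 b.K, x ∉ below b.j (e.P 3) → V (Jc b.j x) = 1 := fun x z =>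
    le_antisymm (hx x).1 (not_lt.1 fun y => z ((hx x).2.1.1 y))
  have t2 : ((3 : ℕ) : 𝓞 b.K) ∈ below b.j (e.P 3) := (hx _).2.1.1 (by
    rw [show Jc b.j (((3 : ℕ) : 𝓞 b.K) : b.K) = 3 from map_ofNat _ 3, hV.2]; norm_num)
  have t1 : (1 : 𝓞 b.K) ∉ below b.j (e.P 3) := fun y => by simpa using (hx 1).2.1.2 y
  have mn : (m : 𝓞 b.K) ∈ n := ((sp_cn lv.sp).1 m).2 dvd_rfl |> fun z => by simpa using z
  have t0 : ∀ w : Ideal (𝓞 b.K), ((e.S.prod / 3 : ℕ) : 𝓞 b.K) ∈ w → tS b ≤ w := fun w t =>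
    mul_le_right.trans ((span_singleton_le_iff_mem _).2 t)
  have ts : ∀ (w : Ideal (𝓞 b.K)) (p : ℕ), p.Prime → p ∈ e.S → p ≠ 3 → (p : 𝓞 b.K) ∈ w →
      tS b ≤ w := fun w p hp z y t => t0 w (mem_dvd t
    (((Nat.coprime_primes hp Nat.prime_three).2 y).dvd_of_dvd_mul_left
      ((List.dvd_prod z).trans e2.symm.dvd)))
  obtain ⟨s₀, s1, s2⟩ := lv.v'
  refine ⟨⟨s₀, s1, v1 _ s2⟩, sp_cn lv.sp, fun x z => (hx x).2.1.2 (lv.v z),
    fun I z => ⟨z.1, ?_, ?_⟩, fun I z => ⟨fun y => ?_,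
    sup_top (absNorm_mem I) (mem_span_singleton_self _) z⟩, fun M _ _ _ w hw => ?_⟩
  · exact top_unique (z.2.ge.trans (sup_le_sup_left ((span_singleton_le_iff_mem _).2 mn) _))
  · by_contra y
    refine t1 ((z.2.ge.trans (sup_le (fun x k => by_contra fun t => y ⟨x, k, v1 x t⟩)
      ((span_singleton_le_iff_mem _).2 (mem_dvd t2 m2)))) trivial)
  · rw [y, absNorm_bot, Nat.coprime_zero_left] at z
    omega
  have hp := hw.isPrime
  set u := w.comap (algebraMap (𝓞 b.K) (𝓞 M)) with hu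
  have up : u.IsPrime := comap_isPrime _ _
  have c : ∀ a : ℕ, (a : 𝓞 b.K) ∈ u ↔ (a : 𝓞 M) ∈ w := fun a => by rw [hu, mem_comap, map_natCast]
  have c2 : (3 : 𝓞 b.K) ∈ u ↔ (3 : 𝓞 M) ∈ w := by exact_mod_cast c 3
  have av : Av ι (Jc b.j) w ↔ u ≤ below b.j (e.P 3) :=
    ⟨fun z x y => by_contra fun t => z.2 ⟨x, (pl.eq _).symm.trans (v1 x t), y⟩,
      fun z => ⟨hw, fun ⟨x, t, y⟩ => ((hx x).2.1.2 (z y)).ne ((pl.eq _).trans t)⟩⟩
  simp only [map_le_iff_le_comap, ← hu, ← c, ← c2, av]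
  have k : ∀ p ∈ e.S, p.Prime → (p : 𝓞 b.K) ∈ u → u ≤ below b.j (e.P 3) ∨ tS b ≤ u := by
    intro p z hp t
    by_cases p4 : p = 3
    · subst p4
      exact (lv.thr u up (by exact_mod_cast t)).imp le_of_eq fun q => mul_le_left.trans q.ge
    · exact Or.inr (ts u p hp z p4 t)
  refine ⟨lv.ts u up, k, t0 u, fun y => ?_⟩
  have r : tS b ≤ u → ((e.S.prod / 3 : ℕ) : 𝓞 b.K) ∈ u := fun t =>
    (up.mul_le.1 t).elim (fun q => absurd (lv.q3.trans q) y) (span_singleton_le_iff_mem _).1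
  refine ⟨⟨fun t => ?_, fun t => ?_⟩, fun t => ⟨fun z => up.ne_top ((sup_idem u).symm.trans
    (sup_top (a := 3) (by exact_mod_cast z) (r t)
      ((Nat.Prime.coprime_iff_not_dvd Nat.prime_three).2 o2))), r t⟩⟩
  · obtain ⟨p, p1, p2, p3⟩ := ex_p up m0.ne' t
    exact k p (ms p p1 p2) p1 p3
  · rcases t with t | t
    · have um : u.IsMaximal := isMaximal_comap_of_isIntegral_of_isMaximal w
      exact mem_dvd (a := 3) ((um.eq_of_le (fun k => t1 ((eq_top_iff_one _).1 k)) t).ge t2) m2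
    · exact mem_dvd (r t) ((Dvd.intro_left 3 e2).trans sm)

end Vale.Agent.P014Y.Ln
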