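import Vale.Agent.P004C.Ln.Pv3b
import Vale.Agent.P004C.Ln.Twi
import Vale.Agent.P014Y.Fe.Mul
import Vale.Agent.P014Y.Fe.Dep

/-!
# P014 Y, block LN, row PVY: the primes above the level ideal
-/

set_option linter.all false

open NumberField Module Ideal
open scoped Classical ComplexConjugate

noncomputable section

namespace Vale.Agent.P014Y.Ln.Py

open P004C P004C.Wa P004C.Wa.Co P004C.Wa.Re0 P004C.Wa.Re1 P004C.Ln.Pw
open P004C.Al (Cm)
open Fe (Dv Xm xs eP nu de Li)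

variable {K L M : Type} [Field K] [NumberField K] [Field L] [NumberField L] [Field M]
  [NumberField M] [Algebra K M] [Algebra L M]

variable (K L M) in
/-- the compositum of a quadratic field and a field which does not contain it -/
structure Kl : Prop where
  k : finrank ℚ K = 2
  lm : finrank L M = 2
  int : ∀ (x : L) (y : K), algebraMap L M x = algebraMap K M y → ∃ q : ℚ, y = q

theorem Kl.pair (B : Kl K L M) : ∃ σ : 𝓞 M →+* 𝓞 M, Function.Surjective σ ∧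
    (∀ y : 𝓞 L, σ (algebraMap _ _ y) = algebraMap _ _ y) ∧
    ∀ x : 𝓞 K, algebraMap _ _ x * σ (algebraMap _ _ x) = (Algebra.norm ℤ x : ℤ) := by
  obtain ⟨σ, a, -, -⟩ := aut2 L M B.lm
  obtain ⟨s, -, b, n⟩ := aut2 ℚ K B.k
  have : Algebra.IsQuadraticExtension ℚ K := ⟨B.k⟩
  have fx : ∀ x : K, σ (algebraMap K M x) = algebraMap K M x → ∃ q : ℚ, x = q := fun x e => by
    obtain ⟨y, hy⟩ := a _ e
    exact B.int y x hy
  have c := (σ.restrictScalars ℚ).restrictNormal_commutes K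
  have e : (σ.restrictScalars ℚ).restrictNormal K = s := (b _).resolve_left fun e => by
    have := Algebra.finrank_eq_one_iff_bijective_algebraMap.2
      ⟨(algebraMap ℚ K).injective, fun x => (fx x (by simpa [e] using (c x).symm)).imp
        fun _ h => h.symm⟩
    have := B.k
    omega
  refine ⟨RingOfIntegers.mapRingEquiv σ.toRingEquiv, RingEquiv.surjective _,
    fun y => RingOfIntegers.ext (σ.commutes y), fun x => RingOfIntegers.ext ?_⟩
  have := congrArg (algebraMap K M) (n x)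
  rw [map_mul, ← e, c, ← Algebra.coe_norm_int] at this
  refine this.symm.trans ?_
  simp

theorem Kl.ab (B : Kl K L M) {p : ℕ} {A A' : Ideal (𝓞 K)} (S : Spl p A A') {P : Ideal (𝓞 L)}
    (m : P.IsMaximal) (hP : (p : 𝓞 L) ∈ P) : ∃ Q Q' : Ideal (𝓞 M), Ab P A A' Q Q' := by
  obtain ⟨σ, s1, s2, s3⟩ := B.pair
  obtain ⟨Q, q, ⟨u⟩⟩ := exists_maximal_ideal_liesOver_of_isIntegral (S := 𝓞 M) P
  have q' := comap_isMaximal_of_surjective σ s1 (K := Q)
  have u' : (Q.comap σ).under (𝓞 L) = P := by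
    ext y
    rw [u, mem_comap, mem_comap, mem_comap, s2]
  have pQ : (p : 𝓞 M) ∈ Q := of_und (u ▸ hP)
  have key : ∀ A A' : Ideal (𝓞 K), Spl p A A' → Q.under (𝓞 K) = A →
      (Q.comap σ).under (𝓞 K) = A' := fun A A' S e => by
    refine (S.two inferInstance (mem_und (mem_comap.2 (by rwa [map_natCast])))).resolve_left
      fun e' => S.ne (S.m'.eq_of_le S.m.ne_top fun x hx => ?_).symm
    obtain ⟨r, hr⟩ := absNorm_dvd_norm_of_mem hx
    have : algebraMap _ _ x * σ (algebraMap _ _ x) ∈ Q := by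
      rw [s3, hr, S.n']
      push_cast
      exact mul_mem_right _ _ pQ
    exact (q.isPrime.mem_or_mem this).elim (fun h => e ▸ h) fun h => e' ▸ h
  rcases S.two (IsMaximal.under (𝓞 K) Q) (mem_und pQ) with e | e
  · have e' := key _ _ S e
    obtain ⟨a, b, c⟩ := two_spl B.lm m q q' (fun h => S.ne (by rw [← e, ← e', ← h])) u.symm u'
    exact ⟨_, _, q, q', a, b, c, u.symm, u', e, e'⟩
  · have e' := key _ _ S.symm e
    obtain ⟨a, b, c⟩ := two_spl B.lm m q' q (fun h => S.ne (by rw [← e, ← e', h])) u' u.symm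
    exact ⟨_, _, q', q, a, b, c, u', u.symm, e', e⟩

variable {m N : ℕ} {n n' T : Ideal (𝓞 K)}

/-- **the primes above `n` are the primes of `L` above `m`** -/
theorem Kl.bij (B : Kl K L M) (S : Sp m n n') :
    Set.BijOn (relNorm (𝓞 L)) {Q : Ideal (𝓞 M) | Q.IsMaximal ∧ n.map (algebraMap _ _) ≤ Q}
      {P : Ideal (𝓞 L) | P.IsMaximal ∧ (m : 𝓞 L) ∈ P} ∧
    ∀ Q : Ideal (𝓞 M), Q.IsMaximal → n.map (algebraMap _ _) ≤ Q →
      relNorm (𝓞 L) Q = Q.under (𝓞 L) := by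
  have k : ∀ P : Ideal (𝓞 L), P.IsMaximal → (m : 𝓞 L) ∈ P → ∃ U : Ideal (𝓞 M), U.IsMaximal ∧
      n.map (algebraMap _ _) ≤ U ∧ relNorm (𝓞 L) U = P ∧ ∀ R : Ideal (𝓞 M), R.IsMaximal →
        R.under (𝓞 L) = P → n.map (algebraMap _ _) ≤ R → R = U := fun P hP mP => by
    obtain ⟨p, p1, d, pP⟩ := ex_p hP.isPrime m S.pos mP
    obtain ⟨A, A', s, l, l'⟩ := spl_m B.k S p1 d
    obtain ⟨U, U', k⟩ := B.ab s hP pP
    exact ⟨U, k.m, map_le_iff_le_comap.2 (l.trans k.k.ge), k.rl, fun R r x y =>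
      (k.two r x).resolve_right fun z =>
        not_both S.cop s.m' ((map_le_iff_le_comap.1 y).trans (z ▸ k.k'.le)) l'⟩
  have mm : ∀ Q : Ideal (𝓞 M), n.map (algebraMap _ _) ≤ Q → (m : 𝓞 L) ∈ Q.under (𝓞 L) :=
    fun Q l => mem_und (by simpa using l (mem_map_of_mem _ (Cj.sp_m S).1))
  have r : ∀ Q : Ideal (𝓞 M), Q.IsMaximal → n.map (algebraMap _ _) ≤ Q →
      relNorm (𝓞 L) Q = Q.under (𝓞 L) := fun Q q l => by
    obtain ⟨U, -, -, a, b⟩ := k _ (IsMaximal.under (𝓞 L) Q) (mm Q l)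
    rw [← a, ← b Q q rfl l]
  refine ⟨⟨fun Q ⟨q, l⟩ => ?_, fun Q ⟨q, l⟩ Q' ⟨q', l'⟩ e => ?_, fun P ⟨a, b⟩ => ?_⟩, r⟩
  · rw [r Q q l]
    exact ⟨IsMaximal.under (𝓞 L) Q, mm Q l⟩
  · obtain ⟨U, -, -, -, b⟩ := k _ (IsMaximal.under (𝓞 L) Q) (mm Q l)
    rw [r Q q l, r Q' q' l'] at e
    rw [b Q q rfl l, b Q' q' e.symm l']
  · obtain ⟨U, u1, u2, u3, -⟩ := k P a b
    exact ⟨U, ⟨u1, u2⟩, u3⟩

/-- ideals whose primes lie above `n` -/
def On (n T : Ideal (𝓞 K)) : Prop := T ≠ ⊥ ∧ ∀ Q, Q.IsMaximal → T ≤ Q → n ≤ Q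

theorem On.mul {T' : Ideal (𝓞 K)} (h : On n T) (h' : On n T') : On n (T * T') :=
  ⟨mul_ne_zero h.1 h'.1, fun Q q l => (q.isPrime.mul_le.1 l).elim (h.2 Q q) (h'.2 Q q)⟩

theorem On.one : On n 1 := ⟨one_ne_zero, fun Q q l => absurd (top_le_iff.1 (by simpa using l)) q.ne_top⟩

theorem On.mono {t : Ideal (𝓞 K)} (h : On n T) (l : t ≤ n) : On t T :=
  ⟨h.1, fun Q q e => l.trans (h.2 Q q e)⟩

theorem On.cop (h : On n T) (c : n ⊔ n' = ⊤) : T ⊔ n' = ⊤ := by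
  by_contra e
  obtain ⟨Q, q, l⟩ := exists_le_maximal _ e
  exact not_both c q (h.2 Q q (le_sup_left.trans l)) (le_sup_right.trans l)

theorem On.pow (h : On n T) : ∃ j, n ^ j ≤ T := by
  obtain ⟨j, hj⟩ := exists_radical_pow_le_of_fg T (IsNoetherian.noetherian _)
  refine ⟨j, (Ideal.pow_right_mono ?_ j).trans hj⟩
  rw [radical_eq_sInf]
  exact le_sInf fun Q ⟨l, q⟩ => h.2 Q (q.isMaximal fun e => h.1 (le_bot_iff.1 (e ▸ l))) l

theorem ex_on (h2 : finrank ℚ K = 2) (S : Sp m n n') {t : ℕ} (d : Dv m t) :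
    ∃ T, On n T ∧ absNorm T = t := by
  obtain ⟨j, d⟩ := d
  induction t using Nat.recOnMul with
  | zero => exact absurd (zero_dvd_iff.1 d) (pow_pos S.pos j).ne'
  | one => exact ⟨1, On.one, map_one _⟩
  | prime p hp =>
    obtain ⟨A, A', s, l, -⟩ := spl_m h2 S hp (hp.dvd_of_dvd_pow d)
    exact ⟨A, ⟨(Al.Eu.prime_iff.2 s.m).ne_zero, fun Q q e => s.m.eq_of_le q.ne_top e ▸ l⟩, s.n⟩
  | mul a b i i' =>
    obtain ⟨T, h, rfl⟩ := i (dvd_of_mul_right_dvd d)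
    obtain ⟨T', h', rfl⟩ := i' (dvd_of_mul_left_dvd d)
    exact ⟨T * T', h.mul h', map_mul _ _ _⟩

theorem on_rel {Q : Ideal (𝓞 M)} (q : Q.IsMaximal) (l : n.map (algebraMap _ _) ≤ Q) :
    On n (relNorm (𝓞 K) Q) := by
  refine ⟨mt relNorm_eq_bot_iff.1 (Al.Eu.prime_iff.2 q).ne_zero, fun R r e => ?_⟩
  rw [Al.Eu.norm_max] at e
  exact (map_le_iff_le_comap.1 l).trans (r.isPrime.le_of_pow_le e)

variable {J : K →+* ℂ} {θ : 𝓞 K} {s : 𝓞 K ≃+* 𝓞 K} {a : Ideal (𝓞 K) → ℂ}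
  {V : AbsoluteValue ℂ ℝ}

theorem co_on (h2 : finrank ℚ K = 2) (S : Sp N n n') (ha : HC J 1 n' a) (h : On n T) (k : ℕ) :
    co a (absNorm T * k) = a T * co a k :=
  cl1 h2 S ha.cm (fun I e => (ha.zero I).2 (.inr e)) T h.1 h.2 k

theorem co_on1 (h2 : finrank ℚ K = 2) (S : Sp N n n') (ha : HC J 1 n' a) (h : On n T) :
    co a (absNorm T) = a T := by
  simpa [co_one ha.cm] using co_on h2 S ha h 1

theorem va (hV : IsNonarchimedean V) (k : Cj.Cg J θ s) (ha : HC J 1 n' a) (h0 : n' ≠ ⊥)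
    {I : Ideal (𝓞 K)} (hI : I ⊔ n' = ⊤) {y : 𝓞 K} (hy : s y ∈ I) (e : V (J y) = 1) :
    V (a I) * V (absNorm I) = 1 := by
  have I0 : I ≠ ⊥ := fun z => by
    rw [z, mem_bot, map_eq_zero_iff _ s.injective] at hy
    simp [hy] at e
  obtain ⟨j, j0, x, x0, x1, hx⟩ := P004C.ex_gen h0 I0 hI
  obtain ⟨z, hz⟩ := mem_span_singleton.1 (hx.ge (pow_mem_pow hy j))
  have e1 := congrArg (fun u => V (J (s u))) hz
  have e2 := congrArg (fun u : ℝ => V u) (k.ab x)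
  simp only [map_pow, map_mul, k.ss] at e1
  rw [RingOfIntegers.coe_eq_algebraMap] at e
  rw [e, one_pow] at e1
  have e3 : V (J (s x)) = 1 := le_antisymm (Ln.Tw.v_J k hV _) (e1.le.trans
    (mul_le_of_le_one_right (V.nonneg _) (Ln.Tw.v_J k hV _)))
  rw [Complex.ofReal_pow, ← Complex.mul_conj', ← k.cj, map_mul, e3, hx, map_pow] at e2
  refine (pow_eq_one_iff_of_nonneg (by positivity) j0.ne').1 ?_
  push_cast at e2
  rw [mul_pow, ← map_pow, ← map_pow, ← ha.cm.pow, ← hx, ha.prn x x0 x1, e2, Algebra.norm_self,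
    pow_one, map_inv₀, mul_one]
  exact inv_mul_cancel₀ (by simpa using x0)

theorem va_on (hV : IsNonarchimedean V) (k : Cj.Cg J θ s) (S : Sp N n n') (ha : HC J 1 n' a)
    {y : 𝓞 K} (y0 : y ∈ n') (y1 : V (J y) = 1) (h : On n T) : V (a T) * V (absNorm T) = 1 := by
  obtain ⟨j, hj⟩ := h.pow
  exact va hV k ha (Cj.sp_ne S).2 (h.cop S.cop) (y := y ^ j)
    (hj (map_pow s y j ▸ pow_mem_pow ((k.sp_mem S).1.2 y0) j)) (by simp [y1])

end Vale.Agent.P014Y.Ln.Py
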