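import Vale.Agent.P014Y.Ln.Frq
import Vale.Agent.P004C.Wa.Wald
import Vale.Agent.P004C.Wa.Ker
import Vale.Agent.P004C.Wa.Lift
import Vale.Agent.P004C.Wa.Fri
import Vale.Agent.P004C.Wa.Thk
import Vale.Agent.P004C.Wa.Cms
import Vale.Agent.P004C.Wa.Per
import Vale.Agent.P004C.Wa.Gen
import Vale.Agent.P004C.Wa.Gnt
import Vale.Agent.P004C.Wa.Sw
import Vale.Agent.P004C.Wa.Rs

/-! # P014 Y, block Ln: the period formula without a bound on the Fricke coefficients -/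

open NumberField Module UpperHalfPlane CongruenceSubgroup MeasureTheory
open scoped Classical MatrixGroups Real Manifold ModularForm ComplexConjugate NumberTheorySymbols
  ArithmeticFunction.Moebius ArithmeticFunction.sigma

noncomputable section

namespace Vale.Agent.P014Y.Ln

open Vale.Agent.P004C Vale.Agent.P004C.Wa Vale.Agent.P004C.Wa.Wd Vale.Agent.P004Z.W2

/-- **the period formula** -/
def WALS : Prop := ∀ (K : Type) [Field K] [NumberField K] (J : K →+* ℂ) (D : ℕ) (θ : 𝓞 K),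
  Kd J D θ → ∀ (m : ℕ) (n n' : Ideal (𝓞 K)) (ε : ℤ → ℂ) (a : Ideal (𝓞 K) → ℂ) (G : ℍ → ℂ)
  (A B : ℕ → ℂ) (ν : 𝓞 K) R, 1 < m → Sp m n n' → D.Coprime m → Chr m ε → Ha J n' ε a →
  MW (m ^ 2) ε G → QE G A → (∀ k, ¬ k.Coprime m → A k = 0) → (∀ k, k.Coprime m → Hk ε G k (A k)) →
  (∀ r : ℕ, r.Prime → r.Coprime m →
    ∃ x y : ℂ, ‖x‖ = 1 ∧ ‖y‖ = 1 ∧ x * y = ε r ∧ x + y = A r) →
  QE (fr (m ^ 2) G) B → ν ∈ n' ^ 2 → ν - 1 ∈ n ^ 2 → Rc m R →
  ∃ (L : ℂ → ℂ) (u : ℂ), u ^ 4 = 1 ∧ DifferentiableOn ℂ L {s | -(1 / 2) < s.re} ∧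
    (∀ s : ℂ, 1 < s.re → L s =
      (∑' v : ℕ, (if v.Coprime m then (J(v | D) : ℂ) else 0) * (v : ℂ) ^ (-1 - 2 * s)) *
        ∑' k : ℕ, B k * co a k * (k : ℂ) ^ (-s)) ∧
    a n ^ 2 * ε D * (2 * π * per J (m ^ 2) ε G a ν R) ^ 2 = u * √D * a (Ideal.span {θ}) * L 0

theorem wals0 (hK : KER) (hL : LIFT) (hF : FRI) (hT : THK) (hC : CMS) (hP : PER) (hG : GEN)
    (hN : GNT) (hS : SW) (hR : RS) : WALS := by
  intro K _ _ J D θ k m n n' ε a G A B ν R m1 sp cop he ha mG qe dep hk ram qB v1 v2 rc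
  have D0 := Nat.pos_of_ne_zero k.sqf.ne_zero
  have d4 : D % 4 = 3 := by have := k.md; omega
  have sp2 := sp_sq sp
  have M0 := sp2.pos
  have N0 := Nat.mul_pos M0 D0
  have : NeZero (m ^ 2 * D) := ⟨N0.ne'⟩
  have he2 := chr_sq he
  have cop2 : D.Coprime (m ^ 2) := cop.pow_right 2
  have pc : ∀ l : ℕ, l.Coprime (m ^ 2) ↔ l.Coprime m := fun l => Nat.coprime_pow_right_iff two_pos _ _
  obtain ⟨cH, wH, -, kH⟩ := (hF _ M0).2 ε G he2 mG
  have wF := ((hF _ M0).2 _ _ cH wH).2.2.1 D D0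
  obtain ⟨T1, T2, T3⟩ := hT K J D θ k
  obtain ⟨T3, T4⟩ := T3 m n n' ε a sp he ha
  have al := Lt.ha_le k sp he ha
  have dc := fun C γ => dc_mul (mw_bd wF N0 (fun _ e => chr_one cH
    ((Int.natCast_dvd_natCast.2 (dvd_mul_right _ _)).trans e)) γ) ((T4 C).2.2 γ)
  have hi : ∀ C C', ∀ e ∈ (m ^ 2).divisors, Integrable (Ps D (fr (m ^ 2) G) a C C' (m ^ 2 / e))
      (fm (Gamma0 (m ^ 2 * D))) := fun C C' e l =>
    have t := Nat.div_pos (Nat.divisor_le l) (Nat.pos_of_mem_divisors l)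
    have w := ((hF _ D0).2 _ _ (chr_J d4) (T1 C')).2.2.1 _ t
    int_mul wF.hol.continuous (T4 C).1 w.hol.continuous (dc C) (mw_bd w (Nat.mul_pos D0 t)
      fun _ e => chr_one (chr_J d4) ((Int.natCast_dvd_natCast.2 (dvd_mul_right _ _)).trans e))
  obtain ⟨R', rc'⟩ := ex_rc k N0.ne'
  obtain ⟨P1, P2⟩ := hP.2 K J D θ k _ _ _ sp2 cop2
  choose ω τ b ad using fun C => P1 (R' C) 2 (rc'.cop C)
  obtain ⟨P2, P3⟩ := P2 ε a G ν R' ω τ he2 (ha_sq ha) mG v1 v2 rc' fun C => ⟨b C, fun x hx =>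
    (ad C x hx).imp fun y h => ⟨Ideal.mul_mono_left (Ideal.pow_le_self two_ne_zero) h.1, h.2⟩⟩
  obtain ⟨s, cs⟩ := Cj.ex_cg k
  have n0 := (Cj.sp_ne sp).1
  have r0 : ∀ C, (R' C).map s ≠ ⊥ := fun C z => Pe.nm_ne (rc'.ne C) (by
    rw [← Cj.absNorm_map s, z, Ideal.absNorm_bot])
  have ci : ∀ C, cl ((R' C).map s) = C⁻¹ := fun C => eq_inv_of_mul_eq_one_right (by
    rw [← cl_span (Ideal.absNorm (R' C) : 𝓞 K), ← cs.nm, Pe.cl_mul (rc'.ne C) (r0 C), rc'.eq])
  have E0 : ∀ e : ℕ, n' ^ 2 ⊔ Ideal.span {(e : 𝓞 K)} ≠ ⊥ := fun e z =>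
    (Cj.sp_ne sp2).2 (sup_eq_bot_iff.1 z).1
  have S := Finset.sum_congr rfl fun C (_ : C ∈ Finset.univ) => Finset.sum_congr rfl
    fun C' (_ : C' ∈ Finset.univ) => pair hK hL hF hC k (Nat.one_lt_pow two_ne_zero m1) sp2 cop2 he2
      (ha_sq ha) mG qe (fun l h => dep l (mt (pc l).2 h)) (fun l h => hk l ((pc l).1 h))
      (rc'.cop C) (rc'.cop C') (cs.nm _) (b C) (b C') (ad C) (ad C') hi
  simp only [fun C C' => Pe.cl_mul (mul_ne_zero (pow_ne_zero 2 n0) (rc'.ne C)) (rc'.ne C'),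
    fun C => Pe.cl_mul (pow_ne_zero 2 n0) (rc'.ne C), fun e C => Pe.cl_mul (E0 e) (r0 C),
    fun e C C' => Pe.cl_mul (mul_ne_zero (E0 e) (r0 C)) (rc'.ne C'), rc'.eq, ci,
    show cl (n ^ 2) = cl n ^ 2 by rw [sq, sq, Pe.cl_mul n0 n0], ← Finset.mul_sum,
    Finset.sum_comm (t := (m ^ 2).divisors), Finset.sum_comm (t := D.divisors),
    ← Finset.sum_mul, ← sq] at S
  rw [Finset.sum_congr rfl P3, Finset.sum_const, nsmul_eq_mul, ← (hN K J D θ k).1, ← P2 R
    ⟨rc.ne, rc.eq, fun C => (pc _).2 (rc.cop C)⟩, Finset.sum_congr rfl fun e l => congrArg _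
      (pair_sum _ _ _ (van hG hN k sp cop he ha wH (fun r hr d => by
        have c := cop.coprime_dvd_left d
        obtain ⟨x, y, h1, h2, h3, h4⟩ := ram r hr c
        exact ⟨x, y, h1, h2, h3, h4 ▸ kH r _ hr ((pc r).2 c) (hk r c)⟩)
        (Nat.dvd_of_mem_divisors l)))] at S
  have e1 : ∀ l, D * l / D = l := fun l => Nat.mul_div_cancel_left l D0
  obtain ⟨L, L1, L2, L3⟩ := hR (m ^ 2 * D) _
    (fun τ => up D (fr (m ^ 2) G) τ * (∑ C, TA a C τ) * τ.im ^ 2)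
    (fun l => if D ∣ l then B (l / D) * (l * co a l) else 0)
    ((Nat.one_lt_pow two_ne_zero m1).trans_le (Nat.le_mul_of_pos_right _ D0)) (chr_M _ d4)
    ((wF.hol.continuous.mul (continuous_finsetSum _ fun C _ => (T4 C).1)).mul (by fun_prop))
    (fun γ h z => by
      have c := IsCoprime.mul_right_iff.1 (Nat.cast_mul (α := ℤ) _ _ ▸ cop_d h)
      have j := jj_ne γ z
      have j' : conj (jj γ z) ≠ 0 := (map_ne_zero _).2 j
      simp only [wF.law γ h, fun C => (T4 C).2.1 γ (mul_comm D _ ▸ h), ← Finset.mul_sum, im_sm,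
        if_pos c.1, Complex.ofReal_div, Complex.ofReal_pow, ← Complex.mul_conj']
      field_simp
      linear_combination (up D (fr (m ^ 2) G) z * J(γ 1 1 | D) * (∑ C, TA a C z) * (z.im : ℂ) ^ 2) *
        chr_conj he2 M0 c.1)
    (fun γ => by
      simpa only [← Finset.mul_sum, ← Finset.sum_mul, Dc] using Dc.sum Finset.univ fun C => dc C γ)
    (((mul_right_injective₀ D0.ne').summable_iff fun l h => by
      rw [if_neg fun ⟨j, z⟩ => h ⟨j, z.symm⟩, norm_zero, zero_div]).1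
      (.of_nonneg_of_le (fun _ => div_nonneg (norm_nonneg _) (sq_nonneg _)) (fun l => by
        rcases l.eq_zero_or_pos with rfl | l0
        · simp
        have q : (0 : ℝ) < l := by exact_mod_cast l0
        have q' : (1 : ℝ) ≤ D := by exact_mod_cast D0
        have w : (0 : ℝ) < (D * l : ℕ) := by exact_mod_cast Nat.mul_pos D0 l0
        simp only [Function.comp_apply, if_pos (dvd_mul_right D l), e1]
        rw [norm_mul, norm_mul, Complex.norm_natCast, div_le_iff₀ (by positivity)]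
        calc _ ≤ ‖B l‖ * ((D * l : ℕ) * (σ 0 D * σ 0 l * ((D * l : ℕ) : ℝ) ^ (-(1 / 2) : ℝ))) := by
              gcongr
              refine (co_le T3 T2 (Nat.mul_pos D0 l0)).trans ?_
              gcongr
              simp only [ArithmeticFunction.sigma_zero_apply]
              exact_mod_cast Nat.divisors_mul D l ▸ Finset.card_mul_le
          _ = σ 0 D * (‖B l‖ * σ 0 l * ((D * l : ℕ) : ℝ) ^ (-(3 / 2) : ℝ)) * ((D * l : ℕ) : ℝ) ^ 2 := by
              rw [show (-(3 / 2) : ℝ) = -(1 / 2) + -1 by norm_num, Real.rpow_add w, Real.rpow_neg_one]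
              field_simp
          _ ≤ _ := by
              gcongr _ * (_ * ?_) * _
              refine Real.rpow_le_rpow_of_nonpos q ?_ (by norm_num)
              push_cast
              exact le_mul_of_one_le_left q.le q')
        ((frk_sum hF sp.pos he mG qe hk ram qB).mul_left (σ 0 D : ℝ))))
    (by simp)
    (fun y => four D0 qB (sum_TA al) (fun l => by rw [if_pos (dvd_mul_right _ _), e1])
      fun l h => if_neg h)
  have t0 : a (Ideal.span {θ}) ≠ 0 := fun z => by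
    have c := congrArg a (cs.nm (Ideal.span {θ}))
    rw [ha.hc.mul, z, zero_mul, Pe.nm_θ k, eq_comm, ha.hc.zero, Ideal.span_singleton_eq_bot,
      or_iff_right (Nat.cast_ne_zero.2 D0.ne')] at c
    obtain ⟨u, v, e⟩ := (Nat.isCoprime_iff_coprime.2 cop).map (Int.castRingHom (𝓞 K))
    exact c ((Ideal.eq_top_iff_one _).2 (e ▸ Submodule.add_mem_sup
      (Ideal.mul_mem_left _ _ (by simp))
      (Ideal.mul_mem_left _ _ (by simpa using (Cj.sp_m sp).2))))
  have Dn : (D : ℂ) ≠ 0 := Nat.cast_ne_zero.2 D0.ne'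
  refine ⟨fun s => L s * D ^ s / a (Ideal.span {θ}), Complex.I, Complex.I_pow_four,
    (L1.mul (differentiable_id.const_cpow (.inl Dn)).differentiableOn).div_const _, fun s h => ?_, ?_⟩
  · simp only [L2 s h, mul_assoc, mul_div_assoc, ser k ha.hc.mul t0 B h, Nat.isCoprime_iff_coprime, pc]
  have r0 : ((√D : ℝ) : ℂ) ≠ 0 := Complex.ofReal_ne_zero.2 (Real.sqrt_pos.2 (Nat.cast_pos.2 D0)).ne'
  have L4 : L 0 / (2 * π ^ 2) = 2 / √D * ∑ e ∈ (m ^ 2).divisors, (μ e : ℂ) / e * ∑ C, ∑ C',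
      ∫ τ, Ps D (fr (m ^ 2) G) a C C' (m ^ 2 / e) τ ∂fm (Gamma0 (m ^ 2 * D)) := by
    rw [← L3, Finset.sum_congr rfl fun e l => by
      rw [Finset.sum_congr rfl fun C _ => (integral_finsetSum _ fun C' _ => hi C C' e l).symm,
        ← integral_finsetSum _ fun C _ => integrable_finsetSum _ fun C' _ => hi C C' e l,
        ← integral_const_mul], ← integral_finsetSum _ fun e l => (integrable_finsetSum _ fun C _ =>
      integrable_finsetSum _ fun C' _ => hi C C' e l).const_mul _, ← integral_const_mul]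
    refine integral_congr_ae (.of_forall fun z => ?_)
    have y : (z.im : ℂ) ≠ 0 := Complex.ofReal_ne_zero.2 z.im_ne_zero
    simp only [hS K J D θ k _ M0 (fun p hp d => j_one k sp cop hp (hp.dvd_of_dvd_pow d)) z, Ps,
      ← Finset.sum_mul, ← Finset.mul_sum, show ∀ t, ∑ C : ClassGroup (𝓞 K), up t (TE C) z =
        up t (∑ C : ClassGroup (𝓞 K), TE C) z from fun t => by simp [up]]
    simp only [Finset.mul_sum]
    refine Finset.sum_congr rfl fun e _ => ?_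
    field_simp
  have h0 : (Nat.card {C : ClassGroup (𝓞 K) // C ^ 2 = 1} : ℂ) ≠ 0 :=
    Nat.cast_ne_zero.2 (Nat.card_ne_zero.2 ⟨⟨⟨1, one_pow 2⟩⟩, inferInstance⟩)
  have x0 : ε D ≠ 0 := mt (he.zero _).1 (not_not.2 (Nat.isCoprime_iff_coprime.2 cop))
  have p0 : (π : ℂ) ≠ 0 := Complex.ofReal_ne_zero.2 Real.pi_ne_zero
  simp only [mul_left_comm _ (Nat.card _ : ℂ), ← Finset.mul_sum] at S
  rw [sq n, ha.hc.mul] at S
  simp only [Complex.cpow_zero]
  push_cast at S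
  field_simp at S L4 ⊢
  linear_combination -Complex.I * L4 - Complex.I * π ^ 2 / 2 * S +
    4 * π ^ 2 * ε D * a n ^ 2 * per J (m ^ 2) ε G a ν R ^ 2 * Complex.I_mul_I

theorem wals : WALS :=
  wals0 ker lift fri thk cms per_row (gen thk) gnt (sw thk) rs

end Vale.Agent.P014Y.Ln
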