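import Vale.Agent.P014Y.Ln.St2
import Vale.Agent.P014Y.Ln.Wals
import Vale.Agent.P014Y.Ln.Pv0
import Vale.Agent.P014Y.Fe.Feq
import Vale.Agent.P004C.Ln.Pv3c
import Vale.Agent.P004C.Ln.Pv3t
import Vale.Agent.P004C.Ln.Xi
import Vale.Agent.P004C.Ln.Hex

/-!
# P014 Y, block LN, row PV1: the square of the period of one form
-/

set_option linter.all false

open NumberField Module Ideal UpperHalfPlane
open scoped Classical ComplexConjugate Real ArithmeticFunction.sigma NumberTheorySymbols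

noncomputable section

namespace Vale.Agent.P014Y.Ln.Pa

open P004C P004C.Wa P004C.Wa.Co P004C.Wa.Re0 P004C.Wa.Re1 P004C.Ln.Pw Py
open P004C.Ln (Cr)
open Fe (Dv Xm xs eP Eg MUL)
open Fe.Dep (xs_mul)

variable {K : Type} [Field K] [NumberField K]

/-- the point at which the quotient of the functional equations is used -/
def Xs (χ : ℤ → ℂ) (a : Ideal (𝓞 K) → ℂ) (s : ℂ) (k : ℕ) : ℂ := χ k * co a k * xs s k

/-- the data over `K` -/
structure Kx (J : K →+* ℂ) (m c : ℕ) (n n' w w' : Ideal (𝓞 K)) (χ : ℤ → ℂ)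
    (a : Ideal (𝓞 K) → ℂ) : Prop where
  two : finrank ℚ K = 2
  sm : Sp m n n'
  sc : Sp c w w'
  cm : c.Coprime m
  cr : Cr c χ
  hc : HC J 1 (n' * w') a
  na : ∀ I, a I = 0 ∨ ‖a I‖ ^ 2 * absNorm I = 1

variable {J : K →+* ℂ} {m c : ℕ} {n n' w w' : Ideal (𝓞 K)} {χ : ℤ → ℂ} {a : Ideal (𝓞 K) → ℂ}
  {s : ℂ} {V : AbsoluteValue ℂ ℝ}

namespace Kx

variable (h : Kx J m c n n' w w' χ a)
include h

theorem S : Sp (m * c) (n * w) (n' * w') := sp_mul h.sm h.sc h.cm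

theorem le (I : Ideal (𝓞 K)) : ‖a I‖ ≤ 1 := (h.na I).elim (fun e => by simp [e]) fun e => by
  have : (1 : ℝ) ≤ absNorm I := Nat.one_le_cast.2 (Nat.pos_of_ne_zero fun z => by simp [z] at e)
  nlinarith [norm_nonneg (a I), sq_nonneg (‖a I‖ - 1), sq_nonneg ‖a I‖]

theorem a0 : a ⊥ = 0 := (h.hc.zero _).2 (.inl rfl)

theorem chi {k : ℤ} (e : χ k ≠ 0) : ‖χ k‖ = 1 ∧ ∀ V : AbsoluteValue ℂ ℝ, V (χ k) = 1 :=
  have t := (Nat.totient_pos.2 h.sc.pos).ne'
  ⟨Complex.norm_eq_one_of_pow_eq_one (cr_root h.cr h.sc.pos e) t,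
    fun _ => v_root t (cr_root h.cr h.sc.pos e)⟩

theorem chi_le (k : ℤ) : ‖χ k‖ ≤ 1 := by
  by_cases e : χ k = 0
  · simp [e]
  · exact (h.chi e).1.le

theorem chi_dv {k : ℕ} (d : Dv m k) : χ k ≠ 0 := by
  obtain ⟨j, d⟩ := d
  exact (h.cr.zero _).not.2 (not_not.2 (Nat.isCoprime_iff_coprime.2
    ((h.cm.symm.pow_left j).coprime_dvd_left d)))

theorem ex {k : ℕ} (d : Dv m k) : ∃ T, On (n * w) T ∧ absNorm T = k ∧ co a k = a T ∧ a T ≠ 0 := by
  obtain ⟨T, t, rfl⟩ := ex_on h.two h.sm d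
  have t' := t.mono (t := n * w) mul_le_left
  exact ⟨T, t', rfl, co_on1 h.two h.S h.hc t',
    (h.hc.zero T).not.2 (not_or.2 ⟨t.1, not_not.2 (t'.cop h.S.cop)⟩)⟩

theorem ne {k : ℕ} (d : Dv m k) (s : ℂ) : Xs χ a s k ≠ 0 := by
  obtain ⟨T, -, -, e, z⟩ := h.ex d
  exact mul_ne_zero (mul_ne_zero (h.chi_dv d) (e ▸ z)) (by simp [xs, Fe.Gl.dv_ne h.sm.pos d])

theorem xm {r : ℝ} (hs : r ≤ s.re + 1 / 2) : Xm m r (Xs χ a s) where
  one := by simp [Xs, xs, h.cr.one, co_one h.hc.cm]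
  mul k k' d d' := by
    obtain ⟨T, t, rfl, e, -⟩ := h.ex d
    rw [Xs, Xs, Xs, co_on h.two h.S h.hc t, e, xs_mul, Nat.cast_mul, h.cr.mul]
    ring
  le k d := by
    have k0 := Nat.pos_of_ne_zero (Fe.Gl.dv_ne h.sm.pos d)
    have k1 : (1 : ℝ) ≤ k := by exact_mod_cast k0
    obtain ⟨T, -, rfl, e, z⟩ := h.ex d
    have q : ‖a T‖ = (absNorm T : ℝ) ^ (-(1 / 2) : ℝ) := by
      rw [← sq_eq_sq₀ (norm_nonneg _) (by positivity), ← Real.rpow_natCast _ 2,
        ← Real.rpow_natCast _ 2, ← Real.rpow_mul (by linarith), Real.rpow_natCast,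
        eq_inv_of_mul_eq_one_left ((h.na T).resolve_left z), ← Real.rpow_neg_one]
      norm_num
    rw [Xs, norm_mul, norm_mul, (h.chi (h.chi_dv d)).1, one_mul, e, q, xs,
      Complex.norm_natCast_cpow_of_pos k0, ← Real.rpow_add (by linarith)]
    exact Real.rpow_le_rpow_of_exponent_le k1 (by simp; linarith)
  ne k d := h.ne d s

theorem vx (hV : IsNonarchimedean V) {θ : 𝓞 K} {t : 𝓞 K ≃+* 𝓞 K} (g : Cj.Cg J θ t) {y : 𝓞 K}
    (y0 : y ∈ n' * w') (y1 : V (J y) = 1) {k : ℕ} (d : Dv m k) : V (Xs χ a 0 k) * V k = 1 := by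
  obtain ⟨T, t, rfl, e, -⟩ := h.ex d
  rw [Xs, e, map_mul, map_mul, (h.chi (h.chi_dv d)).2, xs, neg_zero, Complex.cpow_zero, map_one,
    one_mul, mul_one, va_on hV g h.S h.hc y0 y1 t]

/-- **the part of the series at the level** -/
theorem spl (mu : MUL) {ε : ℤ → ℂ} {g : ℍ → ℂ} {A B : ℕ → ℂ} (m1 : 1 < m) (e : Eg m ε g A B) (hs : 1 < s.re) :
    ∑' k : ℕ, B k * χ k * co a k * (k : ℂ) ^ (-s) =
      eP m B (Xs χ a s) * ∑' k : ℕ, conj (A k) * χ k * co a k * (k : ℂ) ^ (-s) := by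
  obtain ⟨b1, b2, -, b3⟩ := mu m ε g A B m1 e
  have m0 := h.sm.pos.ne'
  have x := h.xm (r := 3 / 2) (s := s) (by linarith)
  have q := Fb.split m0 (f := fun k => B k * χ k * co a k * (k : ℂ) ^ (-s))
    (g := fun k => B k * Xs χ a s k)
    (h := fun k => conj (A k) * χ k * co a k * (k : ℂ) ^ (-s)) (by simp [co_zero h.a0])
    (fun k d k' c => by
      rw [← Fe.Ml.dv_iff m0] at d
      obtain ⟨T, t, rfl, q, -⟩ := h.ex d
      rw [b1 _ _ d c, co_on h.two h.S h.hc t, Xs, q, xs, Nat.cast_mul, Nat.cast_mul, h.cr.mul,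
        Complex.natCast_mul_natCast_cpow]
      ring)
    (((b3 (3 / 2) (by norm_num)).subtype _).of_nonneg_of_le (fun _ => norm_nonneg _)
      fun ⟨k, d⟩ => by
        rw [← Fe.Ml.dv_iff m0] at d
        have : (1 : ℝ) ≤ k.divisors.card := by
          exact_mod_cast Finset.card_pos.2 ⟨1, Nat.one_mem_divisors.2 (Fe.Gl.dv_ne h.sm.pos d)⟩
        rw [norm_mul]
        exact mul_le_mul (le_mul_of_one_le_right (norm_nonneg _) this) (x.le k d) (norm_nonneg _)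
          (by positivity))
    (((Fb.sum_sq hs).subtype _).of_nonneg_of_le (fun _ => norm_nonneg _) fun ⟨k, d⟩ => by
      have := co_le h.two h.hc.cm h.a0 h.le k
      have := b2 k
      have := h.chi_le k
      simp only [Function.comp, norm_mul, Complex.norm_conj, ArithmeticFunction.sigma_zero_apply,
        Real.norm_natCast]
      rw [Complex.norm_natCast_cpow_of_re_ne_zero _ (by rw [Complex.neg_re]; linarith),
        Complex.neg_re, Real.norm_of_nonneg (by positivity), ← mul_one (k.divisors.card : ℝ)]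
      gcongr
      rwa [mul_one])
  rw [q.tsum_eq, Fe.Ml.eP_eq m0,
    tsum_subtype (Fb.Cm m) fun k : ℕ => conj (A k) * χ k * co a k * (k : ℂ) ^ (-s)]
  refine congrArg _ (tsum_congr fun k => Set.indicator_apply_eq_self.2 fun c => ?_)
  simp [e.dep k c]

theorem e1 (s : ℂ) : xa (fun I => a I * χ (absNorm I)) s = Xs χ a s := funext fun k => by
  rw [xa, Xs, co_of (c' := a) (y := χ k) fun I u => by rw [u], mul_comm (χ k)]

theorem cc {k : ℕ} (p : k.Coprime c) : conj (χ k) * χ k = 1 := cr_cj h.cr h.sc.pos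
  ((h.cr.zero k).not.2 (not_not.2 (Nat.isCoprime_iff_coprime.2 p)))

theorem hc' {θ : 𝓞 K} {t : 𝓞 K ≃+* 𝓞 K} (g : Cj.Cg J θ t) :
    P014Y.C.HC J 1 (n' * span {(c : 𝓞 K)}) fun I => a I * χ (absNorm I) := by
  have cw : span {(c : 𝓞 K)} ≤ w' := (span_singleton_le_iff_mem _).2 (Cj.sp_m h.sc).2
  refine ⟨by simp [h.hc.one, h.cr.one, -one_eq_top], fun I I' => by
      rw [h.hc.mul, map_mul, Nat.cast_mul, h.cr.mul]
      ring, fun I => ?_, fun x x0 x1 => ?_⟩
  · rw [mul_eq_zero, h.hc.zero, h.cr.zero, Nat.isCoprime_iff_coprime, ← cop_iff, or_assoc]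
    refine or_congr_right ?_
    have : I ⊔ span {(c : 𝓞 K)} = ⊤ → I ⊔ w' = ⊤ := fun z =>
      top_le_iff.1 (z.ge.trans (sup_le_sup_left cw _))
    simp only [Ne, ← isCoprime_iff_sup_eq, IsCoprime.mul_right_iff] at this ⊢
    tauto
  · rw [h.hc.prn x x0 (mul_mono_right cw x1), mul_eq_left₀ (by simpa using x0), ← h.cr.one]
    have x2 : x - 1 ∈ span {(c : 𝓞 K)} := Ideal.mul_le_right x1
    obtain ⟨z, hz⟩ := mem_span_singleton.1 x2
    have k1 : (absNorm (span {x}) : 𝓞 K) = x * t x := Cj.jinj J (by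
      have := congrArg (fun u : ℝ => (u : ℂ)) (g.ab x)
      simp only [Complex.ofReal_natCast, Complex.ofReal_pow] at this
      simp only [RingOfIntegers.coe_eq_algebraMap, map_mul, map_natCast] at this ⊢
      rw [this, ← Complex.mul_conj', ← RingOfIntegers.coe_eq_algebraMap, ← g.cj])
    refine h.cr.per _ _ (g.int_dvd ⟨z + t z + c * z * t z, ?_⟩)
    have k2 := congrArg t hz
    simp only [map_sub, map_mul, map_one, map_natCast] at k2
    push_cast
    rw [k1]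
    linear_combination t x * hz + (1 + c * z) * k2

theorem na' (I : Ideal (𝓞 K)) :
    a I * χ (absNorm I) = 0 ∨ ‖a I * χ (absNorm I)‖ ^ 2 * absNorm I = 1 := by
  by_cases z : χ (absNorm I) = 0
  · exact .inl (by simp [z])
  · exact (h.na I).imp (fun e => by simp [e]) fun e => by rwa [norm_mul, (h.chi z).1, mul_one]

theorem rk (m1 : 1 < m) (m3 : 3 ∣ m) (ha : Ha J (n' * w') (fun d => e3 m d * conj (χ d) ^ 2) a)
    {A : ℕ → ℂ} (dep : ∀ k, ¬ k.Coprime m → A k = 0) (D : ℕ) (s : ℂ) :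
    Rk D (fun k => conj (A k)) (ls m (fun I => a I * χ (absNorm I)) s) =
      (∑' v : ℕ, (if v.Coprime (m * c) then (J(v | D) : ℂ) else 0) * (v : ℂ) ^ (-1 - 2 * s)) *
        ∑' k : ℕ, conj (A k) * χ k * co a k * (k : ℂ) ^ (-s) := by
  rw [Rk]
  congr 2 <;> refine funext fun v => Eq.symm ?_
  · simp only [ls, nm_span h.two, Nat.coprime_pow_left_iff two_pos, Nat.coprime_mul_iff_right]
    by_cases p : v.Coprime m
    · have v0 : v ≠ 0 := fun z => m1.ne' (by simpa [z] using p)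
      have v1 : (v : ℂ) ≠ 0 := Nat.cast_ne_zero.2 v0
      have j : (J(v | 3) : ℂ) ^ 2 = 1 := by
        exact_mod_cast jacobiSym.sq_one (Int.isCoprime_iff_gcd_eq_one.1
          (Nat.isCoprime_iff_coprime.2 (p.coprime_dvd_right m3)))
      rw [if_pos p, ha.fin v v (Nat.cast_ne_zero.2 v0) (by simp), show J (v : 𝓞 K) = v by simp,
        e3, if_pos (Nat.isCoprime_iff_coprime.2 p), pow_two v, xs_mul, Nat.cast_mul, h.cr.mul, xs,
        show -1 - 2 * s = -1 + (-s + -s) by ring, Complex.cpow_add _ _ v1, Complex.cpow_add _ _ v1,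
        Complex.cpow_neg_one]
      by_cases q : v.Coprime c
      · rw [if_pos ⟨p, q⟩]
        linear_combination -(J(v | D) * (v : ℂ)⁻¹ * (v ^ (-s) * v ^ (-s))) *
          ((conj (χ v) * χ v) ^ 2 * j + (conj (χ v) * χ v + 1) * h.cc q)
      · simp [q, (h.cr.zero v).2 (mt Nat.isCoprime_iff_coprime.1 q)]
    · simp [p]
  · by_cases p : v.Coprime m
    · rw [co_of (c := ls m _ s) (c' := a) (y := χ v * xs s v) fun I u => by
        rw [ls, u, if_pos p, mul_assoc], xs]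
      ring
    · simp [dep v p]

end Kx

theorem v3 (hV : V3 V) {d : ℕ} (h : d.Coprime 3) : V d = 1 := by
  have le : ∀ k : ℤ, V k ≤ 1 := fun k => hV.1.apply_intCast_le_one_of_isNonarchimedean
  obtain ⟨x, y, e⟩ := Nat.isCoprime_iff_coprime.2 h
  have e' : (x * d + y * 3 : ℂ) = 1 := by exact_mod_cast e
  have k := hV.1 (x * d : ℂ) (y * 3)
  rw [e', V.map_one, V.map_mul, V.map_mul, hV.2] at k
  have l := le d
  rw [Int.cast_natCast] at l
  refine le_antisymm l ((le_max_iff.1 k).elim (fun k => k.trans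
    (mul_le_of_le_one_left (V.nonneg _) (le x))) fun k => ?_)
  linarith [le y]

theorem ch3 (h : 3 ∣ m) : Chr m (e3 m) :=
  have c := Wd.chr_M m (D := 3) rfl
  ⟨c.one, c.mul, fun a b e => by
    obtain ⟨k, hk⟩ := e
    have : J(a | 3) = J(b | 3) := jacobiSym.mod_left' (Int.modEq_iff_dvd.2
      ((Int.natCast_dvd_natCast.2 h).trans ⟨-k, by linear_combination -hk⟩))
    rw [e3, e3, this, eq_add_of_sub_eq' hk]
    simp only [IsCoprime.add_mul_left_left_iff], fun a => (c.zero a).trans (not_congr (by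
      rw [Nat.cast_mul, IsCoprime.mul_right_iff]
      exact and_iff_left_of_imp fun x => x.of_isCoprime_of_dvd_right (Int.natCast_dvd_natCast.2 h))),
    c.odd⟩

theorem cj3 (d : ℤ) : conj (e3 m d) = e3 m d := by
  unfold e3
  split_ifs <;> simp

theorem cht {ε : ℤ → ℂ} (h : Chr m ε) (k : Cr c χ) :
    Chr (m * c) fun d => ε d * conj (χ d) ^ 2 where
  one := by simp [h.one, k.one]
  mul a b := by
    rw [h.mul, k.mul, map_mul]
    ring
  per a b e := by
    rw [Nat.cast_mul] at e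
    rw [h.per a b ((dvd_mul_right _ _).trans e), k.per a b ((dvd_mul_left _ _).trans e)]
  zero a := by
    rw [Nat.cast_mul, IsCoprime.mul_right_iff, not_and_or, ← h.zero, ← k.zero]
    simp
  odd := by rcases P004C.Ln.Pv.neg_one k with e | e <;> simp [h.odd, e]

end Pa

open P004C P004C.Wa P004C.Wa.Co P004C.Ln.Pw Py Pa
open Fe (Dv Xm xs eP Eg MUL)

/-- **PV1** -/
theorem pv1 (hW : WALS) (wei : WEI) (twi : TWI) (mu : MUL) : PV1 := by
  intro V hV K _ _ J D θ h m c n n' w w' ξ b ν m6 hs hw sq cm dm ⟨y, y0, y1⟩ hξ hb n1 n2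
  obtain ⟨χ, hχ, pχ, rel⟩ := P004C.Ln.Xx.two hw sq hξ
  have m3 : 3 ∣ m := (show 3 ∣ 6 by norm_num).trans m6
  have m2 : 2 ∣ m := (show 2 ∣ 6 by norm_num).trans m6
  have m1 : 1 < m := Nat.le_of_dvd hs.pos m2
  have c1 := cm.coprime_mul_right_right
  have vc := v3 hV (c1.coprime_dvd_right m3)
  have vD := v3 hV (dm.coprime_dvd_right m3)
  have S := sp_mul hs hw c1
  have mc : 1 < m * c := m1.trans_le (Nat.le_mul_of_pos_right _ hw.pos)
  have hε := ch3 m3
  have hε' := cht hε hχ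
  have hb' : P004C.Ln.Hb J 1 n (fun d => conj (e3 m d)) b := by simpa only [cj3] using hb
  obtain ⟨a, ha, aa⟩ := ex_a P004C.Ln.hex h hs hw c1 m1 hε hχ hξ rel hb' fun _ => rfl
  have na := ((thk K J D θ h).2.2 _ _ _ _ a S hε' ha).1
  have X : Kx J m c n n' w w' χ a := ⟨h.two, hs, hw, c1, hχ, ha.hc, na⟩
  obtain ⟨t, g⟩ := Cj.ex_cg h
  have y2 : y * c ∈ n' * w' := mul_mem_mul y0 (Cj.sp_m hw).2
  have y3 : V (J (y * c : 𝓞 K)) = 1 := by simpa [vc] using y1
  refine ⟨fun I => a I * χ (absNorm I), X.hc' g, fun I p => ?_, X.na', fun k d => ?_,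
    fun s => X.e1 s ▸ X.xm (add_comm _ _).le, fun G A B e => ?_⟩
  · simp only [aa I p]
    linear_combination b I * ξ I * e3 m (absNorm I) * X.cc p.coprime_mul_left_right
  · have := X.vx hV.1 g y2 y3 d
    rwa [← X.e1, xa, xs, neg_zero, Complex.cpow_zero, mul_one] at this
  obtain ⟨G', κ, e', vκ⟩ := wei m c _ χ G A B m1 e hw.pos c1 hχ pχ
  obtain ⟨_, u1, ν', u2, u⟩ := Submodule.mem_sup.1 ((eq_top_iff_one _).1 (isCoprime_iff_sup_eq.1
    ((isCoprime_iff_sup_eq.2 S.cop).pow (m := 2) (n := 2))))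
  have u3 : ν' - 1 ∈ (n * w) ^ 2 := by rw [← u]; simpa using u1
  obtain ⟨R, hR⟩ := Wd.ex_rc h S.pos.ne'
  have dmc := dm.mul_right cm.coprime_mul_left_right.symm
  obtain ⟨κ', vκ', tw⟩ := twi K J D θ h m c n n' w w' _ _ χ A G G' ξ b a ν ν' R hs hw sq
    (mul_assoc 2 m D ▸ (c1.coprime_dvd_right m2).mul_right cm) dm hε e.mw e.qe hξ hχ pχ rel
    (fun _ => rfl) e'.mw e'.qe hb' ha aa n1 n2 u2 u3 hR
  obtain ⟨L, u₀, u4, dL, eL, eW⟩ := hW K J D θ h _ _ _ _ a G' _ _ ν' R mc S dmc hε' ha e'.mw e'.qe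
    e'.dep e'.hk e'.rt e'.fr u2 u3 hR
  refine ⟨L, κ, vκ V hV.1 vc, dL, fun s hs' => ?_, fun β _ Q hQ => ?_⟩
  · rw [eL s hs', X.e1, X.rk m1 m3 ha e.dep]
    simp only [mul_assoc κ, tsum_mul_left]
    rw [X.spl mu m1 e hs']
    ring
  · have k1 := va_on hV.1 g S ha.hc y2 y3 (T := n * w) ⟨(Cj.sp_ne S).1, fun _ _ l => l⟩
    have k2 := Py.va hV.1 g ha.hc (Cj.sp_ne S).2 (I := span {θ}) (y := D) (sup_top dmc
      (Pe.nm_θ h ▸ absNorm_mem _) (Cj.sp_m S).2) (by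
        rw [map_natCast, ← Pe.nm_θ h]; exact absNorm_mem _) (by simpa using vD)
    have k5 := congrArg V eW
    have k6 : V √D = 1 := (pow_eq_one_iff_of_nonneg (V.nonneg _) two_ne_zero).1 (by
      rw [← map_pow, ← Complex.ofReal_pow, Real.sq_sqrt (by positivity), Complex.ofReal_natCast, vD])
    have k7 := v_root (V := V) (Nat.totient_pos.2 S.pos).ne' (cr_root (cr hε') S.pos
      ((hε'.zero D).not.2 (not_not.2 (Nat.isCoprime_iff_coprime.2 dmc))))
    rw [S.nm, Nat.cast_mul, map_mul, vc, mul_one] at k1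
    rw [Pe.nm_θ h, vD, mul_one] at k2
    rw [tw β Q hQ, mul_left_comm (2 * π : ℂ)] at k5
    generalize 2 * π * P004C.Ln.pc J 1 (m ^ 2) c G (fun I => ξ I * b I) ν Q = Z at k5 ⊢
    rw [map_mul, map_mul, k7, map_pow, map_pow, map_mul V κ', vκ' V hV.1 vc, map_mul, map_mul,
      map_mul V u₀, k2, k6, v_root four_ne_zero u4] at k5
    linear_combination V m ^ 2 * k5 - V Z ^ 2 * (V (a (n * w)) * V m + 1) * k1

end Vale.Agent.P014Y.Ln
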