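import Vale.Agent.P014Y.Ln.St2
import Vale.Agent.P014Y.Ln.Acn
import Vale.Agent.P014Y.Fe.Feq
import Vale.Agent.P014Y.Fe.Dep

/-!
# P014 Y, block LN: the row `PVY`
-/

set_option linter.all false

open NumberField Module Ideal UpperHalfPlane
open scoped Classical ComplexConjugate Real

noncomputable section

namespace Vale.Agent.P014Y.Ln

open P004C.Wa (dp co)
open Fe (Dv Xm xs eP nu de Li cj cd Eg Pc LA FEQ)

namespace Pz

theorem tc {L : Type} [Field L] [NumberField L] (h : Z3 L) : IsTotallyComplex L := by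
  obtain ⟨w, h⟩ := h
  refine ⟨fun v => InfinitePlace.not_isReal_iff_isComplex.1 fun r => ?_⟩
  have := congrArg (InfinitePlace.embedding_of_isReal r) h
  simp only [map_add, map_pow, map_one, map_zero] at this
  nlinarith [sq_nonneg (InfinitePlace.embedding_of_isReal r w + 1 / 2)]

theorem v_sqrt (V : AbsoluteValue ℂ ℝ) (k : ℕ) : V (√k : ℝ) = √(V k) := by
  rw [eq_comm, Real.sqrt_eq_iff_eq_sq (V.nonneg _) (V.nonneg _), ← map_pow, ← Complex.ofReal_pow,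
    Real.sq_sqrt (Nat.cast_nonneg _), Complex.ofReal_natCast]

theorem xa_diff {K : Type} [Field K] [NumberField K] (α : Ideal (𝓞 K) → ℂ) {k : ℕ} (k0 : k ≠ 0) :
    Differentiable ℂ fun s => xa α s k :=
  (differentiable_neg.const_cpow (.inl (Nat.cast_ne_zero.2 k0))).const_mul _

theorem alg {P P' l l' μ x c₀ c₁ s₀ s₁ x₀ x₁ E₀ E₁ E₂ z₀ z₁ z₂ : ℝ} (p : P ^ 2 = μ ^ 2 * l)
    (p' : P' ^ 2 = μ ^ 2 * l') (hx : x * μ = 1) (h₀ : x₀ * c₀ = 1) (h₁ : x₁ * c₁ = 1)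
    (q₀ : s₀ * s₀ = c₀) (q₁ : s₁ * s₁ = c₁)
    (k : (l * l') ^ 2 * (z₀ * (c₁ * x₁ ^ 2 * E₀)) = x ^ 8 * (s₀ * x₀ * E₂ * E₁ * (z₁ * z₂))) :
    (P * P') ^ 4 * (s₀ * E₀ * z₀) = s₁ * E₁ * z₁ * (s₁ * E₂ * z₂) :=
  calc _ = (P ^ 2 * P' ^ 2) ^ 2 * (x₁ * c₁) ^ 2 * (s₀ * E₀ * z₀) := by rw [h₁]; ring
    _ = μ ^ 8 * c₁ * s₀ * ((l * l') ^ 2 * (z₀ * (c₁ * x₁ ^ 2 * E₀))) := by rw [p, p']; ring
    _ = (x * μ) ^ 8 * (x₀ * (s₀ * s₀)) * c₁ * (E₁ * z₁ * E₂ * z₂) := by rw [k]; ring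
    _ = _ := by rw [hx, q₀, h₀, ← q₁]; ring

end Pz

open Pz in
/-- **row PVY** -/
theorem pvy (feq : FEQ) (pv1 : PV1) (ser : SER) : PVY := by
  intro V hV K _ _ J D θ h κ _ L M _ _ _ _ _ _ f₀ f₁ φ₀ φ₁ m c n n' w w' ξ b ν G₁ G₂ A B₁ B₂ fm bc
    g₁ g₂ eq ek m6 hs hw sq cm dm hy hξ hb n1 n2
  have m1 : 1 < m := by have := Nat.le_of_dvd hs.pos m6; omega
  obtain ⟨α, hc, ea, na, va, xm, pe⟩ := pv1 V hV K J D θ h m c n n' w w' ξ b ν m6 hs hw sq cm dm hy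
    hξ hb n1 n2
  refine ⟨α, hc, ea, fun z₀ z₁ z₂ hz β β' _ _ R R' hR hR' => ?_⟩
  obtain ⟨L₁, u₁, v₁, d₁, e₁, p₁⟩ := pe G₁ A B₁ g₁
  obtain ⟨L₂, u₂, v₂, d₂, e₂, p₂⟩ := pe G₂ _ B₂ g₂
  simp only [Complex.conj_conj] at e₂
  have dA : dA m A = A := funext fun k => by
    rw [dA]
    split_ifs with e
    exacts [rfl, (g₁.dep k e).symm]
  obtain ⟨u, u2, fe⟩ := feq m _ _ G₁ G₂ A B₁ B₂ m1 g₁ g₂ κ L f₀ f₁ φ₀ φ₁
    (fun i => ⟨tc (fm.z3 i), fm.p0 i, fm.p1 i, fm.re i, fm.d0 i, fm.d1 i⟩) fm.deg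
    (by simpa only [EQ, dA] using eq)
  have c0 : ∀ t, Dv m t → co α t ≠ 0 := fun t d z => by simpa [z] using va t d
  have sr := fun i f φ (p : Pc f φ) => ser K J D θ h (L i) (M i) (bc i) m n n' f φ α m1 hs p
    ⟨hc.one, hc.mul⟩ (fun I e => (hc.zero I).2 (.inr fun e' => e (top_le_iff.1
      (e'.ge.trans (sup_le_sup_left mul_le_left _))))) na c0
  have s₀ := fun i => sr i _ _ (fm.p0 i)
  have s₁ := fun i => sr i _ _ (fm.p1 i)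
  have s₂ := fun i => sr i _ _ (Fe.Dep.pc_cj (fm.p1 i))
  have ne := fun {k} (d : Dv m k) => Fe.Gl.dv_ne hs.pos d
  have key := Cv.uniq
    ((((Cv.of_on one_half_pos d₁).mul (Cv.of_on one_half_pos d₂)).pow 2).mul
      (Cv.prod Finset.univ fun i _ => Cv.mul (hz i).1 (Cv.of_diff
        ((((xa_diff α (ne (fm.d1 i))).pow 2).const_mul (cd (f₁ i) : ℂ)).mul (s₀ i).2.1))))
    ((Cv.of_diff (((xa_diff α hs.pos.ne').pow 8).const_mul ((u₁ * u₂) ^ 2 * u))).mul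
      (Cv.prod Finset.univ fun i _ => Cv.mul (Cv.of_diff
        ((((xa_diff α (ne (fm.d0 i))).const_mul ((√(cd (f₀ i)) : ℝ) : ℂ)).mul (s₁ i).2.1).mul
          (s₂ i).2.1)) (Cv.mul (hz i).2.1 (hz i).2.2))) fun s r => by
    have k := fe _ _ (by linarith) (xm s)
    have k' := ek (ls m α s) (by
      obtain ⟨i⟩ : Nonempty κ := by
        by_contra e
        have := fm.deg
        rw [not_nonempty_iff] at e
        simp at this
      exact ((s₀ i).1 s r).1) fun I e => if_neg e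
    simp only [((s₀ _).1 s r).2.2, ((s₁ _).1 s r).2.2, ((s₂ _).1 s r).2.2] at k'
    have n₀ := Finset.prod_ne_zero_iff.2 fun i (_ : i ∈ Finset.univ) => ((s₀ i).1 s r).2.1
    have n₁ := Finset.prod_ne_zero_iff.2 fun i (_ : i ∈ Finset.univ) => ((s₁ i).1 s r).2.1
    have n₂ := Finset.prod_ne_zero_iff.2 fun i (_ : i ∈ Finset.univ) => ((s₂ i).1 s r).2.1
    refine mul_left_cancel₀ (mul_ne_zero n₀ (mul_ne_zero n₁ n₂)) ?_
    simp only [e₁ s r, e₂ s r, Pi.mul_apply, Pi.pow_apply, Finset.prod_mul_distrib,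
      Finset.prod_pow] at k k' ⊢
    linear_combination (u₁ * u₂) ^ 2 * ((eP m B₁ (xa α s) * eP m B₂ (xa α s)) ^ 2 *
      ((∏ i, (cd (f₁ i) : ℂ)) * (∏ i, xa α s (cd (f₁ i))) ^ 2 * ∏ i, nu m (φ₀ i) (xa α s)) *
      (∏ i, de m (φ₁ i) (xa α s)) * (∏ i, de m (cj (φ₁ i)) (xa α s)) * k' +
      (∏ i, de m (φ₁ i) (xa α s)) * (∏ i, de m (cj (φ₁ i)) (xa α s)) *
      (∏ i, ∑' I, cM (M i) (φ₁ i) α I * (absNorm I : ℂ) ^ (-s)) *
      (∏ i, ∑' I, cM (M i) (cj (φ₁ i)) α I * (absNorm I : ℂ) ^ (-s)) * k)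
  have vu : V u = 1 := (pow_eq_one_iff_of_nonneg (V.nonneg _) two_ne_zero).1 (by
    rw [← map_pow, u2, map_one])
  have vx : ∀ t, Dv m t → V (xa α 0 t) * V t = 1 := fun t d => by
    rw [xa, xs, neg_zero, Complex.cpow_zero, mul_one, va t d]
  have k := congrArg V key
  simp only [map_mul, map_pow, map_prod, Pi.mul_apply, Pi.pow_apply, v₁, v₂, vu, (s₀ _).2.2 V,
    (s₁ _).2.2 V, (s₂ _).2.2 V, fm.re, Fe.Dep.cj_cj, v_sqrt, mul_one, one_pow, one_mul,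
    Finset.prod_mul_distrib, Finset.prod_pow] at k
  have a₀ := Finset.prod_congr (s₁ := Finset.univ) rfl fun i _ => vx _ (fm.d0 i)
  have a₁ := Finset.prod_congr (s₁ := Finset.univ) rfl fun i _ => vx _ (fm.d1 i)
  have q₀ := Finset.prod_congr (s₁ := Finset.univ) rfl fun i _ =>
    Real.mul_self_sqrt (V.nonneg (cd (f₀ i)))
  have q₁ := Finset.prod_congr (s₁ := Finset.univ) rfl fun i _ =>
    Real.mul_self_sqrt (V.nonneg (cd (f₁ i)))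
  simp only [Finset.prod_mul_distrib, Finset.prod_const_one] at a₀ a₁ q₀ q₁ ⊢
  exact alg (p₁ β R hR) (p₂ β' R' hR') (vx m ⟨1, by simp⟩) a₀ a₁ q₀ q₁ k

end Vale.Agent.P014Y.Ln
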