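import Vale.Agent.P014Y.Ln.St2
import Vale.Agent.P014Y.Ln.Pv0
import Vale.Agent.P014Y.Fe.Feq
import Vale.Agent.P014Y.Fe.Pfe

/-!
# P014 Y, block LN: the row `SER`
-/

set_option linter.all false

open NumberField Module Ideal
open scoped Classical ComplexConjugate Real

noncomputable section

namespace Vale.Agent.P014Y.Ln

open P004C.Wa P004C.Wa.Co P004C.Wa.Re0 P004C.Wa.Re1
open P004C.Al (Cm)
open Fe (Dv Xm xs eP nu de Li cj cd Eg Pc)
open Fe.Dep (xs_mul norm_xs sieve summ fin ne_bot psi_le)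
open Py

namespace Se

variable {K L M : Type} [Field K] [NumberField K] [Field L] [NumberField L] [Field M]
  [NumberField M] [Algebra K M] [Algebra L M] {J : K →+* ℂ} {D m : ℕ} {θ : 𝓞 K}
  {n n' : Ideal (𝓞 K)} {α : Ideal (𝓞 K) → ℂ} {φ : Ideal (𝓞 L) → ℂ} {s : ℂ}

theorem kl (h : Kd J D θ) (B : Bc D θ L M) : Kl K L M := by
  refine ⟨h.two, B.two, fun x y e => ?_⟩
  obtain ⟨q, hq⟩ := Cj.ex_qf h
  have k := q.eq_re_im y
  by_cases z : q.im y = 0
  · exact ⟨q.re y, by simpa [z] using k⟩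
  · refine absurd ?_ (B.ne ((x - q.re y) / q.im y))
    have z' : (q.im y : M) ≠ 0 := by exact_mod_cast z
    rw [map_div₀, map_sub, e, map_ratCast, map_ratCast, div_eq_iff z', ← hq]
    conv_lhs => rw [k]
    rw [map_add, map_mul, map_ratCast, map_ratCast, ← k]
    ring

theorem le (na : ∀ I, α I = 0 ∨ ‖α I‖ ^ 2 * absNorm I = 1) (I : Ideal (𝓞 K)) : ‖α I‖ ≤ 1 :=
  (na I).elim (fun e => by simp [e]) fun e => by
    have : (1 : ℝ) ≤ absNorm I := Nat.one_le_cast.2 (Nat.pos_of_ne_zero fun z => by simp [z] at e)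
    nlinarith [norm_nonneg (α I), sq_nonneg (‖α I‖ - 1), sq_nonneg ‖α I‖]

theorem mem (S : Sp m n n') {Q : Ideal (𝓞 M)} (l : n.map (algebraMap _ _) ≤ Q) :
    (m : 𝓞 M) ∈ Q := by
  simpa using l (mem_map_of_mem _ (Cj.sp_m S).1)

theorem zero (S : Sp m n n') (z : ∀ I, I ⊔ n' ≠ ⊤ → α I = 0) {Q I : Ideal (𝓞 M)}
    (q : Q.IsMaximal) (mQ : (m : 𝓞 M) ∈ Q) (l : ¬ n.map (algebraMap _ _) ≤ Q) (d : Q ∣ I) :
    cM M φ α I = 0 := by
  have l' : n'.map (algebraMap _ _) ≤ Q := (q.isPrime.mul_le.1 (by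
    rw [← Ideal.map_mul, S.mul, map_p, span_singleton_le_iff_mem]; exact mQ)).resolve_left l
  rw [cM, z _ fun e => (IsMaximal.under (𝓞 K) Q).ne_top (top_le_iff.1
    (e.ge.trans (sup_le ((relNorm_le_comap _ I).trans (comap_mono (le_of_dvd d)))
      (map_le_iff_le_comap.1 l')))), mul_zero]

theorem val (h2 : finrank ℚ K = 2) (S : Sp m n n') (c : Cm α) (z : ∀ I, I ⊔ n' ≠ ⊤ → α I = 0)
    {Q : Ideal (𝓞 M)} (q : Q.IsMaximal) (l : n.map (algebraMap _ _) ≤ Q) (s : ℂ) :
    cM M φ α Q * xs s (absNorm Q) = φ (relNorm (𝓞 L) Q) * xa α s (absNorm (relNorm (𝓞 L) Q)) := by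
  have := cl1 h2 S c z _ (on_rel q l).1 (on_rel q l).2 1
  rw [absNorm_relNorm, mul_one, co_one c, mul_one] at this
  rw [cM, xa, absNorm_relNorm, this, mul_assoc]

end Se

open Se in
/-- **row SER** -/
theorem ser : SER := by
  intro K _ _ J D θ h L M _ _ _ _ _ _ bc m n n' f φ α m1 S p c z na c0
  have B := kl h bc
  have lα := le na
  have lφ := psi_le p.rc
  have α0 : α ⊥ = 0 := (na ⊥).resolve_right (by simp)
  have fL := fin L S.pos
  have ne := fun {k} (d : Dv m k) => Fe.Gl.dv_ne S.pos d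
  refine ⟨fun s hs => ⟨⟨⟨?_, fun I I' => ?_⟩, by simp [ls, α0], s.re, hs, fun I => ?_⟩, ?_, ?_⟩,
    ?_, fun V => ?_⟩
  · simp [ls, xs, c.one, -one_eq_top]
  · simp only [ls, map_mul, Nat.coprime_mul_iff_left, c.mul, xs_mul]
    split_ifs <;> first | ring1 | tauto
  · rw [ls]
    split_ifs
    · rw [norm_mul, norm_xs (by linarith)]
      exact mul_le_of_le_one_left (by positivity) (lα I)
    · rw [norm_zero]; positivity
  · rw [de, finprod_mem_eq_finite_toFinset_prod _ fL]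
    refine Finset.prod_ne_zero_iff.2 fun P hP e => ?_
    obtain ⟨q, mP⟩ := fL.mem_toFinset.1 hP
    obtain ⟨T, t, k⟩ := ex_on h.two S (Fe.Gl.dv_nm mP)
    have a1 := cl1 h.two S c z T t.1 t.2 1
    have a2 := congrArg norm (sub_eq_zero.1 e)
    have a3 := Real.rpow_lt_one_of_one_lt_of_neg (Nat.one_lt_cast.2 (one_lt q))
      (show -s.re < 0 by linarith)
    rw [k, mul_one, co_one c, mul_one] at a1
    rw [norm_one, xa, a1, norm_mul, norm_mul, norm_xs (by linarith)] at a2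
    exact absurd a2 (mul_lt_one_of_nonneg_of_lt_one_right (lφ P) (by positivity)
      (mul_lt_one_of_nonneg_of_lt_one_right (lα T) (by positivity) a3)).ne'
  · have f : {Q : Ideal (𝓞 M) | Q.IsMaximal ∧ n.map (algebraMap _ _) ≤ Q}.Finite :=
      (fin M S.pos).subset fun Q ⟨q, l⟩ => ⟨q, mem S l⟩
    have k := sieve (a := fun I => cM M φ α I * xs s (absNorm I)) (fun I J => by
      simp only [cM, map_mul, xs_mul, p.rc.mul, c.mul]; ring) (summ (fun I => by
        rw [cM, norm_mul]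
        exact mul_le_one₀ (lφ _) (norm_nonneg _) (lα _)) hs) f.toFinset fun P hP =>
        P004C.Al.Eu.prime_iff.2 (f.mem_toFinset.1 hP).1
    rw [de, ← finprod_mem_eq_of_bijOn (f := fun Q => 1 - cM M φ α Q * xs s (absNorm Q)) _
      (B.bij S).1 fun Q ⟨q, l⟩ => by rw [val h.two S c z q l],
      finprod_mem_eq_finite_toFinset_prod _ f, mul_comm]
    refine Eq.trans (tsum_congr fun I => ?_) k.symm
    rw [cM, ls, absNorm_relNorm, mul_ite, mul_zero, ← mul_assoc, ← cM]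
    simp only [Fe.Dep.cop_iff I, Set.Finite.mem_toFinset, Set.mem_ofPred_eq]
    by_cases e : ∀ P : Ideal (𝓞 M), P.IsMaximal ∧ (m : 𝓞 M) ∈ P → ¬ P ∣ I
    · rw [if_pos e, if_pos fun P p => e P ⟨p.1, mem S p.2⟩]
    · rw [if_neg e]
      split_ifs with e'
      · push Not at e
        obtain ⟨P, p, d⟩ := e
        rw [zero S z p.1 p.2 (fun l => e' P ⟨p.1, l⟩ d) d, zero_mul]
      · rfl
  · simp only [nu, finprod_mem_eq_finite_toFinset_prod _ fL]
    refine Differentiable.fun_finsetProd fun P hP => ?_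
    have d := Fe.Gl.dv_nm (fL.mem_toFinset.1 hP).2
    have d0 : (absNorm P : ℂ) ≠ 0 := Nat.cast_ne_zero.2 (ne d)
    exact ((differentiable_const _).div (((differentiable_neg.const_cpow (.inl d0)).const_mul
      _).const_mul _) fun s => mul_ne_zero d0 (mul_ne_zero (c0 _ d) (by simp [xs, ne d]))).const_sub 1
  · rw [nu, finprod_mem_eq_finite_toFinset_prod _ fL, map_prod,
      ← finprod_mem_eq_finite_toFinset_prod _ fL,
      ← finprod_mem_eq_of_bijOn (f := fun Q => V (1 - (absNorm Q * cM M (cj φ) α Q)⁻¹)) _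
        (B.bij S).1 fun Q ⟨q, l⟩ => by
          have := val (φ := cj φ) h.two S c z q l 0
          rw [xs, neg_zero, Complex.cpow_zero, mul_one] at this
          rw [this, cj, Fe.rc_conj p.rc, absNorm_relNorm, mul_left_comm, mul_inv, inv_inv,
            div_eq_mul_inv]]
    refine finprod_mem_inter_mulSupport_eq _ _ _ (Set.ext fun Q => and_congr_left fun e =>
      and_congr_right fun q => ⟨mem S, fun mQ => by_contra fun l => e ?_⟩)
    simp [zero S z q mQ l dvd_rfl]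

end Vale.Agent.P014Y.Ln
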