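import Vale.Agent.P014Y.Ln.St2

/-!
# P014 Y, block LN: integers and split primes of the compositum (row SPL)
-/

set_option autoImplicit false
set_option linter.all false

open NumberField Module
open scoped Classical

noncomputable section

namespace Vale.Agent.P014Y.Ln

open P004C.Wa (co Kd Sp)
open P004C.Al (Cm)

namespace Sl

theorem rat_int {D : ℕ} (hD : Squarefree D) {t : ℚ} (h : IsIntegral ℤ ((D : ℚ) * t ^ 2)) :
    ∃ k : ℤ, (k : ℚ) = t := by
  obtain ⟨z, hz⟩ := IsIntegrallyClosed.isIntegral_iff.1 h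
  have e : (D : ℤ) * t.num ^ 2 = z * (t.den : ℤ) ^ 2 := by
    have : ((D : ℤ) * t.num ^ 2 : ℤ) = ((z * (t.den : ℤ) ^ 2 : ℤ) : ℚ) := by
      push_cast
      rw [← Rat.mul_den_eq_num t, show (z : ℚ) = D * t ^ 2 from hz]
      ring
    exact_mod_cast this
  have d : t.den ^ 2 ∣ D * t.num.natAbs ^ 2 := by
    have := congrArg Int.natAbs e
    simp only [Int.natAbs_mul, Int.natAbs_pow, Int.natAbs_natCast] at this
    exact this ▸ Dvd.intro_left _ rfl
  have d' : t.den * t.den ∣ D := by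
    rw [← sq]
    exact (Nat.Coprime.pow 2 2 t.reduced.symm).dvd_of_dvd_mul_right d
  exact ⟨t.num, (Rat.den_eq_one_iff t).1 (Nat.isUnit_iff.1 (hD _ d'))⟩

variable {L : Type} [Field L] [NumberField L]

theorem tr_int {D : ℕ} (hD : Squarefree D) {c : L} (h : IsIntegral ℤ ((D : L) * c ^ 2)) :
    ∃ k : ℤ, (k : ℚ) = Algebra.trace ℚ L c := by
  obtain ⟨s, hs⟩ := IsAlgClosed.exists_pow_nat_eq (D : ℂ) two_pos
  have a : IsIntegral ℤ (s * algebraMap ℚ ℂ (Algebra.trace ℚ L c)) := by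
    rw [trace_eq_sum_embeddings ℂ, Finset.mul_sum]
    refine IsIntegral.sum _ fun σ _ => IsIntegral.of_pow two_pos ?_
    have := map_isIntegral_int σ.toRingHom h
    rw [mul_pow, hs]
    simpa using this
  refine rat_int hD ((isIntegral_algebraMap_iff (algebraMap ℚ ℂ).injective).1 ?_)
  have := a.pow 2
  rw [mul_pow, hs] at this
  simpa using this

/-- `D b²` integral implies `b` integral -/
theorem int_of {D : ℕ} (hD : Squarefree D) (hc : (discr L).natAbs.Coprime D) {b : L}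
    (h : IsIntegral ℤ ((D : L) * b ^ 2)) : IsIntegral ℤ b := by
  have h1 : IsIntegral ℤ ((D : L) * b) := by
    refine IsIntegral.of_pow two_pos ?_
    have := (isIntegral_algebraMap (R := ℤ) (A := L) (x := (D : ℤ))).mul h
    rw [eq_intCast, Int.cast_natCast] at this
    rw [show ((D : L) * b) ^ 2 = D * (D * b ^ 2) by ring]
    exact this
  have h2 : IsIntegral ℤ ((discr L : L) * b) := by
    have m : ((discr L : 𝓞 L) : L) ∈ IsLocalization.coeSubmodule L (differentIdeal ℤ (𝓞 L)) :=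
      (IsLocalization.mem_coeSubmodule _ _).2 ⟨_, discr_mem_differentIdeal L (𝓞 L), rfl⟩
    rw [coeSubmodule_differentIdeal ℤ ℚ, Submodule.mem_div_iff_forall_mul_mem] at m
    have t : b ∈ Submodule.traceDual ℤ ℚ (1 : Submodule (𝓞 L) L) := by
      rw [Submodule.mem_traceDual]
      intro a ha
      obtain ⟨y, rfl⟩ := Submodule.mem_one.1 ha
      obtain ⟨k, hk⟩ := tr_int hD (c := b * algebraMap (𝓞 L) L y) (by
        rw [show (D : L) * (b * algebraMap (𝓞 L) L y) ^ 2 = D * b ^ 2 * algebraMap (𝓞 L) L y ^ 2 by ring]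
        exact h.mul (y.isIntegral_coe.pow 2))
      exact ⟨k, by simpa [Algebra.traceForm_apply] using hk⟩
    obtain ⟨y, hy⟩ := Submodule.mem_one.1 (m b t)
    have := y.isIntegral_coe
    rw [hy] at this
    simpa using this
  obtain ⟨u, v, e⟩ : IsCoprime (discr L) (D : ℤ) := by
    rw [Int.isCoprime_iff_gcd_eq_one]
    simpa [Int.gcd] using hc
  have e' : (u : L) * discr L + v * D = 1 := by exact_mod_cast congrArg (Int.cast : ℤ → L) e
  have : b = (u : L) * (discr L * b) + v * (D * b) := by linear_combination (-b) * e'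
  rw [this]
  exact ((isIntegral_algebraMap (x := u)).mul h2).add ((isIntegral_algebraMap (x := v)).mul h1)

theorem nm_eq {R S : Type} [CommRing R] [CommRing S] [IsDedekindDomain R] [IsDedekindDomain S]
    [Module.Free ℤ R] [Module.Free ℤ S] (f : R →+* S) (Q : Ideal S) (h : ∀ x, ∃ y, x - f y ∈ Q) :
    Ideal.absNorm (Q.comap f) = Ideal.absNorm Q := by
  rw [Ideal.absNorm_apply, Ideal.absNorm_apply, Submodule.cardQuot_apply, Submodule.cardQuot_apply]
  refine Nat.card_eq_of_bijective (Ideal.quotientMap Q f le_rfl) ⟨Ideal.quotientMap_injective, fun x => ?_⟩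
  obtain ⟨x, rfl⟩ := Ideal.Quotient.mk_surjective x
  obtain ⟨y, hy⟩ := h x
  exact ⟨Ideal.Quotient.mk _ y, by rw [Ideal.quotientMap_mk]; exact (Ideal.Quotient.eq.2 hy).symm⟩

theorem pw {R : Type} [CommRing R] [IsDedekindDomain R] (q : Ideal R) {I : Ideal R} (h0 : I ≠ 0)
    (h : ∀ P : Ideal R, Prime P → P ∣ I → P = q) : ∃ j, I = q ^ j := by
  induction I using UniqueFactorizationMonoid.induction_on_prime with
  | h₁ => exact absurd rfl h0
  | h₂ x hx => exact ⟨0, by simpa using Ideal.isUnit_iff.1 hx⟩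
  | h₃ a p ha hp ih =>
    obtain ⟨j, hj⟩ := ih ha fun P k d => h P k (d.mul_left _)
    exact ⟨j + 1, by rw [h p hp (Dvd.intro _ rfl), hj, pow_succ']⟩

variable {K : Type} [Field K] [NumberField K] {J : K →+* ℂ} {D : ℕ} {θ : 𝓞 K}

theorem ex_eta (h : Kd J D θ) : ∃ η : 𝓞 K, 2 * η = 1 + θ := by
  obtain ⟨c, hc⟩ : ∃ c : ℕ, D + 1 = 4 * c := ⟨(D + 1) / 4, by have := h.md; omega⟩
  have s : (θ : K) ^ 2 = -(D : K) := by simpa using congrArg (algebraMap (𝓞 K) K) h.sq
  have c' : (D : K) + 1 = 4 * c := by exact_mod_cast hc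
  refine ⟨⟨(1 + θ) / 2, Polynomial.X ^ 2 - (Polynomial.X - Polynomial.C (c : ℤ)),
    Polynomial.monic_X_pow_sub (lt_of_le_of_lt (Polynomial.degree_X_sub_C_le _) (by norm_num)), ?_⟩, ?_⟩
  · rw [Polynomial.eval₂_sub, Polynomial.eval₂_sub, Polynomial.eval₂_X_pow, Polynomial.eval₂_X,
      Polynomial.eval₂_C, eq_intCast, Int.cast_natCast]
    linear_combination (1 / 4 : K) * s - (1 / 4 : K) * c'
  · apply RingOfIntegers.ext
    simp only [map_mul, map_add, map_one, map_ofNat, RingOfIntegers.map_mk]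
    show (2 : K) * ((1 + θ) / 2) = 1 + θ
    ring

/-- the only ideal of norm `N q ^ f` prime to `n'` -/
theorem co_eq {m : ℕ} {n n' q : Ideal (𝓞 K)} (S : Sp m n n') (hq : q.IsMaximal) (le : n ≤ q) (f : ℕ)
    (α : Ideal (𝓞 K) → ℂ) (h : ∀ I, I ⊔ n' ≠ ⊤ → α I = 0) :
    α (q ^ f) = co α (Ideal.absNorm (q ^ f)) := by
  have mn : (m : 𝓞 K) ∈ n * n' := S.mul ▸ Ideal.mem_span_singleton_self _
  have n0 : n ≠ ⊥ := fun e => by have := S.nm; rw [e] at this; simp at this; exact S.pos.ne this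
  have q0 : q ≠ ⊥ := fun e => n0 (le_bot_iff.1 (e ▸ le))
  have uq : ∀ P : Ideal (𝓞 K), P.IsMaximal → n ≤ P → ((Ideal.absNorm q : ℕ) : 𝓞 K) ∈ P → P = q := by
    intro P hP l a
    have sq : ∀ x, ∃ y : ℤ, x - algebraMap ℤ (𝓞 K) y ∈ q := fun x => (S.cn x).imp fun k hk => le hk
    have e : q.comap (algebraMap ℤ (𝓞 K)) = Ideal.span {((Ideal.absNorm q : ℕ) : ℤ)} := by
      rw [← nm_eq _ q sq, Int.ideal_span_absNorm_eq_self]
    refine (hq.eq_of_le hP.ne_top fun x hx => ?_).symm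
    obtain ⟨k, hk⟩ := S.cn x
    have : k ∈ q.comap (algebraMap ℤ (𝓞 K)) := by
      rw [Ideal.mem_comap, eq_intCast, ← sub_sub_cancel x (k : 𝓞 K)]
      exact q.sub_mem hx (le hk)
    rw [e, Ideal.mem_span_singleton] at this
    obtain ⟨t, rfl⟩ := this
    rw [← sub_add_cancel x _]
    refine P.add_mem (l hk) ?_
    push_cast
    exact P.mul_mem_right _ a
  have q1 : 1 < Ideal.absNorm q := by
    have a := Ideal.absNorm_eq_zero_iff.not.2 q0
    have b := Ideal.absNorm_eq_one_iff.not.2 hq.ne_top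
    omega
  rw [co, finsum_eq_single _ (q ^ f)]
  · simp
  intro I hI
  by_cases e : Ideal.absNorm I = Ideal.absNorm (q ^ f)
  · by_cases c : I ⊔ n' = ⊤
    · exfalso
      have I0 : I ≠ 0 := fun z => by
        rw [z, map_zero, map_pow] at e
        exact (pow_pos (by omega) f).ne e
      obtain ⟨j, hj⟩ := pw q I0 fun P hP d => by
        have hm : P.IsMaximal := (Ideal.isPrime_of_prime hP).isMaximal hP.ne_zero
        have l := Ideal.dvd_iff_le.1 d
        have a : ((Ideal.absNorm q : ℕ) : 𝓞 K) ∈ P := by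
          have := l I.absNorm_mem
          rw [e, map_pow, Nat.cast_pow] at this
          exact hm.isPrime.mem_of_pow_mem _ this
        refine uq P hm ?_ a
        have mq : Ideal.absNorm q ∣ m := S.nm ▸ Ideal.absNorm_dvd_absNorm_of_le le
        obtain ⟨t, ht⟩ := mq
        have b : n * n' ≤ P := by
          rw [S.mul, Ideal.span_singleton_le_iff_mem, ht, Nat.cast_mul]
          exact P.mul_mem_right _ a
        exact (hm.isPrime.mul_le.1 b).resolve_right fun k => hm.ne_top (top_le_iff.1 (c ▸ sup_le l k))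
      rw [hj, map_pow, map_pow] at e
      exact hI (by rw [hj, Nat.pow_right_injective q1 e])
    · simp [h I c]
  · rw [map_pow] at e
    simp [e]

variable {M : Type} [Field M] [NumberField M] [Algebra K M] [Algebra L M]

theorem rk (h : Kd J D θ) (B : Bc D θ L M) : finrank K M = finrank ℚ L := by
  have a := finrank_mul_finrank ℚ K M
  have b := finrank_mul_finrank ℚ L M
  rw [h.two] at a
  rw [B.two] at b
  omega

/-- the conjugation of `M / L` -/
theorem ex_cj (h : Kd J D θ) (B : Bc D θ L M) :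
    ∃ σ : M ≃ₐ[L] M, σ (algebraMap K M θ) = -algebraMap K M θ := by
  have : Algebra.IsQuadraticExtension L M := ⟨B.two⟩
  have s : (θ : K) ^ 2 = -(D : K) := by simpa using congrArg (algebraMap (𝓞 K) K) h.sq
  have s' : algebraMap K M θ ^ 2 = -(D : M) := by simpa using congrArg (algebraMap K M) s
  have : ¬ ∀ f : M ≃ₐ[L] M, f (algebraMap K M θ) = algebraMap K M θ := fun k => by
    obtain ⟨x, hx⟩ := (IsGalois.mem_range_algebraMap_iff_fixed (F := L) _).2 k
    exact B.ne x hx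
  obtain ⟨σ, hσ⟩ := not_forall.1 this
  refine ⟨σ, (sq_eq_sq_iff_eq_or_eq_neg.1 ?_).resolve_left hσ⟩
  rw [← map_pow, s']
  simp

theorem li (B : Bc D θ L M) {a b : L} (e : algebraMap L M a + algebraMap L M b * algebraMap K M θ = 0) :
    a = 0 ∧ b = 0 := by
  have b0 : b = 0 := by
    by_contra k
    refine B.ne (-a / b) ?_
    rw [map_div₀, div_eq_iff ((map_ne_zero _).2 k), map_neg]
    linear_combination -e
  rw [b0] at e
  exact ⟨by simpa using e, b0⟩

theorem span (B : Bc D θ L M) (x : M) :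
    ∃ a b : L, x = algebraMap L M a + algebraMap L M b * algebraMap K M θ := by
  have l : LinearIndependent L ![(1 : M), algebraMap K M θ] :=
    LinearIndependent.pair_iff.2 fun a b e => li B (by simpa [Algebra.smul_def] using e)
  let b := basisOfLinearIndependentOfCardEqFinrank l (by simp [B.two])
  refine ⟨b.repr x 0, b.repr x 1, ?_⟩
  conv_lhs => rw [← b.sum_repr x]
  simp [b, Algebra.smul_def]

theorem co1 (x : 𝓞 L) : ((algebraMap (𝓞 L) (𝓞 M) x : 𝓞 M) : M) = algebraMap L M x := rfl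

/-- **the integers of the compositum** -/
theorem ints (h : Kd J D θ) (B : Bc D θ L M) {η : 𝓞 K} (e : 2 * η = 1 + θ) (x : 𝓞 M) :
    ∃! u : 𝓞 L × 𝓞 L, x = algebraMap (𝓞 L) (𝓞 M) u.1 +
      algebraMap (𝓞 L) (𝓞 M) u.2 * algebraMap (𝓞 K) (𝓞 M) η := by
  have e1 : 2 * (η : K) = 1 + θ := by simpa [map_ofNat] using congrArg (algebraMap (𝓞 K) K) e
  have e2 : 2 * algebraMap K M η = 1 + algebraMap K M θ := by
    simpa [map_ofNat] using congrArg (algebraMap K M) e1
  have s : (θ : K) ^ 2 = -(D : K) := by simpa using congrArg (algebraMap (𝓞 K) K) h.sq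
  have s' : algebraMap K M θ ^ 2 = -(D : M) := by simpa using congrArg (algebraMap K M) s
  refine existsUnique_of_exists_of_unique ?_ fun u v hu hv => ?_
  · obtain ⟨a, b, hx⟩ := span B (x : M)
    obtain ⟨σ, hσ⟩ := ex_cj h B
    have i1 : IsIntegral ℤ ((x : M) - σ x) :=
      x.isIntegral_coe.sub (map_isIntegral_int σ.toRingEquiv.toRingHom x.isIntegral_coe)
    have i2 : IsIntegral ℤ (2 * b) := by
      refine int_of h.sqf B.cop ((isIntegral_algebraMap_iff (algebraMap L M).injective).1 ?_)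
      have : algebraMap L M (D * (2 * b) ^ 2) = -((x : M) - σ x) ^ 2 := by
        rw [hx]
        simp only [map_add, map_mul, AlgEquiv.commutes, hσ, map_pow, map_natCast, map_ofNat]
        linear_combination (4 * algebraMap L M b ^ 2) * s'
      rw [this]
      exact (i1.pow 2).neg
    have hx' : (x : M) = algebraMap L M (a - b) + algebraMap L M (2 * b) * algebraMap K M η := by
      rw [hx, map_sub, map_mul, map_ofNat]
      linear_combination (-algebraMap L M b) * e2
    have i3 : IsIntegral ℤ (a - b) := by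
      refine (isIntegral_algebraMap_iff (algebraMap L M).injective).1 ?_
      rw [eq_sub_of_add_eq hx'.symm]
      exact x.isIntegral_coe.sub ((map_isIntegral_int _ i2).mul (map_isIntegral_int _ η.isIntegral_coe))
    exact ⟨(⟨_, i3⟩, ⟨_, i2⟩), RingOfIntegers.ext hx'⟩
  · have k : algebraMap L M u.1 + algebraMap L M u.2 * algebraMap K M η =
        algebraMap L M v.1 + algebraMap L M v.2 * algebraMap K M η :=
      congrArg (algebraMap (𝓞 M) M) (hu.symm.trans hv)
    obtain ⟨a, b⟩ := li B (a := 2 * ((u.1 : L) - v.1) + (u.2 - v.2)) (b := (u.2 : L) - v.2) (by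
      simp only [map_add, map_mul, map_sub, map_ofNat]
      linear_combination 2 * k - (algebraMap L M u.2 - algebraMap L M v.2) * e2)
    refine Prod.ext (RingOfIntegers.ext ?_) (RingOfIntegers.ext (sub_eq_zero.1 b))
    linear_combination (1 / 2 : L) * a - (1 / 2 : L) * b

variable {m : ℕ} {n n' : Ideal (𝓞 K)}

theorem sur (h : Kd J D θ) (B : Bc D θ L M) (S : Sp m n n') (x : 𝓞 M) :
    ∃ y : 𝓞 L, x - algebraMap (𝓞 L) (𝓞 M) y ∈ n.map (algebraMap (𝓞 K) (𝓞 M)) := by
  obtain ⟨η, e⟩ := ex_eta h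
  obtain ⟨u, hu, -⟩ := ints h B e x
  obtain ⟨k, hk⟩ := S.cn η
  refine ⟨u.1 + u.2 * k, ?_⟩
  have := Ideal.mul_mem_left _ (algebraMap (𝓞 L) (𝓞 M) u.2)
    (Ideal.mem_map_of_mem (algebraMap (𝓞 K) (𝓞 M)) hk)
  rw [hu]
  simp only [map_sub, map_add, map_mul, map_intCast] at this ⊢
  rw [add_sub_add_left_eq_sub, ← mul_sub]
  exact this

theorem m_mem (S : Sp m n n') : (m : 𝓞 M) ∈ n.map (algebraMap (𝓞 K) (𝓞 M)) := by
  have a : (m : 𝓞 K) ∈ n * n' := by rw [S.mul]; exact Ideal.mem_span_singleton_self _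
  have b : (m : 𝓞 K) ∈ n := (Ideal.mul_le_left : n * n' ≤ n) a
  have c := Ideal.mem_map_of_mem (algebraMap (𝓞 K) (𝓞 M)) b
  rwa [map_natCast] at c

theorem ker (h : Kd J D θ) (B : Bc D θ L M) (S : Sp m n n') :
    (n.map (algebraMap (𝓞 K) (𝓞 M))).comap (algebraMap (𝓞 L) (𝓞 M)) = Ideal.span {(m : 𝓞 L)} := by
  have a := nm_eq _ _ (sur h B S)
  have r : finrank (𝓞 K) (𝓞 M) = finrank ℚ L := by
    rw [← rk h B]
    exact (IsFractionRing.finrank_eq (𝓞 K) K (𝓞 M) M).symm
  rw [Ideal.absNorm_algebraMap, S.nm, r, ← RingOfIntegers.rank, ← Ideal.absNorm_span_natCast] at a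
  have le : Ideal.span {(m : 𝓞 L)} ≤ (n.map (algebraMap (𝓞 K) (𝓞 M))).comap (algebraMap (𝓞 L) (𝓞 M)) := by
    rw [Ideal.span_singleton_le_iff_mem, Ideal.mem_comap, map_natCast]
    exact m_mem S
  obtain ⟨C, hC⟩ := Ideal.dvd_iff_le.2 le
  have k := congrArg Ideal.absNorm hC
  rw [map_mul, a] at k
  have z : Ideal.absNorm (Ideal.span {(m : 𝓞 L)}) ≠ 0 := by
    rw [Ideal.absNorm_span_natCast]
    exact (pow_pos S.pos _).ne'
  rw [Ideal.absNorm_eq_one_iff.1 ((mul_eq_left₀ z).1 k.symm), Ideal.mul_top] at hC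
  exact hC.symm

theorem rel (h : Kd J D θ) (B : Bc D θ L M) (S : Sp m n n') {Q : Ideal (𝓞 M)} (hQ : Q.IsMaximal)
    (le : n.map (algebraMap (𝓞 K) (𝓞 M)) ≤ Q) : Ideal.relNorm (𝓞 L) Q = Q.under (𝓞 L) := by
  have a : Ideal.absNorm (Q.under (𝓞 L)) = Ideal.absNorm Q :=
    nm_eq _ _ fun x => (sur h B S x).imp fun y hy => le hy
  have hP : (Q.under (𝓞 L)).IsMaximal := Ideal.IsMaximal.under _ Q
  have b := Ideal.relNorm_eq_pow_of_isMaximal Q (Q.under (𝓞 L))
  have c := Ideal.absNorm_relNorm (𝓞 L) _ Q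
  have q1 : 1 < Ideal.absNorm Q := by
    have a := Ideal.absNorm_eq_zero_iff.not.2 (Ring.ne_bot_of_isMaximal_of_not_isField hQ
      (RingOfIntegers.not_isField M))
    have b := Ideal.absNorm_eq_one_iff.not.2 hQ.ne_top
    omega
  rw [b, map_pow, a] at c
  rw [b, Nat.pow_right_injective q1 (c.trans (pow_one _).symm), pow_one]

end Sl

open Sl in
/-- **row SPL** -/
theorem spl : SPL := by
  intro K _ _ J D θ h L M _ _ _ _ _ _ B
  refine ⟨rk h B, fun η e => ints h B e, fun m n n' S => ⟨sur h B S, fun y => by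
    rw [← ker h B S, Ideal.mem_comap], ⟨fun Q hQ => ?_, fun Q hQ Q' hQ' e => ?_, fun P hP => ?_⟩,
    fun Q hQ le => ⟨rel h B S hQ le, fun α _ hα => ?_⟩⟩⟩
  · have := hQ.1
    rw [Set.mem_setOf_eq, rel h B S hQ.1 hQ.2]
    exact ⟨Ideal.IsMaximal.under _ Q, by
      rw [Ideal.under, Ideal.mem_comap, map_natCast]; exact hQ.2 (m_mem S)⟩
  · rw [rel h B S hQ.1 hQ.2, rel h B S hQ'.1 hQ'.2] at e
    refine hQ.1.eq_of_le hQ'.1.ne_top fun x hx => ?_
    obtain ⟨y, hy⟩ := sur h B S x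
    have : y ∈ Q.under (𝓞 L) := by
      rw [Ideal.under, Ideal.mem_comap, ← sub_sub_cancel x (algebraMap _ _ y)]
      exact Q.sub_mem hx (hQ.2 hy)
    rw [e] at this
    rw [← sub_add_cancel x (algebraMap _ _ y)]
    exact Q'.add_mem (hQ'.2 hy) this
  · let f := (Ideal.Quotient.mk (n.map (algebraMap (𝓞 K) (𝓞 M)))).comp (algebraMap (𝓞 L) (𝓞 M))
    have sf : Function.Surjective f := fun x => by
      obtain ⟨x, rfl⟩ := Ideal.Quotient.mk_surjective x
      obtain ⟨y, hy⟩ := sur h B S x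
      exact ⟨y, (Ideal.Quotient.eq.2 hy).symm⟩
    have kf : (⊥ : Ideal _).comap f ≤ P := by
      rw [← Ideal.comap_comap, ← RingHom.ker_eq_comap_bot, Ideal.mk_ker, ker h B S,
        Ideal.span_singleton_le_iff_mem]
      exact hP.2
    have cm : (P.map f).comap f = P := by rw [Ideal.comap_map_of_surjective f sf, sup_eq_left.2 kf]
    have mx : (P.map f).IsMaximal :=
      (Ideal.map_eq_top_or_isMaximal_of_surjective f sf hP.1).resolve_left fun e =>
        hP.1.ne_top (by rw [← cm, e, Ideal.comap_top])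
    have mQ := Ideal.comap_isMaximal_of_surjective (Ideal.Quotient.mk (n.map (algebraMap (𝓞 K) (𝓞 M))))
      Ideal.Quotient.mk_surjective (K := P.map f)
    have lQ : n.map (algebraMap (𝓞 K) (𝓞 M)) ≤ (P.map f).comap (Ideal.Quotient.mk _) := fun x hx => by
      rw [Ideal.mem_comap, Ideal.Quotient.eq_zero_iff_mem.2 hx]
      exact zero_mem _
    exact ⟨_, ⟨mQ, lQ⟩, by rw [rel h B S mQ lQ, Ideal.under, Ideal.comap_comap]; exact cm⟩
  · have hq : (Q.under (𝓞 K)).IsMaximal := Ideal.IsMaximal.under _ Q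
    rw [← Ideal.absNorm_relNorm (𝓞 K) _ Q, Ideal.relNorm_eq_pow_of_isMaximal Q (Q.under (𝓞 K))]
    exact co_eq S hq (Ideal.map_le_iff_le_comap.1 le) _ α hα

end Vale.Agent.P014Y.Ln
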