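import Vale.Agent.P014Y.Ln.St2
import Vale.Agent.P004C.Ln.Twi

/-! # P014Y, block LN: twisting of periods -/

set_option autoImplicit false
set_option linter.all false

open NumberField Module UpperHalfPlane CongruenceSubgroup
open scoped Classical MatrixGroups Real ComplexConjugate

noncomputable section

namespace Vale.Agent.P014Y.Ln

open Vale.Agent.P004C Vale.Agent.P004C.Wa Vale.Agent.P004C.Wa.Pe Vale.Agent.P004C.Wa.Cj
open Vale.Agent.P004C.Ln.Tw
open P004K (st Oc Cop)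

theorem twi : TWI := by
  intro K _ _ J D θ kd m c n n' w w' ε ε' χ A g G ξ b a ν ν' R sm sc _ hc _ hε hg qg hξ hχ pχ hx
    hε' hG qG hb _ ha n1 n2 n3 n4 hR
  obtain ⟨s, cg⟩ := ex_cg kd
  obtain ⟨φ, hφ⟩ := ex_phi sc
  have : NeZero c := ⟨sc.pos.ne'⟩
  obtain ⟨φ', hs⟩ : ∃ φ' : 𝓞 K →+* ZMod c, ∀ x, φ' (s x) = φ x :=
    ⟨φ.comp s, fun x => by simp [cg.ss]⟩
  have hφ' : ∀ x, φ' x = 0 ↔ x ∈ w' := fun x => by
    rw [← (cg.sp_mem sc).1, ← hφ, ← hs, cg.ss]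
  rw [mul_pow] at n3 n4
  have l2 : ∀ {I : Ideal (𝓞 K)} {x}, x ∈ I ^ 2 → x ∈ I := fun q => Ideal.pow_le_self two_ne_zero q
  have h : Cx c w w' φ φ' (1 - ν') := ⟨sc, hφ, hφ', (hφ _).2 (by
    simpa using neg_mem (l2 (Ideal.mul_le_right n4))), by
      simp [(hφ' ν').2 (l2 (Ideal.mul_le_right n3))], sq_dvd sc (Ideal.mul_mem_left _ _ (by
        simpa using neg_mem (Ideal.mul_le_right n4))) (Ideal.mul_mem_right _ _ (by
          simpa using Ideal.mul_le_right n3))⟩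
  have cm : c.Coprime m := (hc.of_dvd_right ⟨2 * D, by ring⟩)
  have ut : IsUnit (φ' θ) := by
    have q : φ' θ * -φ' θ = D := by simpa [sq] using congrArg (fun x => -φ' x) kd.sq
    exact isUnit_of_mul_isUnit_left (q ▸ (ZMod.isUnit_iff_coprime D c).2
      (hc.of_dvd_right ⟨2 * m, by ring⟩).symm)
  have cu : ∀ {V : AbsoluteValue ℂ ℝ} {r : ZMod c}, IsUnit r → conj (cz c χ r) * cz c χ r = 1 ∧
      V (cz c χ r) = 1 ∧ V (conj (cz c χ r)) = 1 := fun u =>
    v_ch sc.pos hχ.one hχ.mul hχ.per hχ.zero ((cz_ne hχ.per hχ.zero _).2 u)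
  have c1 : cz c χ 1 = 1 := by rw [← Int.cast_one, cz_int hχ.per, hχ.one]
  have xv : ∀ x : 𝓞 K, x ≠ 0 → ξ (Ideal.span {x}) = cz c χ (φ x) * conj (cz c χ (φ' x)) :=
    fun x x0 => hx x _ _ x0 ((hφ _).1 (by simp)) ((hφ' _).1 (by simp))
  have x0 : ∀ {I}, Cop c I → ξ I ≠ 0 := fun q z => ((hξ.rc.zero _).1 z).elim q.1 fun z => z q.2
  obtain ⟨t, t0, vt, ht⟩ := gauss hχ.one hχ.mul hχ.per hχ.zero pχ
  obtain ⟨E, p₁, f₁, hE, R₁⟩ := h.sur (H := ⊤) ⟨top_ne_bot, top_sup_eq _⟩ isUnit_one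
  rw [Ideal.mul_top] at R₁
  have xr : ∀ {r I p f}, Cop c I → Rz w' φ φ' (1 - ν') r I p f → ξ I = cz c χ r * ξ E :=
    fun {r _ _ _} hI q => by
      obtain ⟨y, u, a1, a2, a3, a4⟩ := h.cmp hI hE q R₁
      have := congrArg ξ a3
      rw [hξ.rc.mul, hξ.rc.mul, xv _ (mt Ideal.span_singleton_eq_bot.2 a1.1),
        xv _ (mt Ideal.span_singleton_eq_bot.2 a2.1), ← one_mul (φ u), ← a4, cz_mul hχ.mul hχ.per,
        mul_assoc (cz c χ r), mul_comm (cz c χ (φ' u)),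
        (cu (V := AbsoluteValue.trivial) (h.unit a2).2).1] at this
      simpa [c1] using this
  refine ⟨c * b w' * cz c χ (φ' θ) / (t * ξ E), fun V hV vc => ?_, fun β _ B hB => ?_⟩
  · obtain ⟨k, x, k0, x1, q⟩ := pow_prin hE.1
    have q' : Cop c (Ideal.span {x}) :=
      q ▸ ⟨pow_ne_zero k hE.1, Ideal.pow_sup_eq_top hE.2⟩
    have : V (ξ E) = 1 := (pow_eq_one_iff_of_nonneg (V.nonneg _) k0).1 (by
      rw [← map_pow, ← pw hξ.rc.one hξ.rc.mul, q, xv x x1, map_mul, (cu (h.unit q').1).2.1,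
        (cu (h.unit q').2).2.2, one_mul])
    rw [map_div₀, map_mul, map_mul, map_mul, vc, vt V hV vc, this, (cu ut).2.1,
      v_b cg hV sm hε hb vc cm (sp_ne sc).2 (M_mem sc).2]
    norm_num
  have Nm : ∀ C, (Ideal.absNorm (R C)).Coprime m := fun C => (hR.cop C).coprime_mul_right_right
  have Nc : ∀ C, (Ideal.absNorm (R C)).Coprime c := fun C => (hR.cop C).coprime_mul_left_right
  have uN : ∀ C, IsUnit (Ideal.absNorm (R C) : ZMod c) := fun C =>
    (ZMod.isUnit_iff_coprime _ c).2 (Nc C)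
  have N0 : ∀ C, (Ideal.absNorm (R C) : 𝓞 K) ≠ 0 := fun C => Nat.cast_ne_zero.2 (nm_ne (hR.ne C))
  have hH : ∀ C, Cop c ((R C).map s) := fun C => h.cop (fun z => N0 C
    (Ideal.span_singleton_eq_bot.1 (by rw [← cg.nm, z, Ideal.mul_bot])))
    (Ideal.mul_le_right ((cg.nm _).ge (Ideal.mem_span_singleton_self _))) (by simpa using uN C)
    (by simpa using uN C)
  have cB : ∀ i, Cop c (B i) := fun i => ⟨(hB.cop i).1, top_le_iff.1 ((hB.cop i).2.ge.trans
    (sup_le_sup_left (Ideal.span_singleton_le_span_singleton.2 (by simp)) _))⟩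
  have nB : ∀ i, B i ⊔ n = ⊤ := fun i => top_le_iff.1 ((hB.cop i).2.ge.trans
    (sup_le_sup_left ((Ideal.span_singleton_le_iff_mem _).2 (by
      push_cast; exact n.mul_mem_left _ (M_mem sm).1)) _))
  have mc : 0 < (m * c) ^ 2 := pow_pos (mul_pos sm.pos sc.pos) 2
  choose ω τ bs hω using fun C => adapt kd (hR.ne C) ν' mc fun p hp q => by
    rcases (Nat.Prime.dvd_mul hp).1 (hp.dvd_of_dvd_pow q) with q | q
    · exact not_dvd sm (Nm C) (l2 (Ideal.mul_le_left n4)) hp q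
    · exact not_dvd sc (Nc C) (l2 (Ideal.mul_le_right n4)) hp q
  choose p₀ q₀ ba using fun C => cg.ex_ba kd (hR.ne C) (bs C)
  have hp : ∀ C, ∃ y, p₀ C = Ideal.absNorm (R C) * ν' + (m * c) ^ 2 * y := fun C => by
    obtain ⟨y, q⟩ := hω C _ (Ideal.absNorm_mem _)
    refine ⟨y, jinj J ?_⟩
    rw [(ba C).hp, ← Nat.cast_mul, ← Nat.cast_pow, ← q]
    simp
  let Rel : ClassGroup (𝓞 K) × ZMod c → Ideal (𝓞 K) → Prop := fun x I => ∃ r p f,
    x.2 * (Ideal.absNorm (R x.1) : ZMod c) = r * φ' θ ∧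
      Rz w' φ φ' (1 - ν') r (I * (R x.1).map s) p f
  have uq : ∀ x y I, Cop c I → Rel x I → Rel y I → x = y := by
    rintro ⟨C, x⟩ ⟨C', y⟩ I hI ⟨r, p, f, a1, a2⟩ ⟨r', p', f', a3, a4⟩
    have : ∀ {C r p f}, Rz w' φ φ' (1 - ν') r (I * (R C).map s) p f → C = cl (I * w') :=
      fun {C _ _ _} q => (hR.eq C).symm.trans (cl_of (hR.ne C) (mul_ne_zero hI.1 (sp_ne sc).2)
        (h.units (cop_mul hI (hH C)) q).1 (N0 C) (by rw [q.gen, ← cg.nm]; ring))
    obtain rfl : C = C' := (this a2).trans (this a4).symm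
    obtain rfl := h.uniq kd.upm (cop_mul hI (hH C)) a2 a4
    exact Prod.ext rfl ((uN C).mul_right_cancel (a1.trans a3.symm))
  choose e he using fun i : β => show ∃ x, Rel x (B i) by
    have a0 : B i * w' ≠ ⊥ := mul_ne_zero (cB i).1 (sp_ne sc).2
    obtain ⟨x, y, -, y0, q⟩ := cl_eq (hR.ne (cl (B i * w'))) a0 (hR.eq _)
    generalize cl (B i * w') = C at q
    obtain ⟨p, a1, -⟩ := quo (I := B i * (R C).map s * w') (y := x * Ideal.absNorm (R C)) y0 (by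
      rw [← Ideal.span_singleton_mul_span_singleton, ← cg.nm, ← mul_assoc _ (R C), q]; ring)
    obtain ⟨r, f, a2⟩ := h.ex (cop_mul (cB i) (hH C)) a1
    obtain ⟨u, a3⟩ := (uN C).exists_left_inv
    exact ⟨(C, r * φ' θ * u), r, p, f, by rw [mul_assoc, a3, mul_one], a2⟩
  let T : ClassGroup (𝓞 K) × ZMod c → ℂ := fun x => a (R x.1) / ε' (Ideal.absNorm (R x.1)) *
    (cz c χ x.2 * g (sf c x.2 (τ x.1))) / (t * J (ω x.1))
  have e1 : per J ((m * c) ^ 2) ε' G a ν' R = ∑ x, T x := by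
    rw [per, Fintype.sum_prod_type]
    refine Finset.sum_congr rfl fun C _ => ?_
    rw [lf_eq (ε := ε') (d := 1) mc (fun γ q τ => by rw [pow_one, hG.law γ q]) (bs C)
      isCoprime_one_left (fun x y q => by
        rw [hε', hε', hε.per x y (dvd_trans ⟨m * c ^ 2, by push_cast; ring⟩ q),
          hχ.per x y (dvd_trans ⟨m ^ 2 * c, by push_cast; ring⟩ q)]) fun x q => by
        obtain ⟨y, q⟩ := hω C x q
        have := congrArg J q
        have m0 : (((m * c) ^ 2 : ℕ) : ℂ) ≠ 0 := Nat.cast_ne_zero.2 mc.ne'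
        simp only [map_mul, map_add, map_natCast, RingOfIntegers.coe_eq_algebraMap] at this ⊢
        refine ⟨y, ?_⟩
        field_simp
        push_cast at this ⊢
        linear_combination this]
    simp only [T]
    rw [← Finset.sum_div, ← Finset.mul_sum, ← twist qg qG ht, hε' 1, hε.one, hχ.one]
    have := (bs C).1
    simp only [map_one, one_pow, pow_one]
    field_simp
  rw [e1, P004C.Ln.pc, Finset.mul_sum]
  refine (Finset.sum_of_injOn e (fun i _ j _ q => ?_) (fun _ _ => Finset.mem_coe.2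
    (Finset.mem_univ _)) (fun x _ q => ?_) fun i _ => ?_).symm
  · obtain ⟨r, p, f, a1, a2⟩ := he i
    obtain ⟨r', p', f', a3, a4⟩ := he j
    rw [← q] at a3 a4
    obtain rfl := ut.mul_right_cancel (a1.symm.trans a3)
    obtain ⟨y, u, b1, b2, b3, b4⟩ := h.cmp (cop_mul (cB i) (hH _)) (cop_mul (cB j) (hH _)) a2 a4
    obtain ⟨k, z, rfl⟩ := h.oc
      ((h.units (cop_mul (cB i) (hH _)) a2).2.2.2.mul_left_cancel b4).symm
    rw [← mul_assoc, ← mul_assoc] at b3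
    refine (hB.ex _ (cB i)).unique ⟨1, 1, y, y, ?_, ?_, rfl⟩ ⟨1, k, y, z, ?_, b2, ?_⟩
    iterate 3 simpa using b1
    simpa using mul_right_cancel₀ (hH _).1 b3
  · by_contra z
    have u : IsUnit x.2 := (cz_ne hχ.per hχ.zero _).1 fun z' => z (by simp [T, z'])
    obtain ⟨v, a1⟩ := ut.exists_left_inv
    obtain ⟨I, p, f, hI, a2⟩ := h.sur (hH x.1)
      ((u.mul (uN x.1)).mul (IsUnit.of_mul_eq_one _ a1))
    obtain ⟨i, ⟨k, k', y, y', -, a3, a4⟩, -⟩ := hB.ex I hI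
    obtain ⟨p', f', a5⟩ := h.trans a3 a4 a2
    exact q ⟨i, Finset.mem_coe.2 (Finset.mem_univ _), uq _ _ _ (cB i) (he i)
      ⟨_, p', f', by rw [mul_assoc _ v, a1, mul_one], a5⟩⟩
  · obtain ⟨r, p, f, a1, a2⟩ := he i
    generalize e i = x at a1 a2
    obtain ⟨C, x⟩ := x
    obtain ⟨y, hy⟩ := hp C
    have m2 := (M_mem sm).imp (Ideal.pow_mem_pow · 2) (Ideal.pow_mem_pow · 2)
    have a3 := lev cg h sm hε hg hb n1 n2 cm (Nm C) (hH C) (cB i) (nB i) a2 (p₀ := p₀ C) (by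
      rw [Ideal.mul_eq_inf_of_coprime (top_le_iff.1 ((hH C).2.ge.trans (sup_le_sup_left
        ((Ideal.span_singleton_le_iff_mem _).2 (M_mem sc).2) _)))]
      exact ⟨((ba C).mem _).2 ⟨0, 1, by simp⟩, (hφ' _).1 (by
        simp [hy, (hφ' ν').2 (l2 (Ideal.mul_le_right n3))])⟩) (by
      rw [show p₀ C - Ideal.absNorm (R C) = Ideal.absNorm (R C) * (ν' - 1) + c ^ 2 * y * m ^ 2 by
        rw [hy]; ring]
      exact add_mem (Ideal.mul_mem_left _ _ (Ideal.mul_le_left n4)) (Ideal.mul_mem_left _ _ m2.1))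
      (by
        rw [hy, mul_pow, mul_assoc]
        exact add_mem (Ideal.mul_mem_left _ _ (Ideal.mul_le_left n3))
          (Ideal.mul_mem_right _ _ m2.2))
      (bs_st h hs ut (uN C) (hH C) (ba C) (y₀ := y * (m : 𝓞 K) ^ 2) (by rw [hy]; ring) a1 (cB i) a2)
    have a4 := xr (cop_mul (cB i) (hH C)) a2
    have a5 := hξ.rat (Ideal.absNorm (R C)) (Int.natCast_ne_zero.2 (nm_ne (hR.ne C))) (Nc C).cast
    have a6 := congrArg (cz c χ) a1
    have a7 := (cu (V := AbsoluteValue.trivial) (uN C)).1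
    have a8 : ε (Ideal.absNorm (R C)) ≠ 0 := mt (hε.zero _).1 (not_not.2 (Nm C).cast)
    rw [Int.cast_natCast, ← cg.nm, hξ.rc.mul] at a5
    rw [cz_mul hχ.mul hχ.per, cz_mul hχ.mul hχ.per] at a6
    rw [hξ.rc.mul] at a4
    rw [← Int.cast_natCast, cz_int hχ.per] at a6 a7
    rw [(ba C).hp] at a3
    simp only [T] at *
    rw [ha _ (hR.cop C), hε']
    have b1 := (bs C).1
    have b2 := x0 hE
    have b3 := left_ne_zero_of_mul_eq_one a7
    have b4 : (Ideal.absNorm (R C) : ℂ) ≠ 0 := Nat.cast_ne_zero.2 (nm_ne (hR.ne C))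
    have k1 := mul_left_cancel₀ b4 ((mul_assoc _ _ _).symm.trans (a3.trans (by
      rw [mul_left_comm, mul_assoc, mul_assoc, mul_assoc])))
    rw [div_mul_eq_mul_div, div_mul_eq_mul_div, div_div, div_eq_div_iff (mul_ne_zero t0 b2)
      (mul_ne_zero (mul_ne_zero a8 (pow_ne_zero 2 b3)) (mul_ne_zero t0 b1))]
    generalize conj (χ (Ideal.absNorm (R C))) = u at *
    linear_combination ε (Ideal.absNorm (R C)) * u * t * (b (R C) * g (sf c x (τ C)) *
      (u * (cz c χ (φ' θ) * (ξ (R C) * a4 - ξ (B i) * a5) - ξ (R C) * ξ E * a6) +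
        ξ (R C) * cz c χ x * ξ E * a7) - cz c χ (φ' θ) * ξ (B i) * u * k1)

end Vale.Agent.P014Y.Ln
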