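import Vale.Agent.P014Y.Ln.St2
import Vale.Agent.P014Y.Ln.Frb
import Vale.Agent.P004C.Ln.Twi0
import Vale.Agent.P004C.Wa.Fri

/-! # P014Y, block LN: twisting by a primitive character and the Fricke involution -/

set_option autoImplicit false
set_option linter.all false

open UpperHalfPlane CongruenceSubgroup P004N.H461
open scoped Classical MatrixGroups Real ComplexConjugate Manifold ModularForm

noncomputable section

namespace Vale.Agent.P014Y.Ln

open P004C.Wa P004C.Wa.Fi P004C.Ln.Tw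
open P004C.Ln (Cr Cp)
open P014Y.Fe (Eg)

namespace We

variable {N c k : ℕ} {ε χ : ℤ → ℂ} {F G : ℍ → ℂ} {A : ℕ → ℂ} {x : ℂ}

/-- the Hecke operators on coefficients -/
theorem hk_co (q : QE F A) : Hk ε F k x ↔ ∀ n, ∑ p ∈ k.divisorsAntidiagonal,
    ε p.1 * (if p.1 ∣ n then A (p.2 * (n / p.1)) else 0) = x * A n := by
  have h1 := fun τ => hasSum_sum fun p (hp : p ∈ k.divisorsAntidiagonal) =>
    (Th.term q (Nat.left_ne_zero_of_mem_divisorsAntidiagonal hp)
      (Nat.right_ne_zero_of_mem_divisorsAntidiagonal hp) τ).mul_left (ε p.1)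
  simp only [← mul_assoc, ← Finset.sum_mul] at h1
  have h2 : QE (fun τ => x * F τ) fun n => x * A n := fun τ =>
    ((q τ).mul_left x).congr_fun fun k => mul_assoc _ _ _
  refine ⟨fun h => congrFun (Fb.uniq (fun τ => ?_) h2), fun h τ => (h1 τ).unique ?_⟩
  · simpa only [h τ] using h1 τ
  · simpa only [h] using h2 τ

/-- translation by `a / c` -/
def tr (c : ℕ) (a : ℤ) : M2 := !![(c : ℤ), a; 0, c]

theorem tr_det (hc : 0 < c) (a : ℤ) : 0 < (tr c a).det := by
  simpa [tr] using hc.ne'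

theorem tr_sf (hc : 0 < c) (a : ZMod c) (τ : ℍ) : s1 F (tr c a.cast) τ = F (sf c a τ) / c := by
  have : (c : ℂ) ≠ 0 := by exact_mod_cast hc.ne'
  rw [s1_gl (tr_det hc _), gl_smul, ← ofComplex_apply (sf c a τ), sf_coe]
  simp only [tr, Matrix.of_apply, Matrix.cons_val', Matrix.cons_val_zero, Matrix.cons_val_one,
    Matrix.cons_val_fin_one, Int.cast_natCast, Int.cast_zero, zero_mul, zero_add]
  congr 3
  field_simp
  ring

theorem tr_per (hc : 0 < c) (e : ε 1 = 1) (h : MW N ε F) {a b : ℤ} (d : (a : ZMod c) = b) :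
    s1 F (tr c a) = s1 F (tr c b) := by
  obtain ⟨j, hj⟩ := (ZMod.intCast_eq_intCast_iff_dvd_sub _ _ _).1 d
  have g : G0 N !![1, j; 0, 1] := ⟨by simp, by simp⟩
  have : tr c b = !![1, j; 0, 1] * tr c a := by
    ext i j
    fin_cases i <;> fin_cases j <;> simp [tr, Matrix.mul_apply] <;> linarith
  rw [this, s1_mul g.det (tr_det hc a), inv h g]
  simp [e]

/-- the twisted form, up to a constant -/
def tf (c : ℕ) [NeZero c] (χ : ℤ → ℂ) (F : ℍ → ℂ) : ℍ → ℂ :=
  ∑ a : ZMod c, cz c χ a • s1 F (tr c a.cast)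

theorem tf_qe [NeZero c] {t : ℂ} (q : QE F A)
    (h : ∀ i : ℤ, ∑ a : ZMod c, cz c χ a * ZMod.stdAddChar (a * (i : ZMod c)) = conj (χ i) * t) :
    QE (tf c χ F) fun i => t / c * (A i * conj (χ i)) := fun τ => by
  have := hasSum_sum (s := Finset.univ) fun (a : ZMod c) _ =>
    ((q (sf c a τ)).div_const c).mul_left (cz c χ a)
  simp only [tf, Finset.sum_apply, Pi.smul_apply, smul_eq_mul, tr_sf (NeZero.pos c)]
  refine this.congr_fun fun i => ?_
  have e := h i
  rw [show t / c * (A i * conj (χ i)) * ee (i * τ) = conj (χ i) * t * (A i * ee (i * τ) / c) by ring,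
    ← e, Finset.sum_mul]
  refine Finset.sum_congr rfl fun a _ => ?_
  have : (a * ((i : ℤ) : ZMod c)) = ((a.cast * i : ℤ) : ZMod c) := by simp
  rw [this, ZMod.stdAddChar_coe, sf_coe, P004C.Wa.ee, P004C.Wa.ee, mul_assoc,
    ← mul_div_assoc, mul_left_comm (Complex.exp _), ← Complex.exp_add]
  congr 4
  push_cast
  ring

theorem cr_nm (hc : 0 < c) (h : Cr c χ) {a : ℤ} (e : IsCoprime a c) : conj (χ a) * χ a = 1 :=
  cj_mul (Nat.totient_pos.2 hc).ne' (ch_root hc h.one h.mul h.per e)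

theorem tf_mw [NeZero c] (h : MW N ε F) (e : ε 1 = 1) (p : ∀ a b, (N : ℤ) ∣ a - b → ε a = ε b)
    (r : Cr c χ) : MW (N * c ^ 2) (fun d => ε d * conj (χ d) ^ 2) (tf c χ F) := by
  have hc := NeZero.pos c
  refine ⟨?_, fun γ hγ τ => ?_, fun γ => ?_⟩
  · exact Finset.sum_induction _ (MDifferentiable 𝓘(ℂ) 𝓘(ℂ)) (fun _ _ => MDifferentiable.add)
      mdifferentiable_const fun a _ =>
        (s1_pos (F := F) (tr_det hc _) ▸ h.hol.slash 1 _).const_smul _
  · obtain ⟨d, g, hg⟩ := (G0_iff _ γ).1 hγ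
    rw [Matrix.det_fin_two, hg] at d
    push_cast at d hg
    have k : ∀ a : ZMod c, s1 (s1 F (tr c a.cast)) γ.1 =
        ε (γ 1 1) • s1 F (tr c (a * (γ 1 1 : ZMod c) ^ 2).cast) := fun a => by
      have g0 : G0 N !![γ 0 0 + a.cast * N * c * g,
          γ 0 1 - a.cast * γ 1 1 * γ 0 1 * N * c * g - a.cast ^ 2 * γ 1 1 ^ 2 * N * g;
          N * c ^ 2 * g, γ 1 1 - N * c * g * a.cast * γ 1 1 ^ 2] := ⟨by
        rw [Matrix.det_fin_two_of]
        linear_combination (1 - N * c * g * a.cast * γ 1 1) * d, by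
          simp [mul_assoc]⟩
      rw [← s1_mul (tr_det hc _) (by simp), tr_per hc e h (b := a.cast * γ 1 1 ^ 2) (by simp),
        ← p (γ 1 1 - N * c * g * a.cast * γ 1 1 ^ 2) _ ⟨-(c * g * a.cast * γ 1 1 ^ 2), by ring⟩,
        ← s1_smul]
      refine Eq.trans ?_ (congrArg (s1 · _) (inv h g0))
      rw [← s1_mul g0.det (tr_det hc _)]
      congr 1
      ext i j
      fin_cases i <;> fin_cases j <;> simp [tr, Matrix.mul_apply, hg]
      · ring
      · linear_combination (-a.cast * γ 1 1) * d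
      · ring
      · ring
    have co : IsCoprime (γ 1 1) (c : ℤ) := ⟨γ 0 0, -(γ 0 1 * N * c * g), by linear_combination d⟩
    obtain ⟨u, hu⟩ := (ZMod.coe_int_isUnit_iff_isCoprime _ c).2 co.symm
    have k2 : s1 (tf c χ F) γ.1 = (ε (γ 1 1) * conj (χ (γ 1 1)) ^ 2) • tf c χ F := by
      rw [tf, s1_sum, Finset.smul_sum, ← Equiv.sum_comp (u ^ 2).mulRight
        fun a => (ε (γ 1 1) * conj (χ (γ 1 1)) ^ 2) • cz c χ a • s1 F (tr c a.cast)]
      refine Finset.sum_congr rfl fun a _ => ?_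
      rw [s1_smul, k, Units.mulRight_apply, Units.val_pow_eq_pow_val, hu, smul_smul, smul_smul, sq,
        sq, cz_mul r.mul r.per, cz_mul r.mul r.per, cz_int r.per]
      congr 1
      linear_combination -(cz c χ a * ε (γ 1 1)) * (conj (χ (γ 1 1)) * χ (γ 1 1) + 1) *
        cr_nm hc r co
    rw [← div_mul_cancel₀ (tf c χ F (γ • τ)) (jj_ne γ τ), ← s1_jj, k2, Pi.smul_apply, smul_eq_mul]
    ring
  · rw [← s1_SL, tf, s1_sum]
    exact Finset.sum_induction _ IsBoundedAtImInfty (fun _ _ => Filter.BoundedAtFilter.add)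
      (Filter.const_boundedAtFilter _ 0) fun a _ => by
        rw [s1_smul, s1_SL]
        exact Filter.BoundedAtFilter.smul _ (s1_bdd h.bdd (tr_det hc _) γ)

theorem sum_u [NeZero c] {E : Type} [AddCommMonoid E] {f : ZMod c → E}
    (h : ∀ a, ¬ IsUnit a → f a = 0) : ∑ a, f a = ∑ u : (ZMod c)ˣ, f u :=
  (Fintype.sum_of_injective _ Units.val_injective _ _ (fun a n => h a n) fun _ => rfl).symm

theorem tf_fr [NeZero c] (hN : 0 < N) (h : MW N ε F) (hε : Chr N ε) (r : Cr c χ)
    (co : IsCoprime (N : ℤ) c) : fr (N * c ^ 2) (tf c χ F) =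
      (ε c / c * conj (χ (-N))) • tf c (fun a => conj (χ a)) (fr N F) := by
  have hc := NeZero.pos c
  have c0 : (c : ℂ) ≠ 0 := by exact_mod_cast hc.ne'
  have hN' : 0 < N * c ^ 2 := by positivity
  have z : ∀ a, ¬ IsUnit a → cz c χ a = 0 := fun a n => by
    by_contra e
    exact n ((cz_ne r.per r.zero a).1 e)
  obtain ⟨n, hn⟩ := (ZMod.coe_int_isUnit_iff_isCoprime _ c).2 co.neg_left.symm
  have sc : ∀ H : ℍ → ℂ, s1 H (tr c 0) = (c : ℂ)⁻¹ • H := fun H => funext fun τ => by
    have := tr_sf (F := H) hc 0 τ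
    rw [show sf c 0 τ = τ from UpperHalfPlane.ext (by rw [sf_coe]; simp), ZMod.cast_zero] at this
    rw [this, Pi.smul_apply, smul_eq_mul, mul_comm, div_eq_mul_inv]
  rw [fr_eq hN', fr_eq hN, tf, tf, s1_sum, Finset.smul_sum,
    sum_u fun a e => by rw [s1_smul, z a e, zero_smul],
    sum_u fun a e => by rw [show cz c (fun a => conj (χ a)) a = conj (cz c χ a) from rfl, z a e,
      map_zero, zero_smul, smul_zero],
    ← Equiv.sum_comp ((Equiv.mulLeft n).trans (Equiv.inv _))]
  refine Finset.sum_congr rfl fun u _ => ?_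
  simp only [Equiv.trans_apply, Equiv.coe_mulLeft, Equiv.inv_apply]
  set a : ℤ := (((n * u)⁻¹ : (ZMod c)ˣ) : ZMod c).cast with ha
  set b : ℤ := (u : ZMod c).cast with hb
  have e : ((a * (-N * b) : ℤ) : ZMod c) = (1 : ℤ) := by
    rw [Int.cast_mul, Int.cast_mul, ← hn, ha, hb, ZMod.intCast_cast, ZMod.intCast_cast,
      ZMod.cast_id, ZMod.cast_id, ← Units.val_mul, ← Units.val_mul, inv_mul_cancel]
    simp
  obtain ⟨x, hx⟩ := (ZMod.intCast_eq_intCast_iff_dvd_sub _ _ _).1 e
  have g0 : G0 N !![x, a; N * b, c] := ⟨by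
    rw [Matrix.det_fin_two_of]; linear_combination -hx, by simp⟩
  have m : tr c a * Wm (N * c ^ 2) =
      !![x, a; N * b, c] * (Wm N * (tr c b * tr c 0)) := by
    simp only [tr, Wm, Matrix.mul_fin_two]
    push_cast
    congr 3
    · ring
    · congr 1
      linear_combination -c * hx
    · congr 1
      · ring
      · congr 1
        ring
  have d1 : 0 < (tr c b * tr c 0).det := by
    rw [Matrix.det_mul]; exact mul_pos (tr_det hc _) (tr_det hc 0)
  have k : χ a * χ (-N) * χ b = 1 := by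
    rw [mul_assoc, ← r.mul, ← r.mul, ← r.one]
    exact (r.per _ _ ⟨x, hx⟩).symm
  have cb : IsCoprime b (c : ℤ) := ⟨a * -N, x, by linear_combination -hx⟩
  rw [s1_smul, ← s1_mul (tr_det hc _) (W_det hN'), m,
    s1_mul g0.det (by rw [Matrix.det_mul]; exact mul_pos (W_det hN) d1), inv h g0, s1_smul,
    s1_mul (W_det hN) d1, s1_mul (tr_det hc _) (tr_det hc 0), sc, smul_smul, smul_smul, smul_smul]
  congr 1
  change χ a * ε c * _ = _ * conj (χ b)
  have k1 := cr_nm hc r cb
  have k2 := cr_nm hc r co.neg_left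
  have k3 : χ a = conj (χ (-N)) * conj (χ b) := by
    linear_combination conj (χ (-N)) * conj (χ b) * k - χ a * conj (χ b) * χ b * k2 - χ a * k1
  rw [k3]
  ring

end We

open We in
theorem wei : WEI := by
  intro m c ε χ G A B m1 h hc cm r p
  have : NeZero c := ⟨hc.ne'⟩
  have m0 : 0 < m := by omega
  have c0 : (c : ℂ) ≠ 0 := by exact_mod_cast hc.ne'
  have hε := Wd.chr_sq h.chr
  obtain ⟨t, t0, tv, ht⟩ := gauss r.one r.mul r.per r.zero p
  obtain ⟨t', -, tv', ht'⟩ := gauss (c := c) (χ := fun a => conj (χ a)) (by simp [r.one])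
    (fun a b => by simp [r.mul]) (fun a b e => by rw [r.per a b e])
    (fun a => by rw [← r.zero, map_eq_zero]) fun q hq d => by
      obtain ⟨k, a, b, e⟩ := p q hq d
      exact ⟨k, a, by simpa using b, fun z => e (by simpa using congrArg conj z)⟩
  have co : IsCoprime ((m ^ 2 : ℕ) : ℤ) c := Nat.isCoprime_iff_coprime.2 (cm.symm.pow_left 2)
  have w := tf_mw h.mw h.chr.one hε.per r
  have q : QE ((c / t) • tf c χ G) fun k => A k * conj (χ k) := fun τ =>
    ((tf_qe h.qe ht τ).mul_left (c / t)).congr_fun fun k => by field_simp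
  have l : (m * c) ^ 2 = m ^ 2 * c ^ 2 := mul_pow _ _ _
  have nm : ∀ a : ℤ, IsCoprime a c → ‖conj (χ a)‖ = 1 := fun a e => by
    rw [RCLike.norm_conj]
    exact Complex.norm_eq_one_of_pow_eq_one (ch_root hc r.one r.mul r.per e)
      (Nat.totient_pos.2 hc).ne'
  refine ⟨(c / t) • tf c χ G, c / t * (ε c / c * conj (χ (-(m ^ 2 : ℕ)))) * (t' / c),
    ⟨⟨by simp [h.chr.one, r.one], fun a b => by simp only [h.chr.mul, r.mul, map_mul]; ring,
      fun a b e => ?_, fun a => ?_, ?_⟩, ⟨w.hol.const_smul _, fun γ g τ => ?_, fun γ => ?_⟩, q,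
      by simp [h.one, r.one], fun k n => ?_, fun k n => ?_, fun l hl n => ?_, fun τ => ?_⟩,
    fun V hV v => ?_⟩
  · push_cast at e
    rw [h.chr.per a b ((dvd_mul_right _ _).trans e), r.per a b ((dvd_mul_left _ _).trans e)]
  · rw [mul_eq_zero, pow_eq_zero_iff two_ne_zero, map_eq_zero, h.chr.zero, r.zero, Nat.cast_mul,
      IsCoprime.mul_right_iff, not_and_or]
  · rw [h.chr.odd, ← map_pow, sq, ← r.mul]
    simp [r.one]
  · rw [l] at g
    simp only [Pi.smul_apply, smul_eq_mul, w.law γ g τ]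
    ring
  · rw [← s1_SL, s1_smul, s1_SL]
    exact Filter.BoundedAtFilter.smul _ (w.bdd γ)
  · rw [Nat.coprime_mul_iff_right, not_and_or] at n
    rcases n with n | n
    · rw [h.dep k n, zero_mul]
    · rw [(r.zero k).2 (mt Nat.isCoprime_iff_coprime.1 n), map_zero, mul_zero]
  · refine (hk_co q).2 fun n' => ?_
    have := (hk_co h.qe).1 (h.hk k n.coprime_mul_right_right) n'
    rw [mul_mul_mul_comm, ← this, Finset.sum_mul]
    refine Finset.sum_congr rfl fun x hx => ?_
    split_ifs with d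
    · obtain ⟨j, rfl⟩ := d
      rw [Nat.mul_div_cancel_left _ (Nat.pos_of_ne_zero
        (Nat.left_ne_zero_of_mem_divisorsAntidiagonal hx)),
        ← (Nat.mem_divisorsAntidiagonal.1 hx).1]
      simp only [Nat.cast_mul, r.mul, map_mul]
      ring
    · simp
  · obtain ⟨x, y, a, b, d, e⟩ := h.rt l hl n.coprime_mul_right_right
    have := nm l (Nat.isCoprime_iff_coprime.2 n.coprime_mul_left_right)
    exact ⟨x * conj (χ l), y * conj (χ l), by rw [norm_mul, a, this, mul_one],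
      by rw [norm_mul, b, this, mul_one], by rw [← d]; ring, by rw [← e]; ring⟩
  · have := (tf_qe h.fr ht' τ).mul_left (c / t * (ε c / c * conj (χ (-(m ^ 2 : ℕ)))))
    rw [l, fr_eq (by positivity), s1_smul, ← fr_eq (by positivity),
      tf_fr (pow_pos m0 2) h.mw hε r co, smul_smul]
    refine this.congr_fun fun k => ?_
    simp only [Complex.conj_conj]
    ring
  · have a := v_root (V := V) (Nat.totient_pos.2 m0).ne' (ch_root m0 h.chr.one h.chr.mul h.chr.per
      (Nat.isCoprime_iff_coprime.2 cm))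
    have b : V (conj (χ (-(m ^ 2 : ℕ)))) = 1 := v_root (Nat.totient_pos.2 hc).ne' (by
      rw [← map_pow, ch_root hc r.one r.mul r.per co.neg_left, map_one])
    simp only [map_mul, map_div₀, a, b, v, tv V hV v, tv' V hV v, div_one, mul_one]

end Vale.Agent.P014Y.Ln
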