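import Vale.Agent.P014Y.Ln.Ana
import Vale.Agent.P014Y.Ln.Lh
import Vale.Agent.P014Y.Ln.Prm
import Vale.Agent.P014Y.Ln.Pvy
import Vale.Agent.P014Y.Ln.Pva
import Vale.Agent.P014Y.Ln.Wei
import Vale.Agent.P014Y.Ln.Twi
import Vale.Agent.P014Y.Ln.Ser
import Vale.Agent.P014Y.Ln.Spl
import Vale.Agent.P014Y.Ln.Csx
import Vale.Agent.P014Y.Ln.Dvl
import Vale.Agent.P014Y.Ln.Nrm
import Vale.Agent.P014Y.Ln.Fin
import Vale.Agent.P014Y.Ln.Cgx
import Vale.Agent.P014Y.Fe.All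
import Vale.Agent.P014Y.C.Cg.All

/-! # P014 Y, block LN: the rows without hypotheses -/

namespace Vale.Agent.P014Y.Ln

theorem pvy0 : PVY := pvy Fe.feq (pv1 wals wei twi Fe.mul) ser

theorem fin0 : FIN := fin C.Cg.cong cgx nrm

theorem anb_of (dlv : DLV) : ANB :=
  anb dlv cfc bex iot lvx sml0 xi0 (prm lvx) pvy0 (csx spl) (cfx spl) (dvl spl) nrm fin0

theorem ana_of (dlv : DLV) : Tp.ANA := ana_b (anb_of dlv)

end Vale.Agent.P014Y.Ln
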