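import Vale.Agent.P004C.Al.Icx
import Vale.Agent.P004C.Ln.Hex
import Vale.Agent.P014Y.Fe.St

/-!
# P014 Y, block LN: the primitive ray class character of a Galois character
-/

set_option linter.all false

open NumberField IsDedekindDomain Module Ideal
open scoped Classical

noncomputable section

namespace Vale.Agent.P014Y.Ln.Dl

open Vale.Agent.P022 Vale.Agent.P022K
open Vale.Agent.P027M.S (Pr Inert)
open Vale.Agent.P022E.GW (Ov)
open P004C.Al P004C.Al.Rc P004C.Ln.Hx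
open P004C.Wa (RC Pm)
open Fe (Pc)

variable {L : Type} [Field L] [NumberField L] {j : L →+* Qb} {θ : GQ → ℂ} {n : ℕ}
  {χ φ ψ : Ideal (𝓞 L) → ℂ} {f g t I : Ideal (𝓞 L)}

theorem not_mem_pow {c : ℕ} (hc : c ≠ 0) (w : Pr L) :
    (c : 𝓞 L) ∉ w.asIdeal ^ c ^ finrank ℤ (𝓞 L) := fun h => by
  have a := absNorm_dvd_absNorm_of_le ((span_singleton_le_iff_mem _).2 h)
  rw [map_pow, absNorm_span_natCast] at a
  have b : 1 < absNorm w.asIdeal := P016Z.EP.two_le_Nv w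
  exact (Nat.lt_pow_self b).not_ge (Nat.le_of_dvd (by positivity) a)

theorem ex_fb (j : L →+* Qb) {l : ℕ} {P : Ideal (𝓞 Qb)} (o : Ov l P) :
    ∃ g ∈ GK j, ∀ x : 𝓞 Qb, g • x - x ^ absNorm (below j P) ∈ P := by
  obtain ⟨g, hg⟩ := H916.exists_frob j o.2.1 o.1 o.2.2
  exact ⟨g, g.2, hg⟩

theorem pw (k : Ic j θ χ) (G : Gc j θ n) (h0 : I ≠ ⊥)
    (h : ∀ l P, Ov l P → I ≤ below j P → ¬ Rm j θ P) : χ I ^ n = 1 :=
  cm_ext (a := fun I => χ I ^ n) (b := fun _ => 1) (k.cm.npow n)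
    ⟨rfl, fun _ _ => (mul_one _).symm⟩ h0 fun v m => by
      obtain ⟨l, P, o, e⟩ := ex_ab j v
      obtain ⟨g, a, b⟩ := ex_fb j o
      show χ v.asIdeal ^ n = 1
      rw [← e, k.unr l P o (h l P o (e ▸ m)) g a b, G.pow g a]

theorem cop_of (j : L →+* Qb) (h0 : g ≠ ⊥)
    (h : ∀ l P, Ov l P → I ≤ below j P → ¬ g ≤ below j P) : I ⊔ g = ⊤ := by
  by_contra c
  obtain ⟨m, hm, le⟩ := exists_le_maximal _ c
  obtain ⟨l, P, o, e⟩ := ex_ab j (mx hm)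
  exact h l P o (e ▸ le_sup_left.trans le) (e ▸ le_sup_right.trans le)

theorem not_both {l : ℕ} {P : Ideal (𝓞 Qb)} (o : Ov l P) (c : I ⊔ g = ⊤) (a : I ≤ below j P) :
    ¬ g ≤ below j P := fun b => (bl j o).isPrime.ne_top (top_unique (c ▸ sup_le a b))

/-- the modulus -/
theorem modulus [IsEmpty (L →+* ℝ)] (k : Ic j θ χ) (G : Gc j θ n) {S : Finset ℕ}
    (hS : ∀ l P, Ov l P → Rm j θ P → l ∈ S) :
    ∃ f, RC (fun _ => 1) f χ ∧ ∀ l P, Ov l P → (f ≤ below j P ↔ Rm j θ P) := by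
  have fin : {v : Pr L | ¬ PB.Un G.hom v}.Finite := (finite_factors
    (I := span {((∏ l ∈ S.filter Nat.Prime, l : ℕ) : 𝓞 L)}) (by
      simp only [Ne, zero_eq_bot, span_singleton_eq_bot, Nat.cast_eq_zero,
        Finset.prod_eq_zero_iff, Finset.mem_filter]
      exact fun ⟨l, a, b⟩ => a.2.ne_zero b)).subset fun v h => by
    obtain ⟨l, P, o, e⟩ := ex_ab j v
    refine dvd_span_singleton.2 (e ▸ (nat_mem o).2 (Finset.dvd_prod_of_mem _
      (Finset.mem_filter.2 ⟨hS l P o ?_, o.1⟩)))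
    exact by_contra fun r => h ((G.un_iff o.2.1 e).2 r)
  have n0 : n ^ 2 ≠ 0 := pow_ne_zero _ G.pos.ne'
  set a := (n ^ 2) ^ finrank ℤ (𝓞 L)
  have a0 : a ≠ 0 := pow_ne_zero _ n0
  have mem : ∀ l P (o : Ov l P), bl j o ∈ fin.toFinset ↔ Rm j θ P := fun l P o => by
    rw [Set.Finite.mem_toFinset, Set.mem_setOf_eq, G.un_iff o.2.1 rfl, not_not]
  have le : ∀ v ∈ fin.toFinset, ∏ v ∈ fin.toFinset, v.asIdeal ^ a ≤ v.asIdeal ^ a :=
    fun v m => dvd_iff_le.1 (Finset.dvd_prod_of_mem _ m)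
  have rm : ∀ l P, Ov l P → (∏ v ∈ fin.toFinset, v.asIdeal ^ a ≤ below j P ↔ Rm j θ P) :=
    fun l P o => ⟨fun h => (mem l P o).1 (by
      obtain ⟨v, m, d⟩ := ((bl j o).prime.dvd_finsetProd_iff _).1 (dvd_iff_le.2 h)
      rwa [HeightOneSpectrum.ext (v.isMaximal.eq_of_le (bl j o).isPrime.ne_top
        (dvd_iff_le.1 ((bl j o).prime.dvd_of_dvd_pow d))).symm]),
      fun h => (le _ ((mem l P o).2 h)).trans (pow_le_self a0)⟩
  have f0 : ∏ v ∈ fin.toFinset, v.asIdeal ^ a ≠ ⊥ :=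
    Finset.prod_ne_zero_iff.2 fun v _ => pow_ne_zero _ v.ne_bot
  refine ⟨_, ⟨f0, k.cm.one, k.cm.mul, fun I => ⟨fun z => or_iff_not_imp_left.2 fun b c => ?_,
    fun h => h.elim (fun b => b ▸ k.bot) fun h => ?_⟩,
    fun x x0 h => k.law G x0 fun w l P o b r => ?_⟩, rm⟩
  · have := pw k G b fun l P o m r => not_both o c m ((rm l P o).2 r)
    simp [z, G.pos.ne'] at this
  · by_contra z
    refine h (cop_of j f0 fun l P o m r => z ?_)
    obtain ⟨I', rfl⟩ := dvd_iff_le.2 m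
    rw [k.cm.mul, k.ram l P o ((rm l P o).1 r), zero_mul]
  · have m : x - 1 ∈ w.asIdeal ^ a := b ▸ le _ ((mem l P o).2 r) h
    rw [show ((x : 𝓞 L) : L) - 1 = algebraMap (𝓞 L) L (x - 1) by rw [map_sub, map_one],
      show (n : L) ^ 2 = algebraMap (𝓞 L) L (n ^ 2 : ℕ) by rw [map_natCast, Nat.cast_pow],
      w.valuation_of_algebraMap, w.valuation_of_algebraMap]
    exact ((w.intValuation_le_pow_iff_mem _ _).2 m).trans_lt
      (lt_of_not_ge fun z => not_mem_pow n0 w ((w.intValuation_le_pow_iff_mem _ _).1 z))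

/-- two characters which agree away from `t` -/
theorem agree (r : RC (fun _ => 1) f φ) (r' : RC (fun _ => 1) g ψ) (t0 : t ≠ ⊥)
    (h : ∀ I, I ≠ ⊥ → I ⊔ t = ⊤ → φ I = ψ I) (h0 : I ≠ ⊥) (a : I ⊔ f = ⊤) (b : I ⊔ g = ⊤) :
    φ I = ψ I := by
  obtain ⟨I', x, y, c, d, x0, y0, x1, y1, e⟩ := mov (mul_ne_zero r.ne r'.ne) h0
    (mul_sup'.2 ⟨a, b⟩) t0
  have u := congrArg φ e
  have w := congrArg ψ e
  rw [r.mul, r.mul, r.prn x x0 (mul_le_left x1), r.prn y y0 (mul_le_left y1)] at u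
  rw [r'.mul, r'.mul, r'.prn x x0 (mul_le_right x1), r'.prn y y0 (mul_le_right y1)] at w
  simp only [one_mul] at u w
  rw [u, w, h I' c d]

/-- the primes of a conductor divide every modulus -/
theorem pm_le (r : Pc f φ) (r' : RC (fun _ => 1) g ψ) (t0 : t ≠ ⊥)
    (h : ∀ I, I ≠ ⊥ → I ⊔ t = ⊤ → φ I = ψ I) {P : Ideal (𝓞 L)} (hP : P.IsMaximal) (le : f ≤ P) :
    g ≤ P := by
  by_contra c
  obtain ⟨f', rfl⟩ := dvd_iff_le.2 le
  obtain ⟨x, a, b, x0, d⟩ := r.pm P f' hP rfl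
  have e : g ⊔ P = ⊤ := by rw [sup_comm]; exact hP.out.2 _ (left_lt_sup.2 c)
  have k : f' ≤ g ⊔ P * f' := by
    conv_lhs => rw [← top_mul f', ← e, Ideal.sup_mul]
    exact sup_le_sup_right mul_le_left _
  obtain ⟨u, hu, z, hz, e'⟩ := Submodule.mem_sup.1 (k a)
  have cx : span {x} ⊔ P * f' = ⊤ := mul_sup'.2 ⟨by
    rw [sup_comm]; exact hP.out.2 _ (left_lt_sup.2 (mt (span_singleton_le_iff_mem _).1 b)),
    sup_one a⟩
  have y1 : x - z - 1 ∈ g := by rwa [show x - z - 1 = u by linear_combination -e']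
  have y0 : x - z ≠ 0 := fun y => b (sub_eq_zero.1 y ▸ mul_le_left hz)
  have q := cng (fun _ _ => (mul_one _).symm) r.rc x0 y0 cx (by simpa using hz)
  simp only [mul_one] at q
  refine d (q.trans ((agree r.rc r' t0 h (span_singleton_eq_bot.not.2 y0) ?_ (sup_one y1)).trans
    (r'.prn _ y0 y1)))
  by_contra w
  exact nz r.rc (span_singleton_eq_bot.not.2 x0) cx (q.trans ((r.rc.zero _).2 (.inr w)))

/-- the primitive character of `χ` -/
structure Pi (j : L →+* Qb) (θ : GQ → ℂ) (n : ℕ) (χ : Ideal (𝓞 L) → ℂ) (f₀ f : Ideal (𝓞 L))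
    (φ : Ideal (𝓞 L) → ℂ) : Prop where
  rc : RC (fun _ => 1) f₀ χ
  rm : ∀ l P, Ov l P → (f₀ ≤ below j P ↔ Rm j θ P)
  le : f₀ ≤ f
  pc : Pc f φ
  eq : ∀ I, I ⊔ f₀ = ⊤ → φ I = χ I
  pw : ∀ I, φ I = 0 ∨ φ I ^ n = 1

theorem ex_pi [IsEmpty (L →+* ℝ)] (k : Ic j θ χ) (G : Gc j θ n) {S : Finset ℕ}
    (hS : ∀ l P, Ov l P → Rm j θ P → l ∈ S) : ∃ f₀ f φ, Pi j θ n χ f₀ f φ := by
  obtain ⟨f₀, r₀, rm⟩ := modulus k G hS
  obtain ⟨f, φ, le, r, p, eq⟩ :=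
    prim (fun _ _ => (mul_one _).symm) (fun _ _ => one_ne_zero) r₀
  refine ⟨f₀, f, φ, r₀, rm, le, ⟨r, p⟩, eq, fun I => or_iff_not_imp_left.2 fun z => ?_⟩
  rw [r.zero, not_or, not_not] at z
  obtain ⟨I', x, y, a, b, x0, y0, c, d, e⟩ := mov r.ne z.1 z.2 r₀.ne
  have := congrArg φ e
  rw [r.mul, r.mul, r.prn x x0 c, r.prn y y0 d, one_mul, one_mul, eq I' b] at this
  rw [this]
  exact pw k G a fun l P o m u => not_both o b m ((rm l P o).2 u)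

variable {f₀ : Ideal (𝓞 L)}

theorem Pi.unr (h : Pi j θ n χ f₀ f φ) (u : ∀ l P, Ov l P → I ≤ below j P → ¬ Rm j θ P) :
    φ I = χ I :=
  h.eq I (cop_of j h.rc.ne fun l P o a b => u l P o a ((h.rm l P o).1 b))

/-- visible ramification divides the conductor -/
theorem Pi.ram (h : Pi j θ n χ f₀ f φ) {l : ℕ} {P : Ideal (𝓞 Qb)} (o : Ov l P)
    (v : ∀ g : Ideal (𝓞 L), g ⊔ below j P = ⊤ →
      ∃ x : 𝓞 L, x - 1 ∈ g ∧ x ∉ below j P ∧ χ (span {x}) = -1) : φ (below j P) = 0 := by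
  have hP := (bl j o).isMaximal
  have cp : ∀ {g : Ideal (𝓞 L)}, ¬ g ≤ below j P → g ⊔ below j P = ⊤ := fun c => by
    rw [sup_comm]; exact hP.out.2 _ (left_lt_sup.2 c)
  by_contra z
  rw [h.pc.rc.zero, not_or, not_not] at z
  obtain ⟨Q, q, e⟩ := eq_prime_pow_mul_coprime h.rc.ne (below j P) (hpm := hP)
  obtain ⟨x, a, b, c⟩ := v (f * Q) (sup_mul.2 ⟨sup_comm f _ ▸ z.2, sup_comm Q _ ▸ q⟩)
  have := h.eq (span {x}) (by
    rw [e]
    exact mul_sup'.2 ⟨isCoprime_iff_sup_eq.1 (isCoprime_iff_sup_eq.2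
      (cp (mt (span_singleton_le_iff_mem _).1 b))).pow_right, sup_one (mul_le_right a)⟩)
  rw [c, h.pc.rc.prn x (fun y => b (y ▸ zero_mem _)) (mul_le_left a)] at this
  norm_num at this

end Vale.Agent.P014Y.Ln.Dl
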