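import Vale.Agent.P014Y.C.Defs
import Vale.Agent.P004C.Ln.St

/-!
# P014 Y, block LN: the link half, rows which do not mention the frame
-/

set_option autoImplicit false

open NumberField Module UpperHalfPlane CongruenceSubgroup
open scoped Classical MatrixGroups Real ComplexConjugate NumberTheorySymbols

noncomputable section

namespace Vale.Agent.P014Y.Ln

open Vale.Agent.P022 (Qb GQ GK below)
open Vale.Agent.P027H Vale.Agent.P027M.M Vale.Agent.P022.H218.L3 Vale.Agent.P022.H236.L3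
open P004K (Ex Cj0 st Oc Cn Cop Hp JJ jL Ar)
open Vale.Agent.P022E.GW (Ov)
open P004Z.EF (Val)
open P004F.Qx (Vp Zq Cq)
open P004C.Wa (MW QE Kd Sp lf)
open P004C.Ln (Jc Hm Hb)
open P014Y.C (Base Lk)

/-- a place of `ℂ` above three -/
def V3 (V : AbsoluteValue ℂ ℝ) : Prop := IsNonarchimedean V ∧ V 3 = 1 / 3

/-- `ι` induces `V`, which lies over `P` -/
structure Pl (ι : ℂ →+* ℂ_[3]) (V : AbsoluteValue ℂ ℝ) (P : Ideal (𝓞 Qb)) : Prop where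
  bij : Function.Bijective ι
  eq : ∀ z, V z = ‖ι z‖
  vp : Vp V P

/-- the character of conductor three as a character modulo `m` -/
def e3 (m : ℕ) (d : ℤ) : ℂ := if IsCoprime d (m : ℤ) then (J(d | 3) : ℂ) else 0

/-- the place `v` -/
def IOT : Prop := ∀ P : Ideal (𝓞 Qb), Ov 3 P → (∃ ι V, Pl ι V P) ∧ ∀ ι V, Pl ι V P → V3 V ∧
  ∀ (K : Type) [Field K] [NumberField K] (j : K →+* Qb) (D : ℕ) (θ : 𝓞 K), Kd (Jc j) D θ →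
    D % 3 = 2 → (∃ Ω, Base ι (Jc j) Ω) ∧ (∀ x : 𝓞 K, V (Jc j x) ≤ 1 ∧
      (V (Jc j x) < 1 ↔ x ∈ below j P) ∧ ∃ k : ℤ, V (Jc j x - k) ≤ 1 / 3) ∧
      Lk (Jc j) = Oc (JJ j) 1

/-- characters of weight one which are congruent to one -/
def BEX : Prop := ∀ V, V3 V → ∀ (K : Type) [Field K] [NumberField K] (J : K →+* ℂ) (D : ℕ)
  (θ : 𝓞 K), Kd J D θ → ∀ (m : ℕ) (n : Ideal (𝓞 K)), 0 < m → 3 ∣ m → Cn m n →
  (∀ x ∈ n, V (J x) < 1) → ∃ (b : Ideal (𝓞 K) → ℂ) (δ : ℝ), δ < 1 ∧ Hb J 1 n (e3 m) b ∧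
    ∀ I, b I ≠ 0 → V (b I - 1) ≤ δ

/-- congruences of coefficients -/
def CFC : Prop := ∀ V, V3 V → ∀ (N R : ℕ) (a : ℕ → ℤ) (e A : ℕ → ℂ) (ρ : ℝ) s, a 1 = 1 →
  P004N.TE N a (fun n => (a n : ℂ)) → 3 ∣ R → (∀ p : ℕ, p.Prime → ¬ p ∣ R → ¬ p ∣ N ∧
    V (A p - J(p | 3) * a p) ≤ ρ ∧ V (e p - J(p | 3)) ≤ ρ) → 1 / 3 ≤ ρ → ρ ≤ 1 → Hm R e A →
  Cq 3 (P004F.Qx.dp R a) s → ∀ i : ℕ, V (s.coeff i - if i.Coprime R then A i else 0) ≤ ρ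

/-- the form of weight one and level three which is congruent to one -/
def EIS : Prop := ∃ (H : ℍ → ℂ) (c : ℕ → ℤ), MW 3 (fun d => (J(d | 3) : ℂ)) H ∧
  QE H fun n => (if n = 0 then 1 else 0) + 3 * (c n : ℂ)

/-- **values of the form at lattices against values of the function** -/
def LKG : Prop := ∀ V (P : Ideal (𝓞 Qb)), Ov 3 P → V3 V → Vp V P → ∀ M' m : ℕ, 0 < m →
  M' ∣ m ^ 2 → ∀ u ∈ MF (Gamma0 M'), ∀ s, ExM 1 s u → Zq 3 s → ∀ (G : ℍ → ℂ) (A : ℕ → ℂ) (ρ : ℝ),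
  MW (m ^ 2) (e3 m) G → QE G A → ρ < 1 → (∀ i : ℕ, V (s.coeff i - A i) ≤ ρ) →
  ∃ (T : ℕ) (δ : ℝ), δ < 1 ∧ ∀ D, T ≤ D →
  ∀ (K : Type) [Field K] [NumberField K] (j : K →+* Qb) (θ : 𝓞 K), Kd (Jc j) D θ →
  ∀ (n n' I : Ideal (𝓞 K)) (ν : 𝓞 K), Sp m n n' → n ≤ below j P → Cn M' I → n ^ 2 ≤ I →
  ν ∈ n' ^ 2 → ν - 1 ∈ n ^ 2 →
  ∃ Ω₀ : ℂ, V Ω₀ ^ 12 = V (g2 (Lk (Jc j)) ^ 3 - 27 * g3 (Lk (Jc j)) ^ 2) ∧
  ∀ (c : ℕ) (B : Ideal (𝓞 K)) g σ τ τ' y, 0 < c → c.Coprime m → Cop (c * m) B → Ar j c B g →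
    Ex σ g → Hp (JJ j) M' I c τ → Cj0 σ M' τ τ' → Val τ' u y → V y ≤ 1 ∧
    V (2 * π * lf 1 (m ^ 2) G (st (JJ j) B (Oc (JJ j) c)) (c * Jc j ν / (m ^ 2 : ℕ)) -
      J(c | 3) * Ω₀ * y) ≤ δ * V Ω₀

end Vale.Agent.P014Y.Ln
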