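import Vale.Agent.P014Y.Ln.St3
import Vale.Agent.P014Y.Ln.Dlp
import Vale.Agent.P014Y.Br.All
import Vale.Agent.P014Y.W1.Exp
import Vale.Agent.P014Y.Tp.Fam

/-!
# P014 Y, block LN: row DLV
-/

set_option linter.all false

open NumberField IsDedekindDomain Module Ideal
open scoped Classical ComplexConjugate NumberTheorySymbols

noncomputable section

namespace Vale.Agent.P014Y.Ln

open Vale.Agent.P022 Vale.Agent.P022K
open Vale.Agent.P027M.S (Pr Inert)
open Vale.Agent.P022E.GW (Ov Fb)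
open P004C.Al P004C.Al.Rc
open P004C.Wa (RC Pm Kd dp)
open P004C.Wa.Co (dvd_nm ex_max nm_span)
open Fe (Pc cj cd Dv)
open Tp (G3 Rh Fam Im th ts FAP)

namespace Dl

section

variable {K : Type} [Field K] [NumberField K] {J : K →+* ℂ} {j : K →+* Qb} {D : ℕ} {θ : 𝓞 K}

theorem gk_of (h : Kd J D θ) {g : GQ} (e : g (j θ) = j θ) : g ∈ GK j := fun x => by
  have l : LinearIndependent ℚ ![(1 : K), θ] := LinearIndependent.pair_iff.2 fun a b e => by
    have k := congrArg (fun z => (J z).im) e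
    have b0 : b = 0 := by simpa [Rat.smul_def, h.im.ne'] using k
    exact ⟨by simpa [b0] using e, b0⟩
  have := (basisOfLinearIndependentOfCardEqFinrank l (by simp [h.two])).sum_repr x
  simp only [Fin.sum_univ_two, coe_basisOfLinearIndependentOfCardEqFinrank, Matrix.cons_val_zero,
    Matrix.cons_val_one, Rat.smul_def] at this
  rw [← this]
  simp [e]

theorem gk_inert (h : Kd J D θ) {l : ℕ} {P : Ideal (𝓞 Qb)} (o : Ov l P) (c : l.Coprime (4 * D))
    {g : GQ} (i : Inert P g) : g ∈ GK j := by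
  refine gk_of h ?_
  have s : (j θ) ^ 2 = -(D : Qb) := by simpa using congrArg (fun z : 𝓞 K => j z) h.sq
  refine (sq_eq_sq_iff_eq_or_eq_neg.1 (show g (j θ) ^ 2 = j θ ^ 2 by
    rw [← map_pow, s, map_neg, map_natCast])).resolve_right fun e => ?_
  let y := RingOfIntegers.mapRingHom j θ
  have a := i y
  rw [show g • y = -y from Subtype.ext e] at a
  have b : ((4 * D : ℕ) : 𝓞 Qb) ∈ P := by
    have y2 : y ^ 2 = -(D : 𝓞 Qb) := by rw [← map_pow, h.sq, map_neg, map_natCast]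
    have := P.mul_mem_left (2 * y) a
    rwa [show 2 * y * (-y - y) = ((4 * D : ℕ) : 𝓞 Qb) by
      push_cast; linear_combination (-4) * y2] at this
  obtain ⟨u, w, k⟩ := Nat.Coprime.cast (R := 𝓞 Qb) c
  exact o.2.1.ne_top ((eq_top_iff_one _).2 (k ▸ add_mem (P.mul_mem_left _ o.2.2)
    (P.mul_mem_left _ b)))

end

theorem th_cub (a : G3) : th 1 a ^ 3 = th 0 a := by
  have : ∀ x : ZMod 3, x.valMinAbs ^ 3 = x.valMinAbs := by decide
  rw [Br.Ba.th_eq, Br.th_zero, mul_pow, ← pow_mul, pow_one, mul_comm _ 3, pow_mul,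
    Br.Ba.ze_pr.pow_eq_one, one_pow, mul_one, ← Int.cast_pow, this]

variable {L : Type} [Field L] [NumberField L] {j : L →+* Qb} {ρ : GQ → G3} {S : Finset ℕ} {R : ℕ}
  {k n : ℕ} {χ φ : Ideal (𝓞 L) → ℂ} {f₀ f I : Ideal (𝓞 L)}

theorem rm_mem (h : Rh ρ S) (l : ℕ) (P : Ideal (𝓞 Qb)) (o : Ov l P)
    (r : Rm j (fun g => th k (ρ g)) P) : l ∈ S := by
  obtain ⟨g, -, b, c⟩ := r
  by_contra a
  exact c (by simp only [h.unr g ⟨l, a, P, o, b⟩, Br.th_one])

theorem l_dvd {l : ℕ} {P : Ideal (𝓞 Qb)} (o : Ov l P) (a : I ≤ below j P) : l ∣ absNorm I :=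
  (dvd_nm o.1 (bl j o).isPrime.ne_top (H20.l_mem_below j o.2.2)).trans
    (absNorm_dvd_absNorm_of_le a)

theorem off (h : Rh ρ S) (sm : ∀ l ∈ S, l ∣ R) (p : Pi j (fun g => th k (ρ g)) n χ f₀ f φ)
    (c : (absNorm I).Coprime R) : φ I = χ I :=
  p.unr fun l P o a r => (Nat.Prime.coprime_iff_not_dvd o.1).1
    (c.coprime_dvd_left (l_dvd o a)) (sm l (rm_mem h l P o r))

theorem dv_cd (h : Rh ρ S) (sm : ∀ l ∈ S, l ∣ R) (R0 : R ≠ 0)
    (p : Pi j (fun g => th k (ρ g)) n χ f₀ f φ)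
    (d : ∀ l : ℕ, l.Prime → (l : ℤ) ∣ discr L → l ∈ S) : Dv R (cd f) := by
  refine (Nat.exists_dvd_pow_iff (mul_ne_zero (Int.natAbs_ne_zero.2 (discr_ne_zero L))
    (absNorm_eq_zero_iff.not.2 p.pc.rc.ne)) R0).2 fun l m => ?_
  have hl := Nat.prime_of_mem_primeFactors m
  refine Nat.mem_primeFactors.2 ⟨hl, sm l ((hl.dvd_mul.1 (Nat.dvd_of_mem_primeFactors m)).elim
    (fun a => d l hl (Int.natCast_dvd.2 a)) fun a => ?_), R0⟩
  obtain ⟨Q, q, lq, dq⟩ := ex_max hl a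
  obtain ⟨l', P, o, e⟩ := ex_ab j (mx q)
  have e' : below j P = Q := e
  rw [← (Nat.prime_dvd_prime_iff_eq o.1 hl).1 ((nat_mem o).1 (e' ▸ lq))]
  exact rm_mem h l' P o ((p.rm l' P o).1 (p.le.trans (e' ▸ dvd_iff_le.1 dq)))

theorem cub (h : Rh ρ S) (sm : ∀ l ∈ S, l ∣ R) (R0 : R ≠ 0) {χ' φ' : Ideal (𝓞 L) → ℂ}
    {g₀ g : Ideal (𝓞 L)} {n' : ℕ} (k₀ : Ic j (fun g => th 0 (ρ g)) χ)
    (k₁ : Ic j (fun g => th 1 (ρ g)) χ') (p : Pi j (fun g => th 0 (ρ g)) n χ f₀ f φ)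
    (p' : Pi j (fun g => th 1 (ρ g)) n' χ' g₀ g φ') (z : φ' I ≠ 0) : φ' I ^ 3 = φ I := by
  have r := p'.pc.rc
  have r3 : RC (fun _ => 1) g fun I => φ' I ^ 3 := ⟨r.ne, by rw [r.one, one_pow],
    fun a b => by rw [r.mul, mul_pow], fun a => by rw [pow_eq_zero_iff three_ne_zero, r.zero],
    fun x a b => by rw [r.prn x a b, one_pow]⟩
  have t0 : span {(R : 𝓞 L)} ≠ ⊥ := by simpa using R0
  have e : ∀ I, I ≠ ⊥ → I ⊔ span {(R : 𝓞 L)} = ⊤ → φ I = φ' I ^ 3 := fun I a c => by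
    have u : ∀ k l P, Ov l P → I ≤ below j P → ¬ Rm j (fun g => th k (ρ g)) P :=
      fun k l P o m r => not_both o c m ((span_singleton_le_iff_mem _).2
        ((nat_mem o).2 (sm l (rm_mem h l P o r))))
    rw [p.unr (u 0), p'.unr (u 1)]
    refine cm_ext k₀.cm (k₁.cm.npow 3) a fun v m => ?_
    obtain ⟨l, P, o, e⟩ := ex_ab j v
    obtain ⟨g, b, c⟩ := ex_fb j o
    rw [← e, k₀.unr l P o (u 0 l P o (e ▸ m)) g b c, k₁.unr l P o (u 1 l P o (e ▸ m)) g b c, th_cub]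
  rw [Ne, r.zero, not_or, not_not] at z
  exact (agree p.pc.rc r3 t0 e z.1 (cop_of j p.pc.rc.ne fun l P o a b => not_both o z.2 a
    (pm_le p.pc r3 t0 e (bl j o).isMaximal b)) z.2).symm

end Dl

open Dl

/-- **row DLV** -/
theorem dlv (w1 : W1.W1X) (fap : FAP) (rmq : RMQ) : DLV := by
  intro ρ S R h nc hR h3 κ _ x L _ _ jL F s hs
  obtain ⟨N, G, G', A, N0, hN, fr, -, hE⟩ := w1 ρ S h nc s hs
  obtain ⟨-, deg, fa⟩ := (fap ρ S h).2 κ x L jL F
  have sm : ∀ l ∈ S, l ∣ R := fun l a => (hR l (h.pr l a)).2 a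
  have R0 : R ≠ 0 := fun e => h3 (by simp [e])
  have em : ∀ i, IsEmpty (L i →+* ℝ) := fun i => ⟨fun φ => by
    obtain ⟨w, k⟩ := (fa i).1
    have := congrArg φ k
    simp only [map_add, map_pow, map_one, map_zero] at this
    nlinarith [sq_nonneg (2 * φ w + 1)]⟩
  have G₀ := fun i => (fa i).2.2.2.1
  have G₁ := fun i => (fa i).2.2.1 1
  choose χ₀ k₀ using fun i => (icx _ _ _ _ (G₀ i)).1
  choose χ₁ k₁ using fun i => (icx _ _ _ _ (G₁ i)).1
  choose g₀ f₀ φ₀ p₀ using fun i => ex_pi (k₀ i) (G₀ i) (rm_mem h)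
  choose g₁ f₁ φ₁ p₁ using fun i => ex_pi (k₁ i) (G₁ i) (rm_mem h)
  have cN : ∀ k : ℕ, k.Coprime R ↔ k.Coprime N := fun k => by
    rw [← not_iff_not, Nat.Prime.not_coprime_iff_dvd, Nat.Prime.not_coprime_iff_dvd]
    exact exists_congr fun l => and_congr_right fun a => and_congr_right fun _ =>
      (hR l a).trans (hN l a).symm
  obtain ⟨hd, B, -, eg, -⟩ := hE N N0 dvd_rfl fun l a b => (hN l a).1 b
  have dep : ∀ k, ¬ k.Coprime R → A k = 0 := fun k c => eg.dep k fun a => c ((cN k).2 a)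
  have e3N : ∀ k : ℕ, k.Coprime R → e3 N k = J(k | 3) := fun k c =>
    if_pos (Nat.isCoprime_iff_coprime.2 ((cN k).1 c))
  have W : Br.Wd ρ S s R (fun n => e3 N n) A := ⟨h, hs, fun e => by simpa [e] using sm 3 h.three,
    sm, hd, fun n => by unfold e3; split_ifs <;> simp,
    fun l a b => e3N l ((Nat.Prime.coprime_iff_not_dvd a).2 b), fr⟩
  have dA' : dA R A = A := funext fun k => by
    unfold dA
    split_ifs with c
    exacts [rfl, (dep k c).symm]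
  refine ⟨N, G, G', A, f₀, f₁, φ₀, φ₁, N0, fun l a b => (hN l a).1 b,
    fun l P g o a b => fr l o.1 a g ⟨P, o.2.1, o.2.2, b⟩, fun m a b c => (hE m a b c).2,
    ⟨fun i => (fa i).1, fun i => (p₀ i).pc, fun i => (p₁ i).pc, fun i => funext fun I => ?_,
      fun i I => cub h sm R0 (k₀ i) (k₁ i) (p₀ i) (p₁ i),
      fun i => dv_cd h sm R0 (p₀ i) (fa i).2.2.2.2.2.1,
      fun i => dv_cd h sm R0 (p₁ i) (fa i).2.2.2.2.2.1, deg⟩, fun i => (p₁ i).pw,
    fun z hz => ?_, fun K _ _ j D θ hK cD im M _ _ _ _ jM C => ⟨fun i => ?_, fun lam hw lm => ?_,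
      fun i ψ hψ I c => ?_⟩⟩
  · rcases (p₀ i).pw I with e | e
    · rw [cj, e, map_zero]
    · rcases sq_eq_one_iff.1 e with e | e <;> simp [cj, e]
  · have a : ∀ i, dp R (φ₀ i) = dp R (χ₀ i) := fun i => funext fun I =>
      if_ctx_congr Iff.rfl (off h sm (p₀ i)) fun _ => rfl
    have b : ∀ i, dp R (φ₁ i) = dp R (χ₁ i) := fun i => funext fun I =>
      if_ctx_congr Iff.rfl (off h sm (p₁ i)) fun _ => rfl
    have c : ∀ i, dp R (cj (φ₁ i)) = dp R (cj (χ₁ i)) := fun i => funext fun I =>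
      if_ctx_congr Iff.rfl (fun c => congrArg conj (off h sm (p₁ i) c)) fun _ => rfl
    simp only [a, b, c, dA']
    exact Br.brq W F dep k₀ k₁ (by linarith)
  · have two : finrank (L i) (M i) = 2 :=
      ((fa i).2.2.2.2.2.2 K (M i) j (jM i) im (C i)).2.trans hK.two
    refine ⟨two, fun y e => ?_, Nat.coprime_of_dvd fun l a b d => (Nat.Prime.coprime_iff_not_dvd a).1
      (cD.coprime_dvd_left d) (sm l ((fa i).2.2.2.2.2.1 l a (Int.natCast_dvd.2 b)))⟩
    have k : GK (jM i) = GK (jL i) := Subgroup.ext fun g => ((C i).gM g).trans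
      (and_iff_right_of_imp fun a => gk_of hK (by rw [← (C i).cK, ← e, (C i).cL, a]))
    have := finrank_mul_finrank ℚ (L i) (M i)
    rw [two, ← Tp.Fm.index_GK (jM i), k, Tp.Fm.index_GK] at this
    have := finrank_pos (R := ℚ) (M := L i)
    omega
  · have a : ∀ i {φ χ : Ideal (𝓞 (L i)) → ℂ}, (∀ I, (absNorm I).Coprime R → φ I = χ I) →
        ∑' I, cM (M i) φ lam I = ∑' I : Ideal (𝓞 (M i)),
          χ (relNorm (𝓞 (L i)) I) * lam (relNorm (𝓞 K) I) := fun i φ χ e => tsum_congr fun I => by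
      by_cases c : (absNorm I).Coprime R
      · rw [cM, e _ (by rwa [absNorm_relNorm])]
      · rw [cM, lm _ (by rwa [absNorm_relNorm]), mul_zero, mul_zero]
    have z : ∑' v : ℕ, (J(v | D) * J(v | 3) : ℂ) * lam (span {(v : 𝓞 K)}) =
        ∑' v : ℕ, e3 N v * J(v | D) * lam (span {(v : 𝓞 K)}) := tsum_congr fun v => by
      by_cases c : v.Coprime R
      · rw [e3N v c, mul_comm (J(v | D) : ℂ)]
      · rw [lm _ (by rwa [nm_span hK.two, Nat.coprime_pow_left_iff two_pos]), mul_zero, mul_zero]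
    have := Br.brk W F hK im (fun i => (C i).gM) hw lm
      (fun i => Br.dc_nm h F sm lm (C i) (k₀ i)) fun i => Br.dc_nm h F sm lm (C i) (k₁ i)
    have a0 := fun i => a i (φ := φ₀ i) (χ := χ₀ i) fun I => off h sm (p₀ i)
    have a1 := fun i => a i (φ := φ₁ i) (χ := χ₁ i) fun I => off h sm (p₁ i)
    have a2 := fun i => a i (φ := cj (φ₁ i)) (χ := cj (χ₁ i)) fun I c =>
      congrArg conj (off h sm (p₁ i) c)
    rw [Rk, Rk, z]
    simp only [a0, a1, a2]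
    refine Eq.trans ?_ this
    ring
  · have r := (p₀ i).pc.rc
    by_cases I0 : I = ⊥
    · rw [I0, hψ.bot, relNorm_bot, (r.zero _).2 (.inl rfl)]
    refine cm_ext (b := fun I => φ₀ i (relNorm (𝓞 (L i)) I)) hψ.cm
      ⟨by rw [map_one, r.one], fun a b => by rw [map_mul, r.mul]⟩ I0 fun w m => ?_
    obtain ⟨l, P, o, e⟩ := ex_ab (jM i) w
    have rn : relNorm (𝓞 (L i)) (below (jM i) P) = below (jL i) P ^ Br.dg (L i) (below (jM i) P) :=
      (rel_pr (bl (jM i) o)).trans (by rw [below_dw (C i).cL]; rfl)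
    have cm : Cm (φ₀ i) := ⟨r.one, r.mul⟩
    show _ = φ₀ i _
    rw [← e]
    by_cases u : Rm (jL i) (fun g => th 0 (ρ g)) P
    · obtain rfl : l = 3 := by
        have d := sm l (rm_mem h l P o u)
        rw [← Nat.mul_div_cancel' (sm 3 h.three), o.1.dvd_mul] at d
        exact (Nat.prime_dvd_prime_iff_eq o.1 Nat.prime_three).1 (d.resolve_right
          ((Nat.Prime.coprime_iff_not_dvd o.1).1 (c.coprime_dvd_left (l_dvd o (e ▸ m)))))
      rw [rn, cm.pow, (p₀ i).ram o (rmq _ _ _ _ (em i) (G₀ i) (k₀ i) P o u),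
        zero_pow (show Br.dg (L i) (below (jM i) P) ≠ 0 from (Br.dg_pos (bl (jM i) o)).ne')]
      obtain ⟨g, a, b, d⟩ := u
      exact hψ.ram 3 P o ⟨g, ((C i).gM g).2 ⟨gk_inert hK o (Nat.Coprime.mul_right (by norm_num)
        (cD.symm.coprime_dvd_left (sm 3 h.three))) b, a⟩, b, d⟩
    · rw [(k₀ i).norm (G₀ i) (C i).cL hψ o u, rn, cm.pow, (k₀ i).cm.pow,
        (p₀ i).eq (below (jL i) P) ((bl (jL i) o).isMaximal.out.2 _
          (left_lt_sup.2 fun b => u (((p₀ i).rm l P o).1 b)))]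

end Vale.Agent.P014Y.Ln
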