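import Vale.Agent.P014Y.Ln.St3
import Vale.Agent.P004C.Al.Ext
import Vale.Agent.P004C.Al.Icx

/-! # P014 Y, block LN, row RMQ: ramification at three of quadratic characters (helper37) -/

set_option linter.all false

noncomputable section

namespace Vale.Agent.P014Y.Ln

open NumberField IsDedekindDomain
open scoped Pointwise nonZeroDivisors Classical
open Vale.Agent.P022 Vale.Agent.P022.C Vale.Agent.P022.H916 Vale.Agent.P022K Vale.Agent.P022K.Exi
open Vale.Agent.P027M.S (Pr Inert)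
open Vale.Agent.P022D.Sel (ov)
open Vale.Agent.P022E.GW (Ov)
open Vale.Agent.P022E.GW.Kc (ex_below nat_mem prime_mem not_ov)
open Vale.Agent.P004C.Al.Xt

namespace Rq

variable {K : Type} [Field K] [NumberField K] {j : K →+* Qb} {N : ℕ} [NeZero N] {Q : Finset ℕ}
  {f : Pr K → ZMod N}

open Ideal in
/-- extension to the primes over `r` -/
theorem ext_r (j : K →+* Qb) {r m : ℕ} (hr : r.Prime) (o : ¬ r ∣ m) (h : ∀ x : 𝓞 K, (m : 𝓞 K) ∣ x - 1 →
    span {x} ⊔ span {(r : 𝓞 K)} = ⊤ → ai f (span {x}) = 0) :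
    ∃ f' : Pr K → ZMod N, Rc {r} f' ∧ ∀ v, (r : 𝓞 K) ∉ v.asIdeal → f' v = f v := by
  classical
  have c2 : IsCoprime (r : 𝓞 K) m := (hr.coprime_iff_not_dvd.2 o).cast
  have m0 : m ≠ 0 := fun e => o (e ▸ dvd_zero r)
  have co : ∀ I : Ideal (𝓞 K), I ≠ ⊥ → I ⊔ span {(m : 𝓞 K)} = ⊤ → ∃ (a : 𝓞 K) (C : Ideal (𝓞 K)),
      (m : 𝓞 K) ∣ a - 1 ∧ C ⊔ span {(r : 𝓞 K)} = ⊤ ∧ span {a} = I * C := fun I I0 hI => by
    obtain ⟨b, hb⟩ := IsDedekindDomain.exists_sup_span_eq (I := I * span {(r : 𝓞 K)}) (J := I)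
      mul_le_left (mul_ne_zero I0 (by simpa using hr.ne_zero))
    obtain ⟨y, y1, z, z1, e⟩ := Submodule.mem_sup.1 ((eq_top_iff_one _).1
      (isCoprime_iff_sup_eq.1 ((isCoprime_iff_sup_eq.2 hI).mul_left
        ((isCoprime_span_singleton_iff _ _).2 c2))))
    have bI : b ∈ I := hb.le (mem_sup_right (mem_span_singleton_self b))
    have e1 : I * span {(r : 𝓞 K)} ⊔ span {y + b * z} = I := by
      refine le_antisymm (sup_le mul_le_left ((span_singleton_le_iff_mem _).2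
        (I.add_mem (mul_le_left y1) (I.mul_mem_right _ bI)))) (hb.ge.trans (sup_le le_sup_left
          ((span_singleton_le_iff_mem _).2 ?_)))
      have := add_mem (mem_sup_left (mul_mem_left _ (b - 1) y1))
        (mem_sup_right (mem_span_singleton_self (y + b * z)))
      rwa [show (b - 1) * y + (y + b * z) = b by linear_combination b * e] at this
    obtain ⟨C, hC⟩ : I ∣ span {y + b * z} := dvd_iff_le.2 (le_sup_right.trans e1.le)
    refine ⟨y + b * z, C, ?_, ?_, hC⟩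
    · rw [show y + b * z - 1 = (b - 1) * z by linear_combination e]
      exact (mem_span_singleton.1 z1).mul_left _
    · rw [hC, ← Ideal.mul_sup] at e1
      rw [sup_comm, mul_left_cancel₀ I0 (e1.trans (mul_one I).symm), one_eq_top]
  have n0 : ∀ C : Ideal (𝓞 K), C ⊔ span {(r : 𝓞 K)} = ⊤ → C ≠ ⊥ := fun C k e => by
    rw [e, bot_sup_eq, span_singleton_eq_top] at k
    obtain ⟨P, hP⟩ := GW.Pl.ex_ov hr
    exact (H20.below_prime j hP.2.1).ne_top (eq_top_of_isUnit_mem _ (H20.l_mem_below j hP.2.2) k)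
  choose! a C h1 h2 h3 using co
  have key : ∀ I I' x, I ≠ ⊥ → I ⊔ span {(m : 𝓞 K)} = ⊤ → I' ⊔ span {(r : 𝓞 K)} = ⊤ →
      (m : 𝓞 K) ∣ x - 1 → span {x} = I * I' → ai f I' = ai f (C I) := fun I I' x I0 hI k d e => by
    have c1 : C I ⊔ span {(m : 𝓞 K)} = ⊤ := top_unique ((eq_top_iff_one _).2 (by
      obtain ⟨t, ht⟩ := h1 I I0 hI
      rw [show (1 : 𝓞 K) = a I - m * t by linear_combination -ht]
      exact sub_mem (mem_sup_left (mul_le_right ((h3 I I0 hI).le (mem_span_singleton_self _))))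
        (mem_sup_right (mul_mem_right _ _ (mem_span_singleton_self _))))).ge
    have c0 := n0 _ (h2 I I0 hI)
    have a0 : a I ≠ 0 := fun k => mul_ne_zero I0 c0 ((h3 I I0 hI).symm.trans (by simp [k]))
    have e2 : span {x * a (C I)} = span {a I} * (I' * C (C I)) := by
      rw [← span_singleton_mul_span_singleton, e, h3 I I0 hI, h3 _ c0 c1]
      ring
    obtain ⟨u, hu⟩ := span_singleton_le_span_singleton.1 (e2.le.trans mul_le_left)
    rw [hu, ← span_singleton_mul_span_singleton] at e2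
    replace e2 := mul_left_cancel₀ (by simpa using a0) e2
    have k1 := h u (by
      obtain ⟨r, hr⟩ := h1 I I0 hI
      obtain ⟨s, hs⟩ := h1 _ c0 c1
      obtain ⟨t, ht⟩ := d
      exact ⟨t * a (C I) + s - r * u, by linear_combination -hu + a (C I) * ht + hs - u * hr⟩)
      (by
        rw [e2, ← isCoprime_iff_sup_eq]
        exact (isCoprime_iff_sup_eq.2 k).mul_left (isCoprime_iff_sup_eq.2 (h2 _ c0 c1)))
    have k2 := h _ (h1 _ c0 c1) (by
      rw [h3 _ c0 c1, ← isCoprime_iff_sup_eq]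
      exact (isCoprime_iff_sup_eq.2 (h2 I I0 hI)).mul_left (isCoprime_iff_sup_eq.2 (h2 _ c0 c1)))
    rw [e2, ai_mul (n0 _ k) (n0 _ (h2 _ c0 c1))] at k1
    rw [h3 _ c0 c1, ai_mul c0 (n0 _ (h2 _ c0 c1))] at k2
    exact add_right_cancel (k1.trans k2.symm)
  have ad : ∀ I I', I ≠ ⊥ → I' ≠ ⊥ → I ⊔ span {(m : 𝓞 K)} = ⊤ → I' ⊔ span {(m : 𝓞 K)} = ⊤ →
      -ai f (C (I * I')) = -ai f (C I) + -ai f (C I') := fun I I' a0 b0 a1 b1 => by
    rw [← neg_add, ← ai_mul (n0 _ (h2 I a0 a1)) (n0 _ (h2 I' b0 b1))]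
    refine congrArg _ (key _ _ (a I * a I') (mul_ne_zero a0 b0) (isCoprime_iff_sup_eq.1
      ((isCoprime_iff_sup_eq.2 a1).mul_left (isCoprime_iff_sup_eq.2 b1))) (isCoprime_iff_sup_eq.1
      ((isCoprime_iff_sup_eq.2 (h2 I a0 a1)).mul_left (isCoprime_iff_sup_eq.2 (h2 I' b0 b1))))
      ?_ ?_).symm
    · rw [show a I * a I' - 1 = (a I - 1) * a I' + (a I' - 1) by ring]
      exact dvd_add ((h1 I a0 a1).mul_right _) (h1 I' b0 b1)
    · rw [← span_singleton_mul_span_singleton, h3 I a0 a1, h3 I' b0 b1, mul_mul_mul_comm]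
  refine ⟨fun v => if (m : 𝓞 K) ∈ v.asIdeal then f v else -ai f (C v.asIdeal), ⟨m, m0,
    fun l hl d k => ?_, fun x y e d => ?_⟩, fun v hv => ?_⟩
  · exact o (Finset.mem_singleton.1 k ▸ d)
  · have y0 : span {y} ≠ ⊥ := fun k => x.ne_zero (by rw [e, span_singleton_eq_bot.1 k]; rfl)
    have y1 : span {y} ⊔ span {(m : 𝓞 K)} = ⊤ := by
      obtain ⟨r, hr⟩ := d
      exact (sup_eq_top_iff_isCoprime _ _).2 ⟨1, -r, by linear_combination hr⟩
    refine (ai_span e).trans ((ai_eq (ψ := fun I => -ai f (C I)) ad (fun v k => if_neg fun c =>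
      v.isPrime.ne_top (top_unique (k ▸ sup_le le_rfl ((span_singleton_le_iff_mem _).2 c))))
      _ y0 y1).trans ?_)
    rw [← key _ ⊤ y y0 y1 (top_sup_eq _) d (mul_top _).symm, ai_top, neg_zero]
    rfl
  · show ite _ _ _ = _
    split_ifs with k
    · rfl
    · have c : ∀ y : 𝓞 K, y ∉ v.asIdeal → v.asIdeal ⊔ span {y} = ⊤ := fun y k =>
        v.isMaximal.out.2 _ (left_lt_sup.2 (mt (span_singleton_le_iff_mem _).1 k))
      have := h _ (h1 _ v.ne_bot (c _ k)) (by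
        rw [h3 _ v.ne_bot (c _ k), ← isCoprime_iff_sup_eq]
        exact (isCoprime_iff_sup_eq.2 (c _ hv)).mul_left
          (isCoprime_iff_sup_eq.2 (h2 _ v.ne_bot (c _ k))))
      rw [h3 _ v.ne_bot (c _ k), ai_mul v.ne_bot (n0 _ (h2 _ v.ne_bot (c _ k))), ai_pr] at this
      exact neg_eq_of_add_eq_zero_left this

theorem ai_add (f f' : Pr K → ZMod N) (I : Ideal (𝓞 K)) : ai (f + f') I = ai f I + ai f' I := by
  have k : ∀ f : Pr K → ZMod N, Function.HasFiniteSupport fun v =>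
      FractionalIdeal.count K v (I : FractionalIdeal (𝓞 K)⁰ K) • f v := fun f =>
    (Filter.eventually_cofinite.1 (FractionalIdeal.finite_factors (K := K) I)).subset
      fun v hv e => hv (by simp only [e, zero_smul])
  simp only [ai, Pi.add_apply, smul_add]
  exact finsum_add_distrib (k f) (k f')

/-- the values at the Frobenius elements -/
abbrev fv (θ : GK j →* Multiplicative (ZMod N)) (v : Pr K) : ZMod N := (θ (fr j v)).toAdd

theorem ai_sy (θ : GK j →* Multiplicative (ZMod N)) {x : 𝓞 K} (h : x ≠ 0) :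
    ai (fv θ) (Ideal.span {x}) = (PB.sy θ (fr j) x).toAdd := by
  rw [← ai_span (x := Units.mk0 (x : K) (by exact_mod_cast h)) rfl, PB.sy, finprod_def']
  change finsum _ = _
  rw [finsum_def']
  rfl

variable [IsEmpty (K →+* ℝ)] {θ : GK j →* Multiplicative (ZMod 2)} (ho : IsOpen {g | θ g = 1})

theorem m1 : IsPrimitiveRoot (-1 : Qb) 2 := .neg_one 0 (by decide)

omit [NumberField K] [IsEmpty (K →+* ℝ)] in
theorem fx (g : GK j) : g.1 (-1) = -1 := by rw [map_neg, map_one]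

include ho

theorem eq_ka (hQ : 2 ∉ Q) {f : Pr K → ZMod 2} (hf : Rc Q f) (h : Al ∅ fun v => fv θ v = f v) :
    ∃ b, θ = ka m1 fx b ∧ Al Q (Un θ) := by
  obtain ⟨b, hb⟩ := kum (j := j) m1 fx (fun l hl d k => hQ ((Nat.prime_dvd_prime_iff_eq hl
    Nat.prime_two).1 (hl.dvd_of_dvd_pow (n := 2) d) ▸ k)) hf
  obtain rfl : θ = ka m1 fx b := MonoidHom.ext fun g => div_eq_one.1 (triv (θ := θ / ka m1 fx b)
    (Subgroup.isOpen_mono (H₁ := θ.ker ⊓ (ka m1 fx b).ker) (H₂ := (θ / ka m1 fx b).ker)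
      (fun g a => by simp [show θ g = 1 from a.1, show ka m1 fx b g = 1 from a.2])
      (ho.inter (ka_open m1 fx b))) ((hb.weak.and h).mono fun w a =>
        div_eq_one.2 (Multiplicative.toAdd.injective (a.2.trans a.1.2.symm))) g)
  exact ⟨b, rfl, hb.mono fun _ a => a.1⟩

theorem law {B : Finset ℕ} (hB : ∀ w ∉ ov K B, Un θ w) {x : 𝓞 K} (x0 : x ≠ 0)
    (d : ((4 * ∏ l ∈ B.erase 3, l : ℕ) : 𝓞 K) ∣ x - 1)
    (h : ∀ w : Pr K, 3 ∈ w.asIdeal → Un θ w ∨ x - 1 ∈ w.asIdeal) :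
    ai (fv θ) (Ideal.span {x}) = 0 := by
  obtain ⟨y, e⟩ := d
  rw [Nat.cast_mul, mul_assoc, Nat.cast_ofNat] at e
  rw [ai_sy θ x0, P004C.Al.Rc.pwf ho fr_spec two_pos (fun _ => pow_self _) (by exact_mod_cast x0) fun w =>
    or_iff_not_imp_left.2 fun u => ?_, toAdd_one]
  have m : (∏ l ∈ B.erase 3, l : ℕ) * y ∈ w.asIdeal := by
    obtain ⟨l, a, -, b⟩ := not_not.1 (mt (hB w) u)
    by_cases c : l = 3
    · have b : 3 ∈ w.asIdeal := by simpa [c] using b
      have := w.asIdeal.sub_mem ((h w b).resolve_left u)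
        (w.asIdeal.mul_mem_right ((∏ l ∈ B.erase 3, l : ℕ) * y) b)
      rwa [e, ← sub_mul, show (4 : 𝓞 K) - 3 = 1 by norm_num, one_mul] at this
    · exact w.asIdeal.mul_mem_right _ (w.asIdeal.mem_of_dvd (Nat.cast_dvd_cast
        (Finset.dvd_prod_of_mem _ (Finset.mem_erase.2 ⟨c, a⟩))) b)
  generalize (∏ l ∈ B.erase 3, l : ℕ) * y = z at e m
  rw [show (x : K) - 1 = ((2 : ℕ) : K) ^ 2 * algebraMap _ K z by
    have := congrArg (algebraMap _ K) e
    rw [map_sub, map_one, map_mul, map_ofNat] at this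
    exact this.trans (by norm_num), map_mul]
  exact mul_lt_of_lt_one_right (zero_lt_iff.2 (by simp)) ((w.valuation_lt_one_iff_mem z).2 m)

omit ho [IsEmpty (K →+* ℝ)] in
theorem fin3 : {w : Pr K | 3 ∈ w.asIdeal}.Finite := (Ideal.finite_factors (I := Ideal.span {3})
  (by simp)).subset fun w k => Ideal.dvd_span_singleton.2 k

omit ho [IsEmpty (K →+* ℝ)] in
theorem ex_s {v : Pr K} (h3 : 3 ∈ v.asIdeal) {g : Ideal (𝓞 K)} (hg : g ⊔ v.asIdeal = ⊤) {m : ℕ}
    (m3 : ¬ 3 ∣ m) : ∃ s ∈ g, s ∉ v.asIdeal ∧ (m : 𝓞 K) ∣ s ∧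
      ∀ w : Pr K, 3 ∈ w.asIdeal → w ≠ v → s ∈ w.asIdeal := by
  have mv : (m : 𝓞 K) ∉ v.asIdeal := fun k => by
    obtain ⟨p, q, e⟩ := (Nat.prime_three.coprime_iff_not_dvd.2 m3).cast (R := 𝓞 K)
    exact v.isPrime.one_notMem (e ▸ add_mem (Ideal.mul_mem_left _ _ (by simpa using h3))
      (Ideal.mul_mem_left _ _ k))
  obtain ⟨s, s1, s2⟩ := SetLike.not_le_iff_exists.1 fun k : g ≤ v.asIdeal =>
    v.isPrime.ne_top ((sup_eq_right.2 k).symm.trans hg)
  choose! t t1 t2 using fun (w : Pr K) (a : w ≠ v) => SetLike.not_le_iff_exists.1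
    fun k : w.asIdeal ≤ v.asIdeal =>
      a (HeightOneSpectrum.ext (w.isMaximal.eq_of_le v.isPrime.ne_top k))
  refine ⟨s * m * ∏ w ∈ fin3.toFinset.erase v, t w, g.mul_mem_right _ (g.mul_mem_right _ s1),
    fun k => ?_, ((dvd_mul_left _ _).mul_right _), fun w a d => w.asIdeal.mem_of_dvd
      ((Finset.dvd_prod_of_mem t (Finset.mem_erase.2 ⟨d, fin3.mem_toFinset.2 a⟩)).mul_left _) (t1 w d)⟩
  have := v.isPrime
  refine (this.mem_or_mem k).elim (fun k => (this.mem_or_mem k).elim s2 mv) fun k => ?_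
  obtain ⟨w, a, k⟩ := Ideal.IsPrime.prod_mem_iff.1 k
  exact t2 w (Finset.ne_of_mem_erase a) k

theorem mid {η : GK j →* Multiplicative (ZMod 2)} (ho' : IsOpen {g | η g = 1}) {v : Pr K}
    (h3 : 3 ∈ v.asIdeal) {g : Ideal (𝓞 K)} (hg : g ⊔ v.asIdeal = ⊤) (u1 : Un η v)
    (u2 : ∀ w : Pr K, 3 ∈ w.asIdeal → w ≠ v → Un θ w)
    (H : ∀ z : 𝓞 K, z - 1 ∈ g → z ∉ v.asIdeal → (∀ w : Pr K, z ∈ w.asIdeal → Un θ w ∧ Un η w) →
      ai (fv θ + fv η) (Ideal.span {z}) = 0) : Un θ v := by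
  obtain ⟨A, hA, uA⟩ := (al_un ho).and (al_un ho')
  have m3 : ¬ 3 ∣ 4 * ∏ l ∈ A.erase 3, l := fun d =>
    (Nat.prime_three.dvd_mul.1 d).elim (by decide) fun d => by
      obtain ⟨l, a, d⟩ := (Nat.prime_three.prime.dvd_finsetProd_iff _).1 d
      rw [Finset.mem_erase] at a
      exact a.1 ((Nat.prime_dvd_prime_iff_eq Nat.prime_three (hA l a.2).1).1 d).symm
  obtain ⟨s, s1, s2, sm, sw⟩ := ex_s h3 hg m3
  obtain ⟨f, f1, f2⟩ := ext_r j (f := fv θ) Nat.prime_three m3 fun x d e => by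
    have xv : x ∉ v.asIdeal := fun k => v.isPrime.ne_top (top_unique (e ▸ sup_le
      ((Ideal.span_singleton_le_iff_mem _).2 k) ((Ideal.span_singleton_le_iff_mem _).2
        (by simpa using h3))))
    obtain ⟨a, p, hp, e⟩ := v.isMaximal.exists_inv fun k => (v.isPrime.mem_or_mem k).elim xv s2
    obtain ⟨z, hz⟩ : ∃ z, z - 1 = s * (a * (1 - x)) := ⟨_, add_sub_cancel_right _ 1⟩
    have k : x * z - 1 ∈ v.asIdeal := by
      rw [show x * z - 1 = (x - 1) * p by linear_combination x * hz + (1 - x) * e]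
      exact Ideal.mul_mem_left _ _ hp
    have on : ∀ w : Pr K, z - 1 ∈ w.asIdeal → z ∉ w.asIdeal := fun w a k =>
      w.isPrime.one_notMem (by simpa using sub_mem k a)
    have zv : z ∉ v.asIdeal := fun a =>
      v.isPrime.one_notMem (by simpa using sub_mem (v.asIdeal.mul_mem_left x a) k)
    have x0 : x ≠ 0 := fun e => xv (e ▸ zero_mem _)
    have z0 : z ≠ 0 := fun e => zv (e ▸ zero_mem _)
    have zm := hz.symm ▸ sm.mul_right (a * (1 - x))
    have zw : ∀ w : Pr K, 3 ∈ w.asIdeal → w ≠ v → z - 1 ∈ w.asIdeal := fun w a d =>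
      hz ▸ Ideal.mul_mem_right _ _ (sw w a d)
    have e1 := H z (hz ▸ Ideal.mul_mem_right _ _ s1) zv
      fun w k => uA w fun ⟨l, a, _, t⟩ => on w (by
        by_cases c : l = 3
        · exact zw w (by simpa [c] using t) fun e => zv (e ▸ k)
        · exact w.asIdeal.mem_of_dvd ((Nat.cast_dvd_cast ((Finset.dvd_prod_of_mem _
            (Finset.mem_erase.2 ⟨c, a⟩)).mul_left 4)).trans zm) t) k
    have e2 := law ho' (fun w a => (uA w a).2) z0 zm fun w a =>
      (em (w = v)).imp (fun e : w = v => e ▸ u1) (zw w a)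
    have e3 := law ho (fun w a => (uA w a).1) (mul_ne_zero x0 z0) (by
        rw [show x * z - 1 = (x - 1) * z + (z - 1) by ring]; exact dvd_add (d.mul_right _) zm)
      fun w a => (em (w = v)).symm.imp (u2 w a) fun e : w = v => e ▸ k
    rw [ai_add, e2, add_zero] at e1
    rwa [← Ideal.span_singleton_mul_span_singleton, ai_mul (by simpa) (by simpa), e1, add_zero] at e3
  obtain ⟨-, -, C, hC, uC⟩ := eq_ka ho (Q := {3}) (by decide) f1
    ⟨{3}, by simp [Nat.prime_three], fun w k => (f2 w fun c =>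
      k ⟨3, Finset.mem_singleton_self 3, three_ne_zero, c⟩).symm⟩
  exact uC v (not_ov (fun l h => Or.inr (hC l h).1) Nat.prime_three
    (fun k => (hC 3 k).2 (Finset.mem_singleton_self 3)) (by simpa using h3))

theorem core {v : Pr K} (h3 : 3 ∈ v.asIdeal) (r : ¬ Un θ v) {g : Ideal (𝓞 K)}
    (hg : g ⊔ v.asIdeal = ⊤) : ∃ z : 𝓞 K, z - 1 ∈ g ∧ z ∉ v.asIdeal ∧
      (∀ w : Pr K, z ∈ w.asIdeal → Un θ w) ∧ ai (fv θ) (Ideal.span {z}) ≠ 0 := by
  by_contra! H
  obtain ⟨b, e, -⟩ := eq_ka ho (Q := ∅) (by simp) (rc_fr ho (al_un ho)) ⟨∅, by simp⟩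
  obtain ⟨c, hc⟩ := ex_ord fin3.toFinset fun w => if w = v then 0 else (od w b).toAdd
  have un : ∀ {u : Kˣ} {w : Pr K}, 3 ∈ w.asIdeal → od w u = 1 → Un (ka (j := j) m1 fx u) w :=
    fun k a P p e g i => ka_unr m1 fx ⟨Nat.prime_three, p, (nat_mem j e 3).1 (by simpa using k)⟩
      (by decide) e a i
  have u1 := un h3 ((hc v (fin3.mem_toFinset.2 h3)).trans (by simp))
  have sp : θ = ka m1 fx (b / c) * ka m1 fx c := by rw [← map_mul, div_mul_cancel, e]
  have pr w (a : Un (ka (j := j) m1 fx (b / c)) w) (a' : Un (ka (j := j) m1 fx c) w) : Un θ w :=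
    fun P p e g i => by rw [sp, MonoidHom.mul_apply, a P p e g i, a' P p e g i, mul_one]
  refine r (pr v (mid (ka_open m1 fx _) (ka_open m1 fx c) h3 hg u1 (fun w a e => un a (by
    rw [map_div, hc w (fin3.mem_toFinset.2 a), if_neg e]; exact div_self' _)) fun z a d k => ?_) u1)
  have := H z a d fun w m => pr w (k w m).1 (k w m).2
  rw [sp] at this
  exact this

omit ho

/-- the sign -/
def sn : Multiplicative (ZMod 2) →* ℂˣ := (Units.map (Int.castRingHom ℂ).toMonoidHom).comp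
  (MonoidHom.mk' (fun a => if a = 1 then 1 else -1) (by decide))

theorem sn_ne {a : Multiplicative (ZMod 2)} (h : a ≠ 1) : (sn a : ℂ) = -1 := by simp [sn, h]

theorem sn_inj : Function.Injective sn := (injective_iff_map_eq_one _).2 fun a e => by_contra
  fun h => by have := sn_ne h; rw [e] at this; norm_num at this

end Rq

open Rq P004C.Al in
/-- **row RMQ** -/
theorem rmq : RMQ := by
  intro L _ _ j θ χ _ G k P o r g hg
  have e (x : GK j) : sn (if θ x = 1 then 1 else .ofAdd 1) = G.hom x := Units.ext (by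
    split_ifs with h
    · rw [map_one, G.coe, h]; rfl
    · exact (sn_ne (by decide)).trans ((sq_eq_one_iff.1 (G.pow x x.2)).resolve_left h).symm)
  let φ : GK j →* Multiplicative (ZMod 2) := .mk' (fun x => if θ x = 1 then 1 else .ofAdd 1)
    fun x y => sn_inj (by rw [map_mul, e, e, e, map_mul])
  have t (x : GK j) : φ x = 1 ↔ G.hom x = 1 := by rw [← e, map_eq_one_iff _ sn_inj]; rfl
  have u (w : Pr L) : Un φ w ↔ PB.Un G.hom w := forall₅_congr fun _ _ _ _ _ => t _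
  obtain ⟨z, a, b, c, d⟩ := core (θ := φ) (by simp only [t]; exact G.hopn) (v := Rc.bl j o)
    (H20.l_mem_below j o.2.2) (fun h => (G.un_iff o.2.1 rfl).1 ((u _).1 h) r) hg
  have z0 : z ≠ 0 := fun e => b (e ▸ zero_mem _)
  refine ⟨z, a, b, ?_⟩
  rw [G.ic_eq fr_spec k, Rc.ic_ip (by simpa) fun w m => (u w).1 (c w
    ((Ideal.span_singleton_le_iff_mem _).1 m)), Rc.ip_span _ z0]
  rw [ai_sy φ z0] at d
  refine Eq.trans (congrArg Units.val ?_) (sn_ne d)
  exact (congrArg (PB.pw · _) (funext fun w => (e _).symm)).trans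
    (PB.map_pw sn _ (by exact_mod_cast z0)).symm

end Vale.Agent.P014Y.Ln
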