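import Vale.Agent.P014Y.Ln.All0
import Vale.Agent.P014Y.Ln.Dlv
import Vale.Agent.P014Y.Ln.Rmq

/-! # P014 Y, block LN: the exports from the forms of weight one -/

namespace Vale.Agent.P014Y.Ln

theorem anb_w (w : W1.W1X) : ANB := anb_of (dlv w Tp.fap rmq)

end Vale.Agent.P014Y.Ln
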