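import Vale.Agent.P014Y.Tp.St
import Vale.Agent.P014Y.Fe.St
import Vale.Agent.P014Y.Ln.Frb
import Vale.Agent.P014Y.Ln.Cfc
import Vale.Agent.P014Y.Ln.Bex

/-!
# P014 Y, block LN: the congruences of coefficients and the end of the argument
-/

set_option autoImplicit false
set_option linter.all false

open NumberField UpperHalfPlane
open scoped Classical ComplexConjugate NumberTheorySymbols

noncomputable section

namespace Vale.Agent.P014Y.Ln.Lk

open Vale.Agent.P022 (Qb GQ)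
open Vale.Agent.P022E.GW (Ov Fb)
open P004F.Qx (Cq)
open P004C.Ln (Hm)
open P014Y.F (Crv)
open P014Y.Fe (Eg)
open P014Y.Tp (G3 Tr tw ts)

variable {V : AbsoluteValue ℂ ℝ}

theorem three_lt (hV : V3 V) : V 3 < 1 := hV.2.trans_lt (by norm_num)

/-- the square root of `-2` which is congruent to one -/
theorem ex_s (hV : V3 V) : ∃ s : ℂ, s ^ 2 = -2 ∧ V (s - 1) ≤ 1 / 3 := by
  obtain ⟨s, hs⟩ := IsAlgClosed.exists_pow_nat_eq (-2 : ℂ) two_pos
  have p : V (s - 1) * V (-s - 1) = 1 / 3 := by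
    rw [← map_mul, show (s - 1) * (-s - 1) = 3 by linear_combination -hs, hV.2]
  by_cases h : V (s - 1) < 1
  · refine ⟨s, hs, ?_⟩
    have : V (-s - 1) = 1 := Bx.one_of hV.1 (by
      rw [show -s - 1 - 1 = -(s - 1) - 3 by ring]
      exact (Bx.sub_le hV.1 _ _).trans_lt (max_lt (by rwa [V.map_neg]) (three_lt hV)))
    rw [← p, this, mul_one]
  · refine ⟨-s, by rw [neg_sq, hs], ?_⟩
    rw [← p]
    exact le_mul_of_one_le_left (V.nonneg _) (not_lt.1 h)

theorem cj_s {s : ℂ} (h : s ^ 2 = -2) : conj s = -s := by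
  have a := congrArg Complex.re h
  have b := congrArg Complex.im h
  simp [sq] at a b
  have : s.re = 0 := by
    by_contra z
    have : s.im = 0 := by
      have : s.re * s.im = 0 := by linarith
      exact (mul_eq_zero.1 this).resolve_left z
    nlinarith [sq_nonneg s.re]
  exact Complex.ext (by simp [this]) (by simp)

/-- roots of unity of order a power of three -/
theorem rt_lt (hV : V3 V) {n : ℕ} {z : ℂ} (h : z ^ 3 ^ n = 1) : V (z - 1) < 1 := by
  induction n generalizing z with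
  | zero => simp [show z = 1 by simpa using h]
  | succ n ih =>
    have a := ih (z := z ^ 3) (by rw [← pow_mul, ← pow_succ', h])
    have b : V z = 1 := (pow_eq_one_iff_of_nonneg (V.nonneg _) (n := 3) (by norm_num)).1
      (by rw [← map_pow, Bx.one_of hV.1 a])
    refine lt_of_pow_lt_pow_left₀ 3 zero_le_one ?_
    rw [one_pow, ← map_pow, show (z - 1) ^ 3 = (z ^ 3 - 1 - 3 * (z * z)) - -(3 * z) by ring]
    refine (Bx.sub_le hV.1 _ _).trans_lt (max_lt ((Bx.sub_le hV.1 _ _).trans_lt (max_lt a ?_)) ?_)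
    · simpa [b] using three_lt hV
    · simpa [b] using three_lt hV

theorem key (hV : V3 V) {c : ℂ} {d t u : ℤ} (h : V (c - d) ≤ 1 / 3)
    (k : ((d * t - u : ℤ) : ZMod 3) = 0) : V (c * t - u) ≤ 1 / 3 := by
  rw [show c * t - u = (c - d) * t + (d * t - u : ℤ) by push_cast; ring]
  exact Cfc.add_le hV (Cfc.mul_le h (Cfc.int_le hV _))
    (Cfc.three_le hV ((ZMod.intCast_zmod_eq_zero_iff_dvd _ 3).1 k))

theorem jl {l : ℕ} (o : ¬ 3 ∣ l) : ((J(l | 3) : ℤ) : ZMod 3) * l = 1 := by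
  have := (ZMod.intCast_zmod_eq_zero_iff_dvd _ 3).2 (Cfc.jac_dvd o)
  push_cast at this
  exact sub_eq_zero.1 this

theorem two (hV : V3 V) : V (-2 - 1) ≤ 1 / 3 := by
  rw [show (-2 - 1 : ℂ) = -3 by norm_num, V.map_neg, hV.2]

/-- the lift against the twisted representation -/
theorem ts1 (hV : V3 V) {s : ℂ} (s1 : V (s - 1) ≤ 1 / 3) {g : G3} {l : ℕ} (o : ¬ 3 ∣ l)
    (d : g.det = l) {a : ℤ} (h : (a : ZMod 3) = (g.det • g).trace) :
    V (ts s g - J(l | 3) * a) ≤ 1 / 3 := by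
  have := key hV (c := if g.det = 1 then if g = 1 ∨ g = -1 then -2 else 1 else s) (d := 1)
    (t := g.trace.valMinAbs) (u := J(l | 3) * a) (by
      split_ifs
      · simpa using two hV
      · simp
      · simpa using s1) (by
      push_cast
      rw [h, Matrix.trace_smul, smul_eq_mul, d, ← mul_assoc, jl o, sub_self])
  rwa [Int.cast_mul] at this

/-- the conjugate lift against the representation -/
theorem ts2 (hV : V3 V) {s : ℂ} (s2 : s ^ 2 = -2) (s1 : V (s - 1) ≤ 1 / 3) {g : G3} {l : ℕ}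
    (o : ¬ 3 ∣ l) (d : g.det = l) {a : ℤ} (h : (a : ZMod 3) = g.trace) :
    V (conj (ts s g) - J(l | 3) * a) ≤ 1 / 3 := by
  have := key hV (c := if g.det = 1 then if g = 1 ∨ g = -1 then -2 else 1 else -s)
    (d := if g.det = 1 then 1 else -1) (t := g.trace.valMinAbs) (u := J(l | 3) * a) (by
      split_ifs
      · simpa using two hV
      · simp
      · rw [show -s - ((-1 : ℤ) : ℂ) = -(s - 1) by push_cast; ring, V.map_neg]
        exact s1) (by
      have e := jl o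
      push_cast
      rw [h, d]
      exact (by decide : ∀ x y z : ZMod 3, x * y = 1 →
        (if y = 1 then 1 else -1) * z - x * z = 0) _ _ _ e)
  rw [Int.cast_mul] at this
  convert this using 3
  rw [ts, map_mul, map_intCast]
  congr 1
  split_ifs
  · simp [map_ofNat]
  · simp
  · exact cj_s s2

section

variable {S : List ℕ} {ρ : GQ → G3} {s : ℂ} {A : ℕ → ℂ} {a : ℕ → ℤ}

theorem ex_fb {l : ℕ} (hl : l.Prime) : ∃ P g, Ov l P ∧ Fb l P g := by
  obtain ⟨P, h⟩ := P022.H916.exists_prime hl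
  obtain ⟨g, k⟩ := P022D.W.exists_phi hl h.1 h.2
  exact ⟨P, g, ⟨hl, h⟩, k⟩

theorem n3 (h3 : 3 ∈ S) {p : ℕ} (hp : p.Prime) (n : p ∉ S) : ¬ 3 ∣ p := fun d =>
  n ((Nat.prime_dvd_prime_iff_eq Nat.prime_three hp).1 d ▸ h3)

/-- the form belongs to the twisted curve -/
theorem tr1 (hV : V3 V) (s1 : V (s - 1) ≤ 1 / 3) (h3 : 3 ∈ S)
    (fr : ∀ l P g, Ov l P → l ∉ S.toFinset → Fb l P g → A l = ts s (ρ g) ∧ (ρ g).det = l)
    (t : Tr a S (tw ρ)) (p : ℕ) (hp : p.Prime) (n : p ∉ S) :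
    V (A p - J(p | 3) * a p) ≤ 1 / 3 := by
  obtain ⟨P, g, o, f⟩ := ex_fb hp
  obtain ⟨x, y⟩ := fr p P g o (by simpa using n) f
  exact x ▸ ts1 hV s1 (n3 h3 hp n) y (t p P g o n f)

/-- the conjugate form belongs to the curve -/
theorem tr2 (hV : V3 V) (s2 : s ^ 2 = -2) (s1 : V (s - 1) ≤ 1 / 3) (h3 : 3 ∈ S)
    (fr : ∀ l P g, Ov l P → l ∉ S.toFinset → Fb l P g → A l = ts s (ρ g) ∧ (ρ g).det = l)
    (t : Tr a S ρ) (p : ℕ) (hp : p.Prime) (n : p ∉ S) :
    V (conj (A p) - J(p | 3) * a p) ≤ 1 / 3 := by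
  obtain ⟨P, g, o, f⟩ := ex_fb hp
  obtain ⟨x, y⟩ := fr p P g o (by simpa using n) f
  exact x ▸ ts2 hV s2 s1 (n3 h3 hp n) y (t p P g o n f)

end

variable {m : ℕ} {G : ℍ → ℂ} {A B : ℕ → ℂ}

/-- the Hecke relations -/
theorem hm {ε : ℤ → ℂ} (eg : Eg m ε G A B) (m1 : m ≠ 1) {R : ℕ}
    (r : ∀ p : ℕ, p.Prime → p ∣ m → p ∣ R) : Hm R (fun p => ε p) A where
  one := eg.one
  mul a b c := by
    by_cases k : (a * b).Coprime m
    · exact Fb.a_mul eg.chr.one eg.qe eg.hk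
        (fun z => m1 (by simpa [z] using k)) k.coprime_mul_left c.symm
    · rw [eg.dep _ k]
      rw [Nat.coprime_mul_iff_left, not_and_or] at k
      rcases k with k | k <;> simp [eg.dep _ k]
  pow p k hp n := by
    have := Fb.hk_co eg.qe hp (eg.hk p (hp.coprime_iff_not_dvd.2 (mt (r p hp) n))) eg.chr.one
      (p ^ (k + 1))
    rw [if_pos (dvd_pow_self p k.succ_ne_zero), pow_succ p k, Nat.mul_div_cancel _ hp.pos,
      ← pow_succ, ← pow_succ'] at this
    exact eq_sub_of_add_eq this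

/-- **the hypothesis of `SML`** -/
theorem lk (cfc : CFC) (hV : V3 V) {e e₂ : Crv}
    (lvx : ∀ p : ℕ, p.Prime → (p ∣ e.S.prod ↔ p ∈ e.S)) (hS : e₂.S = e.S) (eg : Eg m (e3 m) G A B)
    (pm : ∀ p : ℕ, p.Prime → (p ∣ m ↔ p ∈ e.S))
    (tr : ∀ p : ℕ, p.Prime → p ∉ e.S → V (A p - J(p | 3) * e₂.a p) ≤ 1 / 3) (s)
    (hs : Cq 3 (P004F.Qx.dp e.S.prod e₂.a) s) (i : ℕ) : V (s.coeff i - A i) ≤ 1 / 3 := by
  have h3 : 3 ∈ e.S := e.pm
  have m1 : m ≠ 1 := fun z => by simpa [z] using (pm 3 Nat.prime_three).2 h3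
  have := cfc V hV e₂.N e.S.prod e₂.a (fun p => e3 m p) A (1 / 3) s e₂.rn.one e₂.rn.te
    (List.dvd_prod h3) (fun p hp n => ?_) le_rfl (by norm_num)
    (hm eg m1 fun p hp d => List.dvd_prod ((pm p hp).1 d)) hs i
  · split_ifs at this with c
    · exact this
    · rwa [eg.dep i fun k => c (Nat.coprime_of_dvd fun p hp a b => hp.ne_one
        (Nat.eq_one_of_dvd_coprimes k a ((pm p hp).2 ((lvx p hp).1 b))))]
  · have n' : p ∉ e.S := mt List.dvd_prod n
    refine ⟨(e₂.bad p hp (hS ▸ n')).1, tr p hp n', ?_⟩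
    rw [e3, if_pos (Nat.isCoprime_iff_coprime.2 (hp.coprime_iff_not_dvd.2 (mt (pm p hp).1 n')))]
    simp

/-- **the end of the argument** -/
theorem fin_l {p q : ℕ → Prop} {x y δ : ℝ} (x0 : 0 ≤ x) (x1 : x < 1) (d0 : 0 < δ) (d1 : δ ≤ 1)
    (dy : δ < y) (h : ∀ l l', (∀ i < l, ¬ p i) → (∀ i < l', ¬ q i) →
      y ≤ (max δ (x ^ l) * max δ (x ^ l')) ^ 4) : ∃ l l', p l ∧ q l' ∧ y ≤ x ^ (4 * (l + l')) := by
  have m0 : ∀ l, 0 ≤ max δ (x ^ l) := fun l => le_max_of_le_left d0.le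
  have m1 : ∀ l, max δ (x ^ l) ≤ 1 := fun l => max_le d1 (pow_le_one₀ x0 x1.le)
  have k : ∀ l l', y ≤ (max δ (x ^ l) * max δ (x ^ l')) ^ 4 → δ < x ^ l ∧ δ < x ^ l' := by
    intro l l' u
    have a : y ≤ max δ (x ^ l) * max δ (x ^ l') := u.trans (pow_le_of_le_one
      (mul_nonneg (m0 l) (m0 l')) (mul_le_one₀ (m1 l) (m0 l') (m1 l')) (by norm_num))
    exact ⟨(lt_max_iff.1 (dy.trans_le (a.trans (mul_le_of_le_one_right (m0 l) (m1 l'))))).resolve_left
      (lt_irrefl _), (lt_max_iff.1 (dy.trans_le (a.trans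
        (mul_le_of_le_one_left (m0 l') (m1 l))))).resolve_left (lt_irrefl _)⟩
  obtain ⟨n, hn⟩ := exists_pow_lt_of_lt_one d0 x1
  have ep : ∃ l, p l := by_contra fun z =>
    hn.not_gt (k n 0 (h n 0 (fun i _ u => z ⟨i, u⟩) (by simp))).1
  have eq : ∃ l, q l := by_contra fun z =>
    hn.not_gt (k 0 n (h 0 n (by simp) fun i _ u => z ⟨i, u⟩)).2
  have u := h _ _ (fun i => Nat.find_min ep) fun i => Nat.find_min eq
  obtain ⟨a, b⟩ := k _ _ u
  refine ⟨_, _, Nat.find_spec ep, Nat.find_spec eq, ?_⟩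
  rwa [max_eq_right a.le, max_eq_right b.le, ← pow_add, ← pow_mul, mul_comm] at u

end Vale.Agent.P014Y.Ln.Lk
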