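import Vale.Agent.P014Y.Ln.An2
import Vale.Agent.P014Y.Ln.St4

/-!
# P014 Y, block LN: the export
-/

set_option autoImplicit false
set_option linter.all false

open NumberField Module Ideal UpperHalfPlane
open scoped Classical ComplexConjugate NumberTheorySymbols Real

noncomputable section

namespace Vale.Agent.P014Y.Ln

open P004K (Cop)
open P004C.Ln (Jc Dp)
open P014Y.C (Base Av sc dv)
open P014Y.F (Crv Fld)
open P014Y.Fe (cj)

namespace An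

theorem cop_norm {M : Type} [Field M] [NumberField M] {I : Ideal (𝓞 M)} {t : ℕ}
    (h : I ⊔ span {(t : 𝓞 M)} = ⊤) : (absNorm I).Coprime t := by
  refine Nat.coprime_of_dvd fun p hp h1 h2 => ?_
  obtain ⟨P, hP, e, d⟩ := exists_isMaximal_dvd_of_dvd_absNorm' hp I h1
  refine hP.ne_top (top_unique (h.ge.trans (sup_le (dvd_iff_le.1 d) ?_)))
  have : (t : ℤ) ∈ P.under ℤ := e ▸ mem_span_singleton.2 (by exact_mod_cast h2)
  rw [span_singleton_le_iff_mem]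
  simpa using mem_comap.1 this

theorem ex_root {a : ℝ} (a0 : 0 ≤ a) (a1 : a < 1) {N : ℕ} (N0 : N ≠ 0) :
    ∃ δ < 1, ∀ v, δ < v → 0 < v ∧ a < v ^ N := by
  have e := Real.rpow_inv_natCast_pow a0 N0
  have p := Real.rpow_nonneg a0 (N : ℝ)⁻¹
  exact ⟨_, (pow_lt_one_iff_of_nonneg p N0).1 (e.trans_lt a1), fun v h =>
    ⟨p.trans_lt h, e ▸ pow_lt_pow_left₀ h p N0⟩⟩

theorem last {κ : Type} [Fintype κ] {x x' a a' Ω : ℝ} {n : κ → ℕ} {y : κ → ℝ} (o : 0 < Ω)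
    (y0 : ∀ i, 0 < y i) (hn : ∑ i, n i = 8) (x0 : 0 ≤ x) (x0' : 0 ≤ x') (h : x ≤ Ω * a)
    (h' : x' ≤ Ω * a') (e : (x * x') ^ 4 * ∏ i, Ω ^ n i * y i =
      ∏ i, Ω ^ n i * y i * (Ω ^ n i * y i)) : ∏ i, y i ≤ (a' * a) ^ 4 := by
  have p : 0 < ∏ i, Ω ^ n i * y i := Finset.prod_pos fun i _ => mul_pos (pow_pos o _) (y0 i)
  rw [Finset.prod_mul_distrib (f := fun i => Ω ^ n i * y i)] at e
  replace e := mul_right_cancel₀ p.ne' e
  rw [Finset.prod_mul_distrib, Finset.prod_pow_eq_pow_sum, hn] at e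
  refine le_of_mul_le_mul_left (e.ge.trans ((pow_le_pow_left₀ (mul_nonneg x0 x0')
    (mul_le_mul h h' x0' (x0.trans h)) 4).trans_eq (by ring))) (pow_pos o 8)

end An

open An in
/-- **the analytic side** -/
theorem anb (dlv : DLV) (cfc : CFC) (bex : BEX) (iot : IOT) (lvx : LVX) (sml : SML) (xi : XI)
    (prm : PRM) (pvy : PVY) (csx : CSX) (cfx : CFX) (dvl : DVL) (nrm : NRM) (fin : FIN) :
    ANB := by
  intro e e' ρ rh na eS tr tr' κ _ x L _ _ jL fam ι V pl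
  rcases isEmpty_or_nonempty (Fld e) with em | ⟨⟨b₀⟩⟩
  · exact ⟨0, fun b => isEmptyElim b⟩
  obtain ⟨-, -, r3, r3', sd, ns, -⟩ := lvx e b₀
  obtain ⟨hV, io⟩ := (iot _ (e.ov 3 e.pm)).2 ι V pl
  obtain ⟨s, s2, s1⟩ := ex_s hV
  obtain ⟨N, G, G', A, f₀, f₁, φ₀, φ₁, N0, Ns, fr, hE, fm, six, eq, hK⟩ := dlv ρ _ e.S.prod rh na
    (fun l hl => (sd l hl).trans List.mem_toFinset.symm) r3 κ x L jL fam s s2
  have R0 : 0 < e.S.prod := List.prod_pos fun p hp => (e.ov p hp).1.pos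
  obtain ⟨m, hm⟩ : ∃ m, m = N * (e.N * e.S.prod * (e'.N * e.S.prod)) := ⟨_, rfl⟩
  have m0 : 0 < m := by
    have := e.rn.pos
    have := e'.rn.pos
    rw [hm]
    positivity
  have n1 : e.N * e.S.prod ∣ m := hm ▸ (dvd_mul_right _ _).mul_left _
  have n2 : e'.N * e.S.prod ∣ m := hm ▸ (dvd_mul_left _ _).mul_left _
  have rm : e.S.prod ∣ m := (dvd_mul_left _ _).trans n1
  have ms : ∀ p : ℕ, p.Prime → p ∣ m → p ∈ e.S := fun p hp z => by
    rw [hm] at z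
    simp only [hp.dvd_mul, sd p hp] at z
    rcases z with z | (z | z) | z | z
    exacts [List.mem_toFinset.1 (Ns p hp z), ns p hp z, z,
      eS ▸ by_contra fun y => (e'.bad p hp y).1 z, z]
  have mr : ∀ p : ℕ, p.Prime → p ∣ m → p ∣ e.S.prod := fun p hp z => (sd p hp).2 (ms p hp z)
  have R3 : 3 ∣ e.S.prod := Dvd.intro _ r3'
  have m3 := R3.trans rm
  have m6 : 6 ∣ m := Nat.Coprime.mul_dvd_of_dvd_of_dvd (m := 2) (n := 3) (by norm_num)
    ((List.dvd_prod e.two).trans rm) m3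
  have ci : ∀ i : ℕ, i.Coprime m ↔ i.Coprime e.S.prod := fun i =>
    ⟨fun z => z.coprime_dvd_right rm, fun z => Nat.coprime_of_dvd fun p hp a b =>
      hp.one_lt.ne' (Nat.eq_one_of_dvd_coprimes z a (mr p hp b))⟩
  obtain ⟨B₁, B₂, E₁, E₂⟩ := hE m m0 (hm ▸ dvd_mul_right _ _) fun l hl z =>
    List.mem_toFinset.2 (ms l hl z)
  have cp := fun (p : ℕ) (hp : p.Prime) (z : ¬ p ∣ e.S.prod) => cg_pr hV s1 tr tr' m0 E₁ fr hp
    (mt (sd p hp).2 z) (hp.coprime_iff_not_dvd.2 (mt (mr p hp) z)) m3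
  obtain ⟨T₂, h₂⟩ := sml e e rfl ι V pl m G' _ (1 / 3) m0 n1 ms E₂.mw E₂.qe (by norm_num)
    (cg_of cfc hV E₂ e R3 rm ((dvd_mul_right _ _).trans n1) mr fun p hp z => (cp p hp z).1)
  obtain ⟨T₁, h₁⟩ := sml e e' eS ι V pl m G _ (1 / 3) m0 n2 ms E₁.mw E₁.qe (by norm_num)
    (cg_of cfc hV E₁ e' R3 rm ((dvd_mul_right _ _).trans n2) mr fun p hp z => (cp p hp z).2)
  refine ⟨max T₁ T₂, fun b hb im I I' Y hd Ω B M _ _ _ _ jM cq n β ψ vb ic B₀ => ?_⟩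
  obtain ⟨kd, d3, -, -, -, -, lx⟩ := lvx e b
  obtain ⟨u, u', ν, lv⟩ := lx m m0 rm ms
  obtain ⟨p1, p2, p3, p4, p5, p6⟩ := prm e b ι V pl m u u' ν lv rm ms
  have hx := (io b.K b.j b.δ' b.θ kd d3).2.1
  obtain ⟨η, δ₁, d1, hη, η1⟩ := bex V hV b.K (Jc b.j) b.δ' b.θ kd m u m0 m3 p2 p3
  have η2 : ∀ I, Cop m I → V (η I - 1) ≤ δ₁ := fun I y => η1 I fun z =>
    ((hη.hc.zero I).1 z).elim (p4 I y).1 fun t => t (p4 I y).2.1
  obtain ⟨δa, a1, a2, a3, ha⟩ := h₁ b ((le_max_left _ _).trans hb) I I' Y hd Ω B u u' ν lv η δ₁ d1 η2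
  obtain ⟨δb, b1, -, -, hb'⟩ := h₂ b ((le_max_right _ _).trans hb) _ _ _ (hd0 b) Ω B u u' ν lv η δ₁
    d1 η2
  obtain ⟨δc, c1, hc⟩ := Bx.unif hV 3 three_ne_zero 0 one_pos
  obtain ⟨δ₀, hδ⟩ : ∃ δ₀, δ₀ = max δa (max δb δc) := ⟨_, rfl⟩
  have e1 : δ₀ < 1 := hδ ▸ max_lt a1 (max_lt b1 c1)
  have ea : δa ≤ δ₀ := hδ ▸ le_max_left _ _
  have eb : δb ≤ δ₀ := hδ ▸ le_max_of_le_right (le_max_left _ _)
  have ec : δc ≤ δ₀ := hδ ▸ le_max_of_le_right (le_max_right _ _)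
  have e0 : 0 ≤ δ₀ := by linarith
  obtain ⟨δ, δ1, hδ'⟩ := ex_root e0 e1 (N := B₀ + 8) (by omega)
  refine ⟨δ, δ1, fun n₀ c χ ζ ξ ly ⟨w, w', sp⟩ h k lam la hk a y ha' hy dz hB eu sm => ?_⟩
  obtain ⟨v0, vδ⟩ := hδ' _ dz
  have v1 := v_tp hV n₀ ζ ly.rt
  have vy := (pow_le_pow_of_le_one v0.le v1.le (Nat.le_add_right B₀ 8)).trans hB
  have v3 := vδ.trans_le (pow_le_pow_of_le_one v0.le v1.le (show 3 ≤ B₀ + 8 by omega))
  have vη := vδ.trans_le (pow_le_of_le_one v0.le v1.le (show B₀ + 8 ≠ 0 by omega))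
  obtain ⟨x3, rg⟩ := ((xi e b).2 n₀ c χ ζ ly.ad ly.sq ly.rt).2.1 ξ ly.xi
  replace rg := rg ly.ram
  have c0 := sp.pos
  have cm : c.Coprime (m * b.δ') := Nat.coprime_of_dvd fun p hp k1 k2 =>
    ((Nat.Prime.dvd_mul hp).1 k2).elim (fun z => (ly.out p hp k1).1 (ms p hp z)) (ly.out p hp k1).2
  obtain ⟨bc, ek, hψ⟩ := hK b.K b.j b.δ' b.θ kd (lv.cop.coprime_dvd_right rm) im M jM cq
  have dd : ∀ t, Fe.Dv e.S.prod t → Fe.Dv m t := fun t z =>
    z.imp fun j z => z.trans (pow_dvd_pow_of_dvd rm j)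
  have fm' : Fm m f₀ f₁ φ₀ φ₁ := ⟨fm.z3, fm.p0, fm.p1, fm.re, fm.cub, fun i => dd _ (fm.d0 i),
    fun i => dd _ (fm.d1 i), fm.deg⟩
  obtain ⟨α, hα, eα, pe⟩ := pvy V hV b.K (Jc b.j) b.δ' b.θ kd κ L M f₀ f₁ φ₀ φ₁ m c u u' w w' ξ η ν
    G G' A B₁ B₂ fm' bc E₁ E₂ (by
      have := eq
      unfold EQ dA P004C.Wa.dp at this ⊢
      simpa only [ci] using this) (fun l l1 l2 => ek l l1 fun I z => l2 I (mt (ci _).1 z)) m6 lv.sp
    sp ly.sq cm lv.cop p1 rg hη lv.nu lv.nu1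
  have mc1 : m * c ≠ 1 := fun z => by have := Nat.eq_one_of_mul_eq_one_right z; omega
  have xr : ∀ I : Ideal (𝓞 b.K), (absNorm I).Coprime (m * c) → V (ξ I - 1) < 1 := fun I z =>
    v_tp hV n₀ _ ((x3 I).resolve_left fun y => ((rg.rc.zero I).1 y).elim
      (fun y => mc1 (by simpa [y] using z)) fun y => y (sup_top (absNorm_mem _)
        (mem_span_singleton_self _) (z.coprime_dvd_right (dvd_mul_left _ _))))
  have lr : ∀ I : Ideal (𝓞 b.K), (absNorm I).Coprime (m * c) → V (lam I - 1) ≤ 1 / 3 := fun I z =>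
    la_near hV (fun x => ⟨(hx x).1, (hx x).2.2⟩) la (z.coprime_dvd_right (m3.mul_right _))
  have S : Ks (Jc b.j) V m c (2 * h * k) u' α (fun I => ξ I * lam I) δ₀ := by
    refine ⟨m0, c0, m3, hk, hα, hc_g B rg la, fun I z o => ?_, fun I z => ?_, ?_,
      mul_le_right (lv.sp.mul.ge (mem_span_singleton_self _)), ly.big, a2.trans ea,
      fun z hz => (hc z (v_tp hV 1 z (by rwa [pow_one])) (by simp [hz])).trans ec⟩
    · have zm := z.coprime_dvd_right (dvd_mul_right m c)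
      rw [eα I z, e3_eq zm, jacobiSym.mod_left, show ((absNorm I : ℕ) : ℤ) % (3 : ℕ) = 1 by omega,
        jacobiSym.one_left, Int.cast_one, mul_one,
        show η I * ξ I - ξ I * lam I = ξ I * (η I - 1 - (lam I - 1)) by ring, map_mul,
        Bx.one_of hV.1 (xr I z), one_mul]
      exact Cfc.sub_le hV ((η2 I (p5 I zm)).trans (a3.trans ea)) ((lr I z).trans (a2.trans ea))
    · have t := max_lt (xr I z) (by norm_num : (1 / 3 : ℝ) < 1)
      exact (Bx.mul_le hV.1 t (le_max_left _ _) ((lr I z).trans (le_max_right _ _))).trans_lt t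
    · obtain ⟨s, t1, t2⟩ := p1
      refine ⟨s * c, mul_mem_mul t1 (mem_span_singleton_self _), ?_⟩
      rw [show ((s * c : 𝓞 b.K) : b.K) = s * c by simp, map_mul, map_mul, t2, map_natCast, one_mul]
      exact Cfc.cop_eq hV fun z => (ly.out 3 Nat.prime_three z).1 e.pm
  obtain ⟨Y₀, hY⟩ : ∃ Y₀ : κ → ℝ, ∀ i, Y₀ i = sc Ω (dv ι (Jc b.j) (β i) *
      ‖(absNorm (f₀ i) : ℂ_[3])‖) (n i) (2 * h * k) * V (∑' I, Dp ((tS b).map
        (algebraMap (𝓞 b.K) (𝓞 (M i)))) (cM (M i) (φ₀ i) fun I => ξ I * lam I) I) := ⟨_, fun _ => rfl⟩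
  have yY : y = ∏ i, Y₀ i := hy.trans (Finset.prod_congr rfl fun i _ => by
    have q := fun I z => hψ i _ (ic i) I (cop_norm z)
    rw [hY, ← cfx b.K ι _ Ω _ _ B kd _ (M i) (bc i) (fm.z3 i) _ _ (fm.p0 i) (fm.re i)]
    refine congrArg₂ (fun r (t : Ideal (𝓞 (M i)) → ℂ) =>
      sc Ω (dv ι (Jc b.j) (β i) * r) (n i) (2 * h * k) * V (∑' I, t I)) ?_ ?_
    · refine finprod_mem_congr (Set.ext fun W => and_congr_right fun z => ?_) fun _ _ => rfl
      rw [q W (z.1.out.2 _ (left_lt_sup.2 fun t => z.2 ⟨(e.S.prod / 3 : ℕ), ?_, ?_⟩))]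
      · rw [← pl.eq]
        simpa using Cfc.cop_eq hV r3
      · rw [map_natCast]
        exact t (mem_span_singleton_self _)
    · refine funext fun W => ite_congr rfl (fun z => ?_) fun _ => rfl
      rw [ha', q W (top_unique (z.ge.trans (sup_le_sup_left ?_ _)))]
      · rfl
      · rw [tS, Ideal.map_mul, map_span _ {_}, Set.image_singleton, map_natCast]
        exact mul_le_right)
  have dg : ∀ i, finrank ℚ (L i) ≤ 8 := fun i =>
    (Finset.single_le_sum (f := fun i => finrank ℚ (L i)) (fun _ _ => Nat.zero_le _)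
      (Finset.mem_univ i)).trans_eq fm.deg
  have on := fun i {f φ} p s6 cu d => (sm i (m * c) (Nat.mul_pos m0 c0)).elim fun s t => t.elim
    fun l t => one csx dvl nrm fin B kd hV pl.eq (bc i) (fm.z3 i) (dg i) S (fun W z =>
      ⟨(p6 (M i) W z).1, fun t => ⟨((p6 (M i) W z).2.2.2 t).1, fun t' =>
        ⟨(((p6 (M i) W z).2.2.2 t).2 t').1, fun r r1 => v3.trans_le
          (eu i W z (((p6 (M i) W z).2.2.2 t).2 t').2 r r1)⟩⟩⟩) (f := f) (φ := φ) (fm.p0 i) (fm.re i)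
      (fm'.d0 i) p s6 cu d (vb i) t.1 t.2.1 vη v1.le (by
        have q := hψ i _ (ic i) s (t.1.2.2.1.symm ▸
          t.2.1.coprime_dvd_right (((Dvd.intro_left _ r3').trans rm).mul_right _))
        exact t.2.2.imp q.symm.trans fun z => by rwa [ha', q] at z) (hY i)
  have o₀ := fun i => on i (fm.p0 i) (fun I => (re_sq (fm.p0 i) (fm.re i) I).imp_right fun u => by
    rw [show 6 = 2 * 3 from rfl, pow_mul, u, one_pow]) (fun I z => by
      rw [pow_succ, (re_sq (fm.p0 i) (fm.re i) I).resolve_left z, one_mul]) (fm'.d0 i)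
  have o₁ := fun i => on i (fm.p1 i) (six i) (fm.cub i) (fm'.d1 i)
  have o₂ := fun i => on i (Fe.Dep.pc_cj (fm.p1 i)) (fun I => (six i I).imp
    (fun z => by rw [cj, z, map_zero]) fun z => by rw [cj, ← map_pow, z, map_one]) (fun I z => by
      rw [cj, ← map_pow, fm.cub i I fun t => z (by rw [cj, t, map_zero])]
      exact congrFun (fm.re i) I) (fm'.d1 i)
  have Y0 : ∀ i, 0 ≤ Y₀ i := fun i => by
    have := B.pos
    rw [hY, dvl b.K ι _ Ω _ _ B kd _ (M i) (bc i) _ _ (vb i), sc]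
    positivity
  have k8 : Fintype.card κ ≤ 8 := by
    rw [← fm.deg, Fintype.card, Finset.card_eq_sum_ones]
    exact Finset.sum_le_sum fun i _ => finrank_pos
  have Yd : ∀ i, δ₀ < V (ζ - 1) * Y₀ i := fun i => vδ.trans_le (by
    calc V (ζ - 1) ^ (B₀ + 8) ≤ V (ζ - 1) ^ Fintype.card κ * y := by
          rw [add_comm, pow_add]
          exact mul_le_mul (pow_le_pow_of_le_one v0.le v1.le k8) hB (by positivity) (by positivity)
      _ = ∏ j, V (ζ - 1) * Y₀ j := by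
          rw [Finset.prod_mul_distrib, Finset.prod_const, Finset.card_univ, yY]
      _ ≤ _ := by
          rw [← Finset.mul_prod_erase _ _ (Finset.mem_univ i)]
          exact mul_le_of_le_one_right (mul_nonneg v0.le (Y0 i)) (Finset.prod_le_one
            (fun j _ => mul_nonneg v0.le (Y0 j)) fun j _ => (o₀ j).1))
  choose z₀ t₀ q₀ using fun i => (o₀ i).2 (Yd i)
  choose z₁ t₁ q₁ using fun i => (o₁ i).2 (Yd i)
  choose z₂ t₂ q₂ using fun i => (o₂ i).2 (Yd i)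
  have n8 : ∑ i, n i = 8 := fm.deg ▸ Finset.sum_congr rfl fun i _ => by
    have r1 := finrank_mul_finrank ℚ b.K (M i)
    rw [← finrank_mul_finrank ℚ (L i) (M i), kd.two, (bc i).two, finrank_eq_card_basis (β i),
      Fintype.card_fin] at r1
    omega
  refine fin_le v0 v1 e0 vδ vy fun l l' hl hl' => ?_
  obtain ⟨κ₁, _, R₁, ro₁, le₁⟩ := ha n₀ c χ ζ ξ ly l' hl'
  obtain ⟨κ₂, _, R₂, ro₂, le₂⟩ := hb' n₀ c χ ζ ξ ly l hl
  have key := pe z₀ z₁ z₂ (fun i => ⟨t₀ i, t₁ i, t₂ i⟩) κ₁ κ₂ R₁ R₂ ro₁ ro₂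
  simp only [q₀, q₁, q₂] at key
  exact yY ▸ last B.pos (fun i => (mul_pos_iff_of_pos_left v0).1 (e0.trans_lt (Yd i))) n8 (V.nonneg _) (V.nonneg _)
    (le₁.trans (mul_le_mul_of_nonneg_left (max_le_max_right _ ea) B.pos.le))
    (le₂.trans (mul_le_mul_of_nonneg_left (max_le_max_right _ eb) B.pos.le)) key

theorem ana_b (h : ANB) : Tp.ANA := fun e e' ρ rh na eS tr tr' κ _ x L _ _ jL fam ι V pl =>
  (h e e' ρ rh na eS tr tr' κ x L jL fam ι V pl).imp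
    fun _ h b hb im I I' Y hd Ω B M _ _ _ _ jM cq n β ψ vb ic sm B₀ =>
      (h b hb im I I' Y hd Ω B M jM cq n β ψ vb ic B₀).imp fun _ h => ⟨h.1,
        fun n₀ c χ ζ ξ ly sp u k lam la hk a y ha hy dz hB eu =>
          h.2 n₀ c χ ζ ξ ly sp u k lam la hk a y ha hy dz hB eu fun i t t0 =>
            (sm i t t0).imp fun _ z => z.imp fun _ z => ⟨z.1, z.2.1, .inl z.2.2⟩⟩

theorem ana (dlv : DLV) (cfc : CFC) (bex : BEX) (iot : IOT) (lvx : LVX) (sml : SML) (xi : XI)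
    (prm : PRM) (pvy : PVY) (csx : CSX) (cfx : CFX) (dvl : DVL) (nrm : NRM) (fin : FIN) :
    Tp.ANA := ana_b (anb dlv cfc bex iot lvx sml xi prm pvy csx cfx dvl nrm fin)

end Vale.Agent.P014Y.Ln
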