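import Vale.Agent.P014Y.Ln.St0
import Vale.Agent.P004C.Wa.Thk

/-! # P014 Y, block LN: the theta series of discriminant `-3` -/

set_option autoImplicit false
set_option linter.all false

open scoped Classical NumberTheorySymbols MatrixGroups ModularForm Real
open UpperHalfPlane CongruenceSubgroup Finset

noncomputable section

namespace Vale.Agent.P014Y.Ln

open Vale.Agent.P022 P004C.Wa

namespace E1

/-- the elements of norm `n` -/
def T (n : ℕ) : Finset (ℤ × ℤ) :=
  (Icc (-(n : ℤ) - 1) (n + 1) ×ˢ Icc (-(n : ℤ) - 1) (n + 1)).filter fun v => Qf 1 1 1 v = n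

theorem mem_T {n : ℕ} {v : ℤ × ℤ} : v ∈ T n ↔ Qf 1 1 1 v = n := by
  rw [T, mem_filter, mem_product, mem_Icc, mem_Icc, and_iff_right_iff_imp]
  intro h
  simp only [Qf] at h
  have n0 : (0 : ℤ) ≤ n := Int.natCast_nonneg n
  refine ⟨⟨?_, ?_⟩, ?_, ?_⟩ <;> by_contra c <;> push Not at c
  · nlinarith [sq_nonneg (v.1 + 2 * v.2)]
  · nlinarith [sq_nonneg (v.1 + 2 * v.2)]
  · nlinarith [sq_nonneg (2 * v.1 + v.2)]
  · nlinarith [sq_nonneg (2 * v.1 + v.2)]

theorem T_zero : T 0 = {0} := by decide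

theorem three_dvd {n : ℕ} (hn : n ≠ 0) : 3 ∣ (T n).card := by
  haveI : Fact (Nat.Prime 3) := ⟨Nat.prime_three⟩
  let f : Function.End (T n) := fun v => ⟨(v.1.2, -v.1.1 - v.1.2), mem_T.2 (by
    rw [← mem_T.1 v.2]
    simp only [Qf]
    ring)⟩
  have h := Equiv.Perm.card_fixedPoints_modEq (f := f) (p := 3) (n := 1) (by
    funext v
    show f (f (f v)) = v
    exact Subtype.ext (Prod.ext (by simp only [f]; ring) (by simp only [f]; ring)))
  have e : IsEmpty f.fixedPoints := ⟨fun v => by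
    have a := congrArg (·.1.1) v.2
    have b := congrArg (·.1.2) v.2
    have c := mem_T.1 v.1.2
    simp only [f, Qf] at a b c
    rw [show v.1.1.1 = 0 by omega, show v.1.1.2 = 0 by omega] at c
    omega⟩
  rw [Fintype.card_eq_zero (α := f.fixedPoints), Fintype.card_coe] at h
  exact (Nat.modEq_zero_iff_dvd).1 h

end E1

open E1 in
theorem eis : EIS := by
  have hf : Per 1 fun _ => (1 : ℂ) := fun _ _ => rfl
  have hd : (1 : ℤ) ^ 2 - 4 * 1 * 1 = -((3 : ℕ) : ℤ) := by norm_num
  refine ⟨fun τ => th 1 1 1 3 0 (fun _ => 1) τ, fun n => ((T n).card / 3 : ℕ),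
    ⟨Tk.hol' one_pos three_pos hd 0 one_pos hf, fun γ hγ τ => ?_, fun γ => ?_⟩, fun z => ?_⟩
  · rw [Tk.law one_pos (by decide) hd 0 one_pos hf (by simpa using hγ) (z := 1)
      (fun _ => (one_mul _).symm)]
    simp
  · simpa using H964.bdd_all H420.po one_pos three_pos hd 0 (Tk.mem_V 0 one_pos hf) γ
  have h := (H964.summable_thT one_pos three_pos hd 0 one_pos hf (w := z) z.im_pos).hasSum
  have h2 := ((Equiv.sigmaFiberEquiv fun v : ℤ × ℤ => (Qf 1 1 1 v).toNat).hasSum_iff.2 h).sigma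
    (g := fun n : ℕ => (T n).card * ee (n * z)) fun n => by
      have m : ∀ v, (Qf 1 1 1 v).toNat = n ↔ v ∈ T n := fun v => by
        have : 0 ≤ Qf 1 1 1 v := by
          simp only [Qf]
          nlinarith [sq_nonneg (v.1 + v.2), sq_nonneg v.1, sq_nonneg v.2]
        rw [mem_T]
        omega
      have := (T n).hasSum (thT 1 1 1 3 0 (fun _ => 1) z)
      rw [Finset.sum_congr rfl (g := fun _ => ee (n * z)) fun v hv => by
        rw [thT, mem_T.1 hv, pow_zero, Int.cast_natCast, ee, one_mul, one_mul, mul_assoc _ (n : ℂ)],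
        Finset.sum_const, nsmul_eq_mul] at this
      exact (Equiv.subtypeEquivRight m).hasSum_iff.2 this
  refine h2.congr_fun fun n => ?_
  congr 1
  by_cases k : n = 0
  · simp [k, T_zero]
  · simp only [if_neg k, zero_add, Int.cast_natCast]
    exact_mod_cast Nat.mul_div_cancel' (three_dvd k)

end Vale.Agent.P014Y.Ln
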