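import Vale.Agent.P014Y.Ln.St2
import Vale.Agent.P014Y.C.As.Hcn
import Vale.Agent.P014Y.C.As.Val
import Vale.Agent.P014Y.C.As.Ray
import Vale.Agent.P014Y.C.As.Sm
import Vale.Agent.P014Y.C.Al.Cmb2

/-!
# P014 Y, block LN: congruences of Hecke characters on the ideals prime to `v`
-/

open NumberField Module Ideal
open scoped Classical

set_option linter.all false

noncomputable section

namespace Vale.Agent.P014Y.Ln.Fi

open P014Y.C
open P014Y.C.Al.Gx (pv_two)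
open P014Y.C.As (Cp)
open P014Y.C.Cg (Lc)
open P004C.Ln (Dp)

variable {K : Type} [Field K] [NumberField K] {ι : ℂ →+* ℂ_[3]} {J : K →+* ℂ} {Ω : ℝ}
  {M : Type} [Field M] [NumberField M] [Algebra K M] {I I' F F₁ f tS w : Ideal (𝓞 M)}
  {k k₁ t m : ℕ} {a a₁ : Ideal (𝓞 M) → ℂ} {δ : ℝ}

theorem pv_mul (h : Pv ι J I) (k : Pv ι J I') : Pv ι J (I * I') := by
  obtain ⟨s, a, b⟩ := h
  obtain ⟨s', a', b'⟩ := k
  exact ⟨s * s', by simp [a, a'], by rw [map_mul]; exact mul_mem_mul b b'⟩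

theorem pv_mono (e : I ≤ I') (h : Pv ι J I) : Pv ι J I' := h.imp fun _ k => ⟨k.1, e k.2⟩

theorem pv_ne (h : Pv ι J I) : I ≠ ⊥ := by
  rintro rfl
  obtain ⟨s, a, b⟩ := h
  have := congrArg (fun x : 𝓞 M => (x : M)) (mem_bot.1 b)
  exact Al.Gx.ne_of a this

theorem cop3 (hw : w.IsMaximal) (h : (3 : 𝓞 M) ∉ w) : w ⊔ span {3} = ⊤ := by
  by_contra k
  exact h ((span_singleton_le_iff_mem _).1 (le_sup_right.trans (hw.eq_of_le k le_sup_left).ge))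

theorem pv_max (hw : w.IsMaximal) (h : (3 : 𝓞 M) ∉ w) : Pv ι J w := pv_two (cop3 hw h)

theorem cop_norm (h : I ⊔ span {(t : 𝓞 M)} = ⊤) : (absNorm I).Coprime t := by
  refine Nat.coprime_of_dvd fun p hp h1 h2 => ?_
  obtain ⟨P, hP, e, d⟩ := exists_isMaximal_dvd_of_dvd_absNorm' hp I h1
  refine hP.ne_top (top_unique (h.ge.trans (sup_le (dvd_iff_le.1 d) ?_)))
  have : (t : ℤ) ∈ P.under ℤ := e ▸ mem_span_singleton.2 (by exact_mod_cast h2)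
  rw [span_singleton_le_iff_mem]
  simpa using mem_comap.1 this

theorem one_mod {n : ℕ} (h : n % 3 = 1) : ‖(n : ℂ_[3]) - 1‖ ≤ 1 / 3 := by
  rw [← Nat.div_add_mod n 3, h, Nat.cast_add, Nat.cast_one, add_sub_cancel_right, Nat.cast_mul,
    norm_mul, Nat.cast_ofNat, Cm.nm_two]
  exact mul_le_of_le_one_right (by norm_num) (Cm.nat_le _)

theorem unit (B : Base ι J Ω) (hF : F ≠ ⊥) (h : HC J k F a) (c : Cp F I) (p : Pv ι J I) :
    ‖ι (a I)‖ = 1 := (As.hcn As.val K ι J Ω B M k F a hF h).2.2.1 I c p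

theorem lc_ne (p : Pv ι J f) (h : Lc ι J k f F a) : f * F ≠ ⊥ := mul_ne_zero (pv_ne p) h.ne

theorem lc_cop (h : Lc ι J k f F a) (p : Pv ι J I) : I ⊔ F = ⊤ := by
  by_contra c
  obtain ⟨P, h1, h2⟩ := exists_le_maximal _ c
  exact (h.av P h1 (dvd_iff_le.2 (le_sup_right.trans h2))).2 (pv_mono (le_sup_left.trans h2) p)

theorem lc_unit (B : Base ι J Ω) (pf : Pv ι J f) (h : Lc ι J k f F a) (c : I ⊔ f = ⊤)
    (p : Pv ι J I) : ‖ι (a I)‖ = 1 :=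
  unit B (lc_ne pf h) h.hc ⟨pv_ne p, Cm.cop_mul.2 ⟨c, lc_cop h p⟩⟩ p

theorem lc_zero (h : Lc ι J k f F a) (c : I ⊔ f ≠ ⊤) : a I = 0 :=
  (h.hc.zero I).2 (.inr fun e => c (Cm.cop_mul.1 e).1)

/-- norms of the elements prime to `v` are one modulo three -/
def N1 (ι : ℂ →+* ℂ_[3]) (J : K →+* ℂ) (M : Type) [Field M] [NumberField M] [Algebra K M] : Prop :=
  ∀ x : 𝓞 M, Pv ι J (span {x}) → ‖ι (J (Algebra.norm K (x : M))) - 1‖ ≤ 1 / 3

theorem prn_near (u : N1 ι J M) (h : HC J k F a) {x : 𝓞 M} (x0 : x ≠ 0) (hx : x - 1 ∈ F)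
    (p : Pv ι J (span {x})) : ‖ι (a (span {x})) - 1‖ ≤ 1 / 3 := by
  have n := (As.Va.pv_iff x).1 p
  have u := u x p
  rw [h.prn x x0 hx, map_pow, map_inv₀]
  set y := ι (J (Algebra.norm K (x : M)))
  have y0 : y ≠ 0 := fun e => by simp [e] at n
  have := As.n_pow_sub (x := y⁻¹) (y := 1) (by simp [n]) (by simp) k
  rw [one_pow] at this
  refine this.trans ?_
  rw [show y⁻¹ - 1 = -y⁻¹ * (y - 1) by field_simp; ring, norm_mul, norm_neg, norm_inv, n, inv_one,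
    one_mul]
  exact u

theorem sub_le {x y z : ℂ_[3]} {C : ℝ} (h : ‖x - y‖ ≤ C) (k : ‖y - z‖ ≤ C) : ‖x - z‖ ≤ C := by
  simpa using Cm.add_le h k

theorem sub_le' {x y : ℂ_[3]} {C : ℝ} (h : ‖x - y‖ ≤ C) : ‖y - x‖ ≤ C := by
  rwa [norm_sub_rev]

/-- every ideal prime to `F` and `v` has a substitute prime to `t` -/
theorem subst (B : Base ι J Ω) (u : N1 ι J M) (hF : F ≠ ⊥) (ht : 0 < t) (c : Cp F I)
    (p : Pv ι J I) : ∃ I', (absNorm I').Coprime t ∧ I' ⊔ F = ⊤ ∧ ∀ k F' a, F ≤ F' → HC J k F' a →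
      ‖ι (a I) - ι (a I')‖ ≤ 1 / 3 := by
  have A0 : span {((t * 3 : ℕ) : 𝓞 M)} ≠ ⊥ := by
    rw [Ne, span_singleton_eq_bot, Nat.cast_eq_zero]
    omega
  have le : ∀ u v : ℕ, u * v = t * 3 → ∀ {L : Ideal (𝓞 M)},
      L ⊔ span {((t * 3 : ℕ) : 𝓞 M)} = ⊤ → L ⊔ span {(u : 𝓞 M)} = ⊤ := fun u v e L h =>
    top_unique (h.ge.trans (sup_le_sup_left (span_singleton_le_span_singleton.2
      (Nat.cast_dvd_cast ⟨v, e.symm⟩)) _))
  obtain ⟨C, c1, c2, x, x0, hx, ex⟩ := As.Ra.inv_ex hF A0 c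
  obtain ⟨I', d1, d2, y, y0, hy, ey⟩ := As.Ra.inv_ex hF A0 c1
  have p1 : Pv ι J C := pv_two (by simpa using le 3 t (mul_comm _ _) c2)
  have p2 : Pv ι J I' := pv_two (by simpa using le 3 t (mul_comm _ _) d2)
  refine ⟨I', cop_norm (le t 3 rfl d2), d1.2, fun k F' a e h => ?_⟩
  have n1 := prn_near u h x0 (e hx) (ex ▸ pv_mul p p1)
  have n2 := prn_near u h y0 (e hy) (ey ▸ pv_mul p1 p2)
  rw [ex, h.mul, map_mul] at n1
  rw [ey, h.mul, map_mul] at n2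
  have := sub_le n1 (sub_le' n2)
  rwa [mul_comm, ← mul_sub, norm_mul, unit B (fun k => hF (le_bot_iff.1 (k ▸ e))) h
    ⟨c1.1, top_unique (c1.2.ge.trans (sup_le_sup_left e _))⟩ p1, one_mul] at this

/-- the congruence on all ideals prime to `v` -/
theorem cong (B : Base ι J Ω) (u : N1 ι J M) (pf : Pv ι J f) (ht : 0 < t) (h₁ : Lc ι J k₁ f F₁ a₁)
    (h : Lc ι J k f F a) (hc : ∀ I, (absNorm I).Coprime t → I ⊔ f = ⊤ → ‖ι (a₁ I - a I)‖ ≤ δ)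
    (hδ : 1 / 3 ≤ δ) (p : Pv ι J I) : ‖ι (a₁ I - a I)‖ ≤ δ := by
  by_cases c : I ⊔ f = ⊤
  · obtain ⟨I', e1, e2, e3⟩ := subst (F := f * F₁ * F) B u (mul_ne_zero (lc_ne pf h₁) h.ne) ht
      ⟨pv_ne p, Cm.cop_mul.2 ⟨Cm.cop_mul.2 ⟨c, lc_cop h₁ p⟩, lc_cop h p⟩⟩ p
    have := hc I' e1 (Cm.cop_mul.1 (Cm.cop_mul.1 e2).1).1
    rw [map_sub] at this ⊢
    exact sub_le ((e3 _ _ _ mul_le_left h₁.hc).trans hδ) (sub_le this (sub_le'
      ((e3 _ _ _ (mul_mono_left mul_le_left) h.hc).trans hδ)))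
  · rw [lc_zero h₁ c, lc_zero h c, sub_zero, map_zero, norm_zero]
    linarith

/-- one Euler factor -/
theorem fac {x y n : ℂ_[3]} (hx : ‖x‖ = 1) (h : ‖x - y‖ ≤ δ) (hn : ‖n - 1‖ ≤ 1 / 3)
    (hδ : 1 / 3 ≤ δ) (l : δ < ‖1 - y‖) : ‖1 - (n * x)⁻¹‖ = ‖1 - y‖ := by
  have n1 : ‖n‖ = 1 := by
    have := Cm.add_eq (x := 1) (y := n - 1) (by rw [norm_one]; linarith)
    simpa using this
  have n0 : n ≠ 0 := fun e => by simp [e] at n1
  have x0 : x ≠ 0 := fun e => by simp [e] at hx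
  have k : ‖y - n * x‖ ≤ δ := by
    refine sub_le (sub_le' h) ?_
    rw [show x - n * x = -(n - 1) * x by ring, norm_mul, norm_neg, hx, mul_one]
    exact hn.trans hδ
  rw [show 1 - (n * x)⁻¹ = -(n * x)⁻¹ * (1 - y + (y - n * x)) by field_simp; ring, norm_mul,
    norm_neg, norm_inv, norm_mul, n1, hx, Cm.add_eq (k.trans_lt l)]
  simp

omit [NumberField M] in
theorem le_of (hw : w.IsMaximal) (h : w ⊔ F ≠ ⊤) : F ≤ w :=
  le_sup_right.trans (hw.eq_of_le h le_sup_left).ge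

omit [NumberField M] in
theorem tf_mono (e : F ≤ w) (h : TF w) : TF F := fun u k => h u (e k)

theorem fin_m (hm : 0 < m) (p : Ideal (𝓞 M) → Prop) (h : ∀ w, p w → (m : 𝓞 M) ∈ w) :
    {w | p w}.Finite :=
  (P004C.Al.Eu.fin_dvd (I₀ := span {(m : 𝓞 M)}) (by
    rw [Ne, span_singleton_eq_bot, Nat.cast_eq_zero]
    omega)).subset fun w hw => dvd_iff_le.2 ((span_singleton_le_iff_mem _).2 (h w hw))

/-- the two depletions -/
theorem dp_eq (ha : ∀ I I', a (I * I') = a I * a I')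
    (h : ∀ w : Ideal (𝓞 M), w.IsMaximal → F ≤ w → a w = 0 ∨ tS ≤ w) {T : Finset (Ideal (𝓞 M))}
    (hT : ∀ w, w ∈ T ↔ w.IsMaximal ∧ tS ≤ w ∧ w ⊔ F = ⊤) (I : Ideal (𝓞 M)) :
    Dp tS a I = if ∀ P ∈ T, ¬P ∣ I then Dp F a I else 0 := by
  unfold Dp
  by_cases c : I ⊔ tS = ⊤
  · have k : ∀ P : Ideal (𝓞 M), P.IsMaximal → tS ≤ P → ¬I ≤ P := fun P h1 h2 h3 =>
      h1.ne_top (top_unique (c.ge.trans (sup_le h3 h2)))
    rw [if_pos c, if_pos fun P hP d => k P ((hT P).1 hP).1 ((hT P).1 hP).2.1 (dvd_iff_le.1 d)]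
    split_ifs with e
    · rfl
    obtain ⟨P, h1, h2⟩ := exists_le_maximal _ e
    obtain ⟨L, hL⟩ := dvd_iff_le.2 (le_sup_left.trans h2)
    rw [hL, ha, (h P h1 (le_sup_right.trans h2)).resolve_right fun e' =>
      k P h1 e' (le_sup_left.trans h2), zero_mul]
  · obtain ⟨P, h1, h2⟩ := exists_le_maximal _ c
    rw [if_neg c]
    by_cases e : P ⊔ F = ⊤
    · rw [if_neg fun k => k P ((hT P).2 ⟨h1, le_sup_right.trans h2, e⟩)
        (dvd_iff_le.2 (le_sup_left.trans h2))]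
    · rw [if_neg (c := I ⊔ F = ⊤) fun k => h1.ne_top (top_unique (k.ge.trans
        (sup_le (le_sup_left.trans h2) (le_of h1 e)))), ite_self]

theorem sc_nn (B : Base ι J Ω) {d : ℝ} (hd : 0 ≤ d) (n k : ℕ) : 0 ≤ sc Ω d n k := by
  have := B.pos
  unfold sc
  positivity

end Vale.Agent.P014Y.Ln.Fi
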