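import Vale.Agent.P014Y.Ln.Vel
import Vale.Agent.P014Y.Ln.E1

/-! # P014 Y, block LN: values of forms at lattices against values of modular functions -/

set_option autoImplicit false
set_option linter.all false

open NumberField UpperHalfPlane CongruenceSubgroup ModularForm PowerSeries
open scoped Classical MatrixGroups Real ComplexConjugate NumberTheorySymbols

noncomputable section

namespace Vale.Agent.P014Y.Ln

open Vale.Agent.P022 (Qb GQ GK below)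
open Vale.Agent.P027H Vale.Agent.P027M.M Vale.Agent.P022.H218.L3 Vale.Agent.P022.H236.L3
  Vale.Agent.P022.H542.L3 Vale.Agent.P022.H236 Vale.Agent.P022D.Irr
open Vale.Agent.P004K Vale.Agent.P004K.Hg Vale.Agent.P004F.Qx
open P004Z.EF (Val)
open P004Z.Fin (vO mem_vO)
open P004C (Wa.Sp)
open P004C.Wa (jj MW QE Kd lf)
open P004C.Ln (Jc)
open P004C.Ln.Lg (cop_d iq sp_symm sp_sq v_lt)
open Vl3

namespace Lg3

variable {V : AbsoluteValue ℂ ℝ}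

theorem ov (h : V3 V) : P004Z.Fin.Ov V 3 :=
  ⟨Nat.prime_three, h.1, by rw [Nat.cast_ofNat, h.2]; norm_num⟩

theorem ex_pi (h : V3 V) {ρ : ℝ} (h0 : 0 ≤ ρ) (h1 : ρ < 1) :
    ∃ z : ℂ, V z < 1 ∧ V 3 ≤ V z ∧ ρ ≤ V z := by
  obtain ⟨i, hi⟩ := exists_pow_lt_of_lt_one (show (0 : ℝ) < 1 / 3 by norm_num) h1
  have i0 : i ≠ 0 := by
    rintro rfl
    norm_num at hi
  obtain ⟨z, hz⟩ := IsAlgClosed.exists_pow_nat_eq (3 : ℂ) (n := i) (by positivity)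
  have e : V z ^ i = 1 / 3 := by rw [← map_pow, hz, h.2]
  have z1 : V z < 1 := not_le.1 fun k => by
    have := one_le_pow₀ (n := i) k
    rw [e] at this
    norm_num at this
  refine ⟨z, z1, ?_, (pow_le_pow_iff_left₀ h0 (V.nonneg _) i0).1 (e ▸ hi.le)⟩
  rw [h.2, ← e]
  exact pow_le_of_le_one (V.nonneg _) z1.le i0

theorem thr {P : Ideal (𝓞 Qb)} (hP : P.IsPrime) (h : ((3 : ℕ) : 𝓞 Qb) ∈ P) {M : ℕ}
    (k : (M : 𝓞 Qb) ∈ P) : 3 ∣ M := by_contra fun n =>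
  nm_cop hP h (Nat.prime_three.coprime_iff_not_dvd.2 n).symm k

/-- modular functions against forms of weight four -/
theorem lnk {P : Ideal (𝓞 Qb)} {M : ℕ} (hP : P.IsPrime) (h2 : ((3 : ℕ) : 𝓞 Qb) ∈ P) (hV : Vp V P)
    (M0 : 0 < M) {u : Mer} (hu : u ∈ MF (Gamma0 M)) {s : LS} (hs : ExM 1 s u)
    (hi : ∀ n, V (s.coeff n) ≤ 1) {g : ℍ → ℂ} {t w : LS} {z : ℂ} (hg : IsMF (Gamma0 M) 4 g)
    (ht : ExL 1 (t * (1 + HahnSeries.C 3 * w)) g) (hw : w ∈ Int (vO hV.1)) (p2 : V 3 ≤ V z)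
    (p1 : V z ≤ 1) (hc : ∀ n, V (s.coeff n - t.coeff n) ≤ V z) : ∃ T : ℕ, ∀ δ, T ≤ δ →
    Squarefree δ → ∀ (K : Type) [Field K] [NumberField K] (j : K →+* Qb), Iq K →
    ∀ (c : ℕ) (θ : 𝓞 K) (I I' : Ideal (𝓞 K)), θ ^ 2 = -(δ : 𝓞 K) → Sp M I I' → I ≤ below j P →
    (c : 𝓞 Qb) ∉ P → ∀ h ∈ GK j, ∀ σ τ τ', Ex σ h → Hp (JJ j) M I c τ → Cj0 σ M τ τ' →
    (∃ D, Ty V M D τ') ∧ ∀ a, Val τ' u a → V (a - g τ' / E₄ τ') ≤ V z := by
  have p0 : z ≠ 0 := fun e => by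
    rw [e, map_zero] at p2
    exact p2.not_gt (V.pos three_ne_zero)
  have vp := V.pos p0
  have hE := isMF_E4.mono (le_top (a := Gamma0 M))
  have E0 : (E₄ : ℍ → ℂ) ≠ 0 := E4_ne
  obtain ⟨F, G, e1, e2⟩ := Vl3.E4_ser
  have m1 := mul_mem ((MF (Gamma0 M)).algebraMap_mem z⁻¹)
    (sub_mem hu (mem_MF.2 ⟨_, _, _, hg, hE, E0, rfl⟩))
  have x2 := (ExM.const 1 z⁻¹).mul (hs.add ((ExM.const 1 (-1)).mul
    (ExL.exM hg.hol hE.hol E0 ht exL_E4_one)))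
  rw [map_neg (algebraMap ℂ Mer), map_one, neg_one_mul, ← sub_eq_add_neg] at x2
  have i1 : s ∈ Int (vO hV.1) := mem_Int.2 hi
  have i2 : HahnSeries.C z⁻¹ * (s - t) ∈ Int (vO hV.1) := mem_Int.2 fun n => by
    rw [mem_vO, HahnSeries.C_mul_eq_smul, HahnSeries.coeff_smul, smul_eq_mul, map_mul, map_inv₀,
      inv_mul_le_one₀ vp, HahnSeries.coeff_sub]
    exact hc n
  have cp : (HahnSeries.C z : LS) * HahnSeries.C z⁻¹ = 1 := by
    rw [← map_mul, mul_inv_cancel₀ p0, map_one]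
  have i3 : t ∈ Int (vO hV.1) := by
    have := sub_mem i1 (mul_mem (C_mem (mem_vO.2 p1)) i2)
    rwa [← mul_assoc, cp, one_mul, sub_sub_cancel] at this
  have i4 : (HahnSeries.C (z⁻¹ * 3) : LS) ∈ Int (vO hV.1) := C_mem (by
    rwa [mem_vO, map_mul, map_inv₀, inv_mul_le_one₀ vp])
  obtain ⟨T, hT⟩ := mpc V P M hP (fun z => three_ne_zero (Nat.cast_eq_zero.1 (Ideal.mem_bot.1 (z ▸ h2))))
    hV M0 _ m1 _ x2 ((mem_Int (O := vO hV.1)).1 (by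
      have := add_mem i2 (mul_mem (mul_mem (mul_mem i4 (sub_mem (int_ls F) hw)) i3) (int_ls G))
      convert this using 1
      rw [div_eq_mul_inv, ← eq_inv_of_mul_eq_one_right e1, map_mul, map_neg, map_one]
      linear_combination HahnSeries.C z⁻¹ * (t * ls 0 (toCi G) * e2 - t * e1)))
  refine ⟨T, fun δ le sf K _ _ j q c θ I I' hθ sp hI c0 h hh σ τ τ' k1 k2 k3 => ?_⟩
  obtain ⟨D, hD, -⟩ := typ K j q M c δ θ I I' P V M0 hθ sf.ne_zero sp hP hV hI c0 h hh σ τ τ' k1 k2 k3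
  have n0 := E4_ne' (hV.ov hP Nat.prime_three h2) (thr hP h2 (by
    simpa [below] using hI ((sp.cn.1 M).2 dvd_rfl))) hD
  obtain ⟨r, r1, r2⟩ := hT δ le sf K j q c θ I I' hθ sp hI c0 h hh σ τ τ' k1 k2 k3
  refine ⟨⟨D, hD⟩, fun a ha => ?_⟩
  have w2 : Val τ' (inc _ hg.hol / inc _ hE.hol) (g τ' / E₄ τ') :=
    ⟨⟨_, hg.hol⟩, ⟨_, hE.hol⟩, n0, div_mul_cancel₀ _ (inc_ne_zero hE.hol E0),
      (div_mul_cancel₀ _ n0).symm⟩
  have := Vl.uniq r2 (Vl.mul (Vl.const τ' z⁻¹) (Vl.sub ha w2))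
  rwa [this, map_mul, map_inv₀, inv_mul_le_one₀ vp] at r1

/-- the ring of integers is an ordinary lattice -/
theorem ord {K : Type} [Field K] [NumberField K] {j : K →+* Qb} {D m : ℕ} {θ : 𝓞 K}
    {n n' : Ideal (𝓞 K)} {P : Ideal (𝓞 Qb)} (hP : P.IsPrime) (h2 : ((3 : ℕ) : 𝓞 Qb) ∈ P)
    (hV : Vp V P) (h : Kd (Jc j) D θ) (s : Wa.Sp m n n') (le : n ≤ below j P) {ν : 𝓞 K}
    (h1 : ν ∈ n') (h3 : ν - 1 ∈ n) : 3 ∣ m ∧ V (JJ j ν) = 1 ∧ V (conj (JJ j ν)) < 1 := by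
  have o := hV.ov hP Nat.prime_three h2
  have d : 3 ∣ m := thr hP h2 (by simpa [below] using le (P004C.Wa.Pe.M_mem s).1)
  have v : V (JJ j ν) = 1 := by
    have := o.add_eq (y := 1) (((v_lt hP hV).2 (le h3)).trans_eq V.map_one.symm)
    rwa [map_sub, map_one, sub_add_cancel, map_one] at this
  refine ⟨d, v, ?_⟩
  obtain ⟨t, a, b⟩ := P004C.Wa.Pe.ex_cj h
  have e := o.of_dvd ((Int.natCast_dvd_natCast.2 d).trans (P004C.Wa.Pe.int_mem (sp_symm h s)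
    (k := (Ideal.absNorm (Ideal.span {ν}) : ℕ)) (by
      rw [Int.cast_natCast, ← b]; exact n'.mul_mem_right _ h1)))
  rwa [Int.cast_natCast, P004C.Wa.Pe.nm_eq h, map_mul, show V (Jc j ν) = 1 from v, one_mul] at e

theorem fin (o : P004Z.Fin.Ov V 3) {g h e X Y y : ℂ} {δ : ℝ} (h0 : h ≠ 0) (e0 : e ≠ 0)
    (r1 : Rl V (h ^ 4) e) (r2 : Rl V X Y) (y1 : V y ≤ 1) (d3 : V 3 ≤ δ) (d1 : δ ≤ 1)
    (v : V (y - g * h ^ 3 / e) ≤ δ) : V (X * (g / h) - Y * y) ≤ δ * V Y := by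
  obtain ⟨Z, hZ⟩ : ∃ Z, Z = g * h ^ 3 / e := ⟨_, rfl⟩
  rw [← hZ] at v
  have Z1 : V Z ≤ 1 := by
    have := o.sub_le y1 (v.trans d1)
    rwa [sub_sub_cancel] at this
  have a := (r1.symm o).mul (h ^ 4)⁻¹
  rw [inv_mul_cancel₀ (pow_ne_zero _ h0), Vl3.Rl, map_one, mul_one] at a
  have Y0 := V.nonneg Y
  rw [show X * (g / h) - Y * y = Z * (((h ^ 4)⁻¹ * e - 1) * X) + Z * (X - Y) - (y - Z) * Y by
    rw [hZ]; field_simp; ring]
  refine o.sub_le (o.add_le ?_ ?_) ?_ <;> simp only [map_mul]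
  · rw [r2.eq o]
    exact (mul_le_of_le_one_left (by positivity) Z1).trans
      (mul_le_mul_of_nonneg_right (a.trans d3) Y0)
  · exact (mul_le_of_le_one_left (V.nonneg _) Z1).trans
      (le_trans r2 (mul_le_mul_of_nonneg_right d3 Y0))
  · exact mul_le_mul_of_nonneg_right v Y0

end Lg3

open Lg3

theorem lkg (h1 : P004K.RC1) : LKG := fun V P hP hV2 hV M' m m0 dM u hu s hs hz G A ρ hG hq
    ρ1 hc => by
  obtain ⟨-, hP, h2⟩ := hP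
  have o := ov hV2
  have M0 : 0 < m ^ 2 := pow_pos m0 2
  have M1 : 0 < M' := Nat.pos_of_dvd_of_pos dM M0
  have ρ0 : 0 ≤ ρ := (V.nonneg _).trans (hc 0)
  obtain ⟨z, z1, z2, z3⟩ := ex_pi hV2 ρ0 ρ1
  obtain ⟨H, F, E⟩ := ex_eh eis
  by_cases d2 : 3 ∣ m
  swap
  · exact ⟨0, 0, one_pos, fun D _ K _ _ j θ kd n n' I ν sp ln _ _ ν1 ν2 => absurd (ord hP h2 hV kd sp
      ln (Ideal.pow_le_self two_ne_zero ν1) (Ideal.pow_le_self two_ne_zero ν2)).1 d2⟩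
  have d3 : 3 ∣ m ^ 2 := d2.pow two_ne_zero
  have hg := mf4 E hG d3 fun γ h => if_pos (cop_d h)
  have hu' : u ∈ MF (Gamma0 (m ^ 2)) := MF_mono (fun γ h => mem_G0.2
    ((Int.natCast_dvd_natCast.2 dM).trans (mem_G0.1 h))) hu
  have hi := fun i => hz.le Nat.prime_three hP h2 hV i
  obtain ⟨a, ha⟩ := sub_dvd_pow_sub_pow (⟨_, t_int F⟩ : Int (vO hV.1)) 1 3
  have ha' : (1 + HahnSeries.C 3 * ls 0 (toCi F)) ^ 3 - 1 ^ 3 =
      (1 + HahnSeries.C 3 * ls 0 (toCi F) - 1) * a.1 := congrArg Subtype.val ha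
  obtain ⟨T, hT⟩ := lnk hP h2 hV M0 hu' hs hi hg (t := ls 0 (PowerSeries.mk A))
    (w := ls 0 (toCi F) * a.1) (by
      convert (exl hq).mul (E.ex.pow 3) using 2
      linear_combination -ha') (mul_mem (int_ls F) a.2) z2 z1.le fun i => by
    rcases lt_or_ge i 0 with hn | hn
    · rw [hz.1 i hn, coeff_ls_of_lt 0 _ hn, sub_zero, map_zero]
      exact V.nonneg _
    lift i to ℕ using hn
    have := coeff_ls 0 (PowerSeries.mk A) i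
    rw [zero_add] at this
    rw [this, PowerSeries.coeff_mk]
    exact (hc i).trans z3
  obtain ⟨T', hT'⟩ := mpc V P _ hP (fun z => three_ne_zero (Nat.cast_eq_zero.1 (Ideal.mem_bot.1 (z ▸ h2))))
    hV M0 u hu' s hs hi
  refine ⟨max T T', V z, z1, fun D le K _ _ j θ kd n n' I ν sp ln cn lI ν1 ν2 => ?_⟩
  have q := iq kd
  have sq2 := sp_sq sp
  have l2 : n ^ 2 ≤ n := Ideal.pow_le_self two_ne_zero
  obtain ⟨-, b1, b2⟩ := ord hP h2 hV kd sp ln (Ideal.pow_le_self two_ne_zero ν1) (l2 ν2)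
  obtain ⟨t₀, B₀⟩ := bs Rc.iq q j
  obtain ⟨t₁, ht₁, B₁⟩ := B₀.ex sq2.cn
  obtain ⟨t, N, et⟩ := B₁.sq
  obtain ⟨cj, qd⟩ := Rc.ex_qd B₁.inj B₁.bas B₁.im
  have b3 : ∀ z ∈ Oc (JJ j) 1, JJ j ν * z ∈ Oc (JJ j) 1 := by simpa using kl_Oc (c := 1) ν
  rw [show C.Lk (Jc j) = Oc (JJ j) 1 from P004C.Ln.Lg.lk_eq j]
  obtain ⟨ω₀, τ₀, x₁, x₂, x₃, x₄, k₀, y₁, y₂⟩ := ex_ty o (B₁.lat one_pos) b1 b2 b3
  have T₀ : Ty V 3 _ τ₀ := ⟨x₁, x₂, x₃, x₄, _, y₁, y₂, b1, rfl⟩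
  obtain ⟨x₅, x₆, y₃⟩ := mem_lat.1 ((k₀.symm.2 1).1 ⟨1, 0, by simp⟩)
  obtain ⟨d₀, x₇, y₄⟩ : ∃ d₀ x : ℤ, JJ j ν = ω₀ * (3 * x * τ₀ + d₀) :=
    ⟨x₅ * x₂ + x₆ * x₄, x₅ * x₁ + x₆ * x₃, by
      push_cast at y₁ y₂ ⊢
      linear_combination ω₀ * x₅ * y₁ + ω₀ * x₆ * y₂ - ω₀ * JJ j ν * y₃ -
        JJ j ν * mul_inv_cancel₀ k₀.1⟩
  have lo : ∀ z ∈ Oc (JJ j) 1, V z ≤ 1 := fun z ⟨l, a, e⟩ => by
    rw [e, Nat.cast_one, one_mul]
    exact o.add_le (o.le l) (hV.le hP (RingOfIntegers.mapRingHom j a))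
  have n₀ : ¬ 3 ∣ d₀ := fun ⟨x, e⟩ => by
    have := lo _ ((k₀.2 _).1 (mem_lat.2 ⟨x₇, x, rfl⟩))
    rw [y₄, e, show ω₀ * (3 * x₇ * τ₀ + (3 * x : ℤ)) = 3 * (ω₀ * (x₇ * τ₀ + x)) by push_cast; ring,
      map_mul, hV2.2] at b1
    linarith
  have vJ : ∀ x : ℤ, ¬ 3 ∣ x → V (J(x | 3) : ℤ) = 1 := fun x h =>
    o.of_ndvd (mt (Vl3.z3 _).1 (by rw [J3]; exact mt (Vl3.z3 _).2 h))
  refine ⟨2 * π * (J(d₀ | 3) * (H τ₀ / ω₀)), by
    rw [mul_left_comm, map_mul, vJ _ n₀, one_mul, size o E k₀ (B₁.lat one_pos) T₀],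
    fun c B g σ τ τ' y c0 co cB ar ex hp cj0 vy => ?_⟩
  have cP : (c : 𝓞 Qb) ∉ P := nm_cop (p := 3) hP h2 (co.coprime_dvd_right d2)
  obtain ⟨τ₁, -, hom⟩ := B₁.hom c0 t
  have p1 : Hp (JJ j) (m ^ 2) (n ^ 2) c τ₁ := at_iff.2 ⟨_, hom, B₁.st_Oc c0 M0 et sq2.cn ht₁⟩
  have p2 : Hp (JJ j) M' I c τ₁ := at_iff.2 ⟨_, hom, B₁.st_Oc c0 M1 et cn (lI ht₁)⟩
  obtain ⟨τ₂, c2⟩ := ex_cj0 σ M0 τ₁
  have c3 : Cj0 σ M' τ₁ τ₂ := by
    obtain ⟨ψ, tp, a, h⟩ := c2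
    obtain ⟨w, hw⟩ := dM
    have w0 : (w : ℂ) ≠ 0 := fun z => M0.ne' (by rw [hw, Nat.cast_eq_zero.1 z, mul_zero])
    have : (M' : ℂ) ≠ 0 := Nat.cast_ne_zero.2 M1.ne'
    refine ⟨ψ, tp, a, mem_of_eq (add_mem (tp.int w (1 / (m ^ 2 : ℕ))) (int_mul_mem w h)) ?_⟩
    rw [hw, show ((w : ℤ) : ℂ) * (1 / (M' * w : ℕ)) = 1 / M' by push_cast; field_simp]
    push_cast
    field_simp
    ring
  have vy' : Val τ₂ u y := tr0 1 M' τ' τ₂ M1 ((cj0_one M1).2 ((c3.tgt M1).1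
    ((cj0.src M1).2 ((at_uq P004K.cj0 M1 hp).1 p2)))) u hu s hs (fun i => by
      rcases lt_or_ge i 0 with hn | hn
      · exact ⟨0, by rw [hz.1 i hn, Rat.cast_zero]⟩
      lift i to ℕ using hn
      obtain ⟨a, d, d0, e⟩ := hz.2 i
      have : (d : ℂ) ≠ 0 := Nat.cast_ne_zero.2 fun z => d0 (z ▸ dvd_zero _)
      exact ⟨a / d, by push_cast; rw [← e]; field_simp⟩) y vy
  obtain ⟨⟨D₂, T₂⟩, v2⟩ := hT D (le_of_max_le_left le) kd.sqf K j q c θ _ _ kd.sq sq2 (l2.trans ln) cP g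
    ar.1 σ τ₁ τ₂ ex p1 c2
  obtain ⟨y', y1, y2⟩ := hT' D (le_of_max_le_right le) kd.sqf K j q c θ _ _ kd.sq sq2 (l2.trans ln)
    cP g ar.1 σ τ₁ τ₂ ex p1 c2
  obtain rfl := Vl.uniq vy' y2
  refine ⟨y1, ?_⟩
  have v3 := v2 y vy'
  have kl := qd.kl_st (qd.kl_Oc c0) cB.1
  obtain ⟨ψ, tp⟩ := tp_of_j jh (σ := σ) (B₁.lat c0) kl.lat (by rw [ar_j h1 q c0 ex, ar.2])
  obtain ⟨ω, hω, hst⟩ := (st_cj M0 p1 tp (ex.JJ ar.1)).2 c2
  have mC : ((m ^ 2 : ℕ) : ℂ) ≠ 0 := Nat.cast_ne_zero.2 M0.ne'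
  obtain ⟨d, hd⟩ := (hst (c * JJ j ν / (m ^ 2 : ℕ))).1 fun a ha _ => by
    obtain ⟨b, hb⟩ := Ideal.mem_span_singleton'.1 (sq2.mul ▸ Ideal.mul_mem_mul ha ν1)
    have := congrArg (JJ j) hb
    rw [map_mul, map_mul, map_natCast] at this
    exact le_st (mem_of_eq (c_Oc (c := c) b) (by
      rw [mul_div_assoc', div_eq_iff mC]; linear_combination -c * this))
  obtain ⟨x, hx, b, ex1⟩ := Rc.cop_ex cB
  have rx : Rc.Rc c x := Rc.rc_u (b := m * b) (by rw [← ex1]; push_cast; ring)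
  have xs : ∀ z ∈ st (JJ j) B (Oc (JJ j) c), JJ j x * z ∈ Oc (JJ j) c := fun z h =>
    h x hx fun _ => rx.oc
  have mn := (P004C.Wa.Pe.M_mem sp).1
  have cd : IsCoprime d (m : ℤ) := P004Z.Hd.cop_of fun p hp ⟨d', e1⟩ ⟨m', e2⟩ => by
    have p0 : (p : ℂ) ≠ 0 := Nat.cast_ne_zero.2 hp.ne_zero
    have e2' : (m : ℂ) = p * m' := by exact_mod_cast e2
    have m1 : (m' : ℂ) ≠ 0 := fun z => by simp [e2', z] at mC
    obtain ⟨l, a, e⟩ := xs (c * JJ j ν / p) (mem_of_eq (add_mem (int_mul_mem (m * m') hd)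
      (int_mul_mem d' ((hω.2 1).1 Hg.one_lat))) (by
        rw [e1]; push_cast; rw [e2']; field_simp; ring))
    have e3 : x * (c * ν) = p * (l + c * a) := B₁.inj (by
      simp only [map_mul, map_add, map_natCast, map_intCast]
      rw [← e]
      field_simp)
    obtain ⟨a', ha'⟩ := sp.cn a
    have e4 := P004C.Wa.Pe.int_mem sp (k := c - p * (l + c * a')) (by
      have := add_mem (add_mem (n.mul_mem_left (p * c) ha') (n.mul_mem_left (-(c * x)) (l2 ν2)))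
        (n.mul_mem_left (c * c * b) mn)
      push_cast at ex1 ⊢
      rwa [show (c : 𝓞 K) - p * (l + c * a') = p * c * (a - a') + -(c * x) * (ν - 1) +
        c * c * b * m by linear_combination e3 - c * ex1])
    have e5 : (p : ℤ) ∣ c := by
      have := dvd_add ((Dvd.intro _ e2.symm).trans e4) (dvd_mul_right (p : ℤ) (l + c * a'))
      rwa [sub_add_cancel] at this
    exact hp.one_lt.ne' (Nat.eq_one_of_dvd_coprimes co (Int.natCast_dvd_natCast.1 e5)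
      (Int.natCast_dvd_natCast.1 (Dvd.intro _ e2.symm)))
  have lfe := P004C.Wa.Pe.lf_eq (k := 1) (ε := e3 m) (G := G) M0 (fun γ h τ => by rw [hG.law γ h, pow_one])
    (Λ := st (JJ j) B (Oc (JJ j) c)) (ω := ω) (τ := τ₂) (d := d)
    (P := c * Jc j ν / (m ^ 2 : ℕ)) ⟨hω.1, fun z => by
      rw [SetLike.mem_coe, hω.symm.2, mem_lat]
      exact exists₂_congr fun a b => by rw [eq_inv_mul_iff_mul_eq₀ hω.1, eq_comm]⟩
    (by rw [Nat.cast_pow]; exact cd.pow_right)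
    (fun a b h => by
      obtain ⟨k, hk⟩ : (m : ℤ) ∣ a - b := (Dvd.intro _ (by push_cast; ring)).trans h
      obtain ⟨m', hm⟩ := d2
      rw [e3, e3, show a = b + m * k by linear_combination hk, jacobiSym.mod_left' (a₂ := b) (by
        rw [hm]; push_cast; rw [mul_assoc, Int.add_mul_emod_self_left])]
      simp only [IsCoprime.add_mul_left_left_iff])
    (mem_of_eq (neg_mem hd) (by rw [neg_sub, mul_div_assoc]; rfl))
  obtain ⟨w, hw⟩ := qd.nm x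
  obtain ⟨m', hm⟩ := d2
  have ow : ¬ 3 ∣ w := fun ⟨w', ev⟩ => by
    subst hm ev
    have e := congrArg cj ex1
    simp only [map_add, map_mul, map_natCast, map_one] at e
    push_cast at e ex1 hw
    have := qd.dvd_int (n := 3) (k := 1) ⟨w' + c * m' * (b + x * cj b), by
      push_cast; linear_combination -ex1 - x * e + hw⟩
    norm_num at this
  have oc : ¬ (3 : ℤ) ∣ c := fun z => absurd (Nat.eq_one_of_dvd_coprimes co
    (Int.natCast_dvd_natCast.1 z) ⟨m', hm⟩) (by norm_num)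
  have od : ¬ 3 ∣ d := fun z => absurd (cd.isUnit_of_dvd' z ⟨m', by exact_mod_cast hm⟩) (by decide)
  have l' : ∀ z ∈ st (JJ j) B (Oc (JJ j) c), ((c * w : ℤ) : ℂ) * z ∈ Oc (JJ j) 1 := fun z h => by
    obtain ⟨l, a, e⟩ := st_int (I := B) (m := w) (hw ▸ B.mul_mem_right _ hx) h
    exact ⟨c * l, c * c * a, by
      simp only [map_mul, map_natCast]; push_cast; linear_combination c * e⟩
  have m1 : (m' : ℂ) ≠ 0 := fun z => by simp [hm, z] at mC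
  have rl := (has3 o E k₀ hω T₀ (s := c * d₀) (fun z => (Int.prime_three.dvd_or_dvd z).elim oc ow) od
    (fun z ⟨l, a, e⟩ => le_st (mem_of_eq (c_Oc (c := c) (w * (l + a))) (by
      simp only [e, map_mul, map_add, map_intCast]; push_cast; ring))) l' (mem_of_eq
      (sub_mem (int_mul_mem (c * w * c * x₇) ((k₀.2 _).1 (tau_lat τ₀)))
        (l' _ (int_mul_mem (m * m') hd))) (by
      rw [y₄, hm]; push_cast; field_simp; ring))).mul (2 * π)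
  have H0 := h_ne o E M0 d3 T₂
  have := fin o H0 (E4_ne' o d3 T₂) (h4 o E M0 d3 T₂) rl y1 z2 z1.le v3
  rw [jacobiSym.mul_left, Int.cast_mul, mul_assoc (J(c | 3) : ℂ), mul_left_comm _ (J(c | 3) : ℂ),
    map_mul V (J(c | 3) : ℂ), vJ _ oc, one_mul] at this
  rw [lfe, e3, if_pos cd]
  convert this using 3
  field_simp

end Vale.Agent.P014Y.Ln
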