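import Vale.Agent.P014Y.Ln.St0
import Vale.Agent.P014Y.Fe.St
import Vale.Agent.P014Y.Tp.Defs
import Vale.Agent.P014Y.Br.Defs
import Vale.Agent.P014Y.C.Cg.St

/-!
# P014 Y, block LN: the period half, rows which do not mention the frame
-/

set_option autoImplicit false

open NumberField Module UpperHalfPlane
open scoped Classical Real ComplexConjugate NumberTheorySymbols

noncomputable section

namespace Vale.Agent.P014Y.Ln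

open P004C.Wa (Chr MW QE co Kd Sp Ha Rc per)
open P004C.Ln (Cr Cp Hm Dp Rg Ro pc Hb)
open P004C.Al (Cm)
open P014Y.C (Base Vb dv Pv Av HC AC sc Sm TF)
open P014Y.Fe (Dv Xm xs eP LA Eg Pc cd cj Li nu de)
open P014Y.Br (Wt)
open P014Y.C.Cg (Lc)

/-! ### words -/

/-- `M` contains the cube roots of unity -/
def Z3 (M : Type) [Field M] : Prop := ∃ w : M, w ^ 2 + w + 1 = 0

/-- depletion of coefficients -/
def dA (m : ℕ) (A : ℕ → ℂ) (k : ℕ) : ℂ := if k.Coprime m then A k else 0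

/-- a form of weight one and character `χ₋₃`, eigenform outside `R` -/
structure Wf (R N : ℕ) (g : ℍ → ℂ) (A : ℕ → ℂ) : Prop where
  pos : 0 < N
  lev : ∀ p : ℕ, p.Prime → p ∣ N → p ∣ R
  mw : MW N (fun d => (J(d | 3) : ℂ)) g
  qe : QE g A
  one : A 1 = 1
  hk : ∀ l : ℕ, l.Prime → ¬ l ∣ R → ∀ n,
    A (l * n) + (if l ∣ n then J(l | 3) * A (n / l) else 0) = A l * A n
  rt : ∀ l : ℕ, l.Prime → ¬ l ∣ R → ∃ x y : ℂ, ‖x‖ = 1 ∧ ‖y‖ = 1 ∧ x * y = J(l | 3) ∧ x + y = A l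

section

variable {K : Type} [Field K] [NumberField K]

/-- `M = L (θ)`, and the discriminants are coprime -/
structure Bc (D : ℕ) (θ : 𝓞 K) (L M : Type) [Field L] [NumberField L] [Field M] [Algebra K M]
    [Algebra L M] : Prop where
  two : finrank L M = 2
  ne : ∀ x : L, algebraMap L M x ≠ algebraMap K M θ
  cop : (discr L).natAbs.Coprime D

/-- the character of `M` -/
def cM (M : Type) [Field M] [NumberField M] {L : Type} [Field L] [NumberField L] [Algebra K M]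
    [Algebra L M] (φ : Ideal (𝓞 L) → ℂ) (a : Ideal (𝓞 K) → ℂ) (I : Ideal (𝓞 M)) : ℂ :=
  φ (Ideal.relNorm (𝓞 L) I) * a (Ideal.relNorm (𝓞 K) I)

/-- the weight `α N ^ (-s)` on the ideals prime to `m` -/
def ls (m : ℕ) (α : Ideal (𝓞 K) → ℂ) (s : ℂ) (I : Ideal (𝓞 K)) : ℂ :=
  if (Ideal.absNorm I).Coprime m then α I * xs s (Ideal.absNorm I) else 0

/-- the values on the divisors of the powers of `m` -/
def xa (α : Ideal (𝓞 K) → ℂ) (s : ℂ) (k : ℕ) : ℂ := co α k * xs s k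

/-- the Rankin-Selberg series -/
def Rk (D : ℕ) (A : ℕ → ℂ) (lam : Ideal (𝓞 K) → ℂ) : ℂ :=
  (∑' v : ℕ, J(v | D) * J(v | 3) * lam (Ideal.span {(v : 𝓞 K)})) * ∑' k, A k * co lam k

end

/-- the local factors at the primes of `m` -/
def Ef (V : AbsoluteValue ℂ ℝ) {M : Type} [Field M] [NumberField M] (m : ℕ)
    (a : Ideal (𝓞 M) → ℂ) : ℝ :=
  ∏ᶠ w ∈ {w : Ideal (𝓞 M) | w.IsMaximal ∧ (m : 𝓞 M) ∈ w}, V (1 - (Ideal.absNorm w * a w)⁻¹)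

section

variable {κ : Type} [Fintype κ] {L : κ → Type} [∀ i, Field (L i)] [∀ i, NumberField (L i)]

/-- the fields and the characters `ε`, `ε η` -/
structure Fm (R : ℕ) (f₀ f₁ : ∀ i, Ideal (𝓞 (L i))) (φ₀ φ₁ : ∀ i, Ideal (𝓞 (L i)) → ℂ) : Prop where
  z3 : ∀ i, Z3 (L i)
  p0 : ∀ i, Pc (f₀ i) (φ₀ i)
  p1 : ∀ i, Pc (f₁ i) (φ₁ i)
  re : ∀ i, cj (φ₀ i) = φ₀ i
  cub : ∀ i I, φ₁ i I ≠ 0 → φ₁ i I ^ 3 = φ₀ i I
  d0 : ∀ i, Dv R (cd (f₀ i))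
  d1 : ∀ i, Dv R (cd (f₁ i))
  deg : ∑ i, finrank ℚ (L i) = 8

/-- the identity of Euler products over `ℚ` -/
def EQ (R : ℕ) (A : ℕ → ℂ) (φ₀ φ₁ : ∀ i, Ideal (𝓞 (L i)) → ℂ) : Prop := ∀ s : ℂ, 2 < s.re →
  (LA (dA R A) s * LA (fun k => conj (dA R A k)) s) ^ 2 * ∏ i, Li (P004C.Wa.dp R (φ₀ i)) s =
    ∏ i, Li (P004C.Wa.dp R (φ₁ i)) s * Li (P004C.Wa.dp R (cj (φ₁ i))) s

/-- the identity of Euler products over `K` -/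
def EK {K : Type} [Field K] [NumberField K] (D R : ℕ) (A : ℕ → ℂ) (M : κ → Type) [∀ i, Field (M i)]
    [∀ i, NumberField (M i)] [∀ i, Algebra K (M i)] [∀ i, Algebra (L i) (M i)]
    (φ₀ φ₁ : ∀ i, Ideal (𝓞 (L i)) → ℂ) : Prop := ∀ lam : Ideal (𝓞 K) → ℂ, Wt lam →
  (∀ I, ¬ (Ideal.absNorm I).Coprime R → lam I = 0) →
  (Rk D A lam * Rk D (fun k => conj (A k)) lam) ^ 2 * ∏ i, ∑' I, cM (M i) (φ₀ i) lam I =
    ∏ i, (∑' I, cM (M i) (φ₁ i) lam I) * ∑' I, cM (M i) (cj (φ₁ i)) lam I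

end

/-! ### forms -/

/-- the two depleted forms -/
def TWS : Prop := ∀ R N g A, Wf R N g A → 3 ∣ R → ∀ m : ℕ, 0 < m → N * R ∣ m →
  (∀ p : ℕ, p.Prime → p ∣ m → p ∣ R) → ∃ G₁ G₂ B₁ B₂, Eg m (e3 m) G₁ (dA R A) B₁ ∧
    Eg m (e3 m) G₂ (fun k => conj (dA R A k)) B₂ ∧ Hm R (fun p => J(p | 3)) (dA R A) ∧
    Hm R (fun p => J(p | 3)) (fun k => conj (dA R A k)) ∧
    ∀ k, conj (dA R A k) = J(k | 3) * dA R A k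

/-- **twisting by a primitive character and the Fricke involution** -/
def WEI : Prop := ∀ (m c : ℕ) (ε χ : ℤ → ℂ) G A B, 1 < m → Eg m ε G A B → 0 < c → c.Coprime m →
  Cr c χ → Cp c χ → ∃ (G' : ℍ → ℂ) (κ : ℂ), Eg (m * c) (fun d => ε d * conj (χ d) ^ 2) G'
    (fun k => A k * conj (χ k)) (fun k => κ * (B k * χ k)) ∧
    ∀ V : AbsoluteValue ℂ ℝ, IsNonarchimedean V → V c = 1 → V κ = 1

/-- **twisting of periods** (the text of P004C, any place which does not divide `c`) -/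
def TWI : Prop := ∀ (K : Type) [Field K] [NumberField K] (J : K →+* ℂ) (D : ℕ) (θ : 𝓞 K),
  Kd J D θ → ∀ (m c : ℕ) (n n' w w' : Ideal (𝓞 K)) (ε ε' χ : ℤ → ℂ) (A : ℕ → ℂ) (g G : ℍ → ℂ)
  (ξ b a : Ideal (𝓞 K) → ℂ) (ν ν' : 𝓞 K) R, Sp m n n' → Sp c w w' → Squarefree c →
  c.Coprime (2 * m * D) → D.Coprime m → Chr m ε → MW (m ^ 2) ε g → QE g A → Rg c ξ → Cr c χ →
  Cp c χ → (∀ (x : 𝓞 K) (k k' : ℤ), x ≠ 0 → x - k ∈ w → x - k' ∈ w' →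
    ξ (Ideal.span {x}) = χ k * conj (χ k')) → (∀ d, ε' d = ε d * conj (χ d) ^ 2) →
  MW ((m * c) ^ 2) ε' G → QE G (fun i => A i * conj (χ i)) → Hb J 1 n (fun d => conj (ε d)) b →
  Ha J (n' * w') ε' a → (∀ I, (Ideal.absNorm I).Coprime (m * c) →
    a I = b I * ξ I * ε (Ideal.absNorm I) * conj (χ (Ideal.absNorm I))) →
  ν ∈ n' ^ 2 → ν - 1 ∈ n ^ 2 → ν' ∈ (n' * w') ^ 2 → ν' - 1 ∈ (n * w) ^ 2 → Rc (m * c) R →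
  ∃ κ : ℂ, (∀ V : AbsoluteValue ℂ ℝ, IsNonarchimedean V → V c = 1 → V κ = 1) ∧
    ∀ (β : Type) [Fintype β] (B : β → Ideal (𝓞 K)), Ro c m B →
    per J ((m * c) ^ 2) ε' G a ν' R = κ * pc J 1 (m ^ 2) c g (fun I => ξ I * b I) ν B

/-- **the square of the period of one form** (from `WALS`, `WEI`, `TWI`, `MUL`) -/
def PV1 : Prop := ∀ V, V3 V → ∀ (K : Type) [Field K] [NumberField K] (J : K →+* ℂ) (D : ℕ)
  (θ : 𝓞 K), Kd J D θ → ∀ (m c : ℕ) (n n' w w' : Ideal (𝓞 K)) (ξ b : Ideal (𝓞 K) → ℂ) (ν : 𝓞 K),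
  6 ∣ m → Sp m n n' → Sp c w w' → Squarefree c → c.Coprime (m * D) → D.Coprime m →
  (∃ s ∈ n', V (J s) = 1) → Rg c ξ → Hb J 1 n (e3 m) b → ν ∈ n' ^ 2 → ν - 1 ∈ n ^ 2 →
  ∃ α : Ideal (𝓞 K) → ℂ, HC J 1 (n' * Ideal.span {(c : 𝓞 K)}) α ∧
    (∀ I, (Ideal.absNorm I).Coprime (m * c) → α I = b I * ξ I * e3 m (Ideal.absNorm I)) ∧
    (∀ I, α I = 0 ∨ ‖α I‖ ^ 2 * Ideal.absNorm I = 1) ∧
    (∀ t, Dv m t → V (co α t) * V t = 1) ∧ (∀ s : ℂ, Xm m (1 / 2 + s.re) (xa α s)) ∧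
    ∀ G A B, Eg m (e3 m) G A B → ∃ (L : ℂ → ℂ) (u : ℂ), V u = 1 ∧
      DifferentiableOn ℂ L {s | -(1 / 2) < s.re} ∧ (∀ s : ℂ, 1 < s.re →
        L s = u * eP m B (xa α s) * Rk D (fun k => conj (A k)) (ls m α s)) ∧
      ∀ (β : Type) [Fintype β] (R : β → Ideal (𝓞 K)), Ro c m R →
        V (2 * π * pc J 1 (m ^ 2) c G (fun I => ξ I * b I) ν R) ^ 2 = V m ^ 2 * V (L 0)

/-! ### the compositum -/

/-- integers and split primes -/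
def SPL : Prop := ∀ (K : Type) [Field K] [NumberField K] (J : K →+* ℂ) (D : ℕ) (θ : 𝓞 K),
  Kd J D θ → ∀ (L M : Type) [Field L] [NumberField L] [Field M] [NumberField M] [Algebra K M]
  [Algebra L M], Bc D θ L M → finrank K M = finrank ℚ L ∧
  (∀ η : 𝓞 K, 2 * η = 1 + θ → ∀ x : 𝓞 M, ∃! u : 𝓞 L × 𝓞 L, x = algebraMap (𝓞 L) (𝓞 M) u.1 +
    algebraMap (𝓞 L) (𝓞 M) u.2 * algebraMap (𝓞 K) (𝓞 M) η) ∧
  ∀ (m : ℕ) (n n' : Ideal (𝓞 K)), Sp m n n' →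
    (∀ x : 𝓞 M, ∃ y : 𝓞 L, x - algebraMap (𝓞 L) (𝓞 M) y ∈ n.map (algebraMap (𝓞 K) (𝓞 M))) ∧
    (∀ y : 𝓞 L, algebraMap (𝓞 L) (𝓞 M) y ∈ n.map (algebraMap (𝓞 K) (𝓞 M)) ↔
      y ∈ Ideal.span {(m : 𝓞 L)}) ∧
    Set.BijOn (Ideal.relNorm (𝓞 L))
      {Q : Ideal (𝓞 M) | Q.IsMaximal ∧ n.map (algebraMap (𝓞 K) (𝓞 M)) ≤ Q}
      {P | P.IsMaximal ∧ (m : 𝓞 L) ∈ P} ∧
    ∀ Q : Ideal (𝓞 M), Q.IsMaximal → n.map (algebraMap (𝓞 K) (𝓞 M)) ≤ Q →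
      Ideal.relNorm (𝓞 L) Q = Q.under (𝓞 L) ∧ ∀ α : Ideal (𝓞 K) → ℂ, Cm α →
        (∀ I, I ⊔ n' ≠ ⊤ → α I = 0) → α (Ideal.relNorm (𝓞 K) Q) = co α (Ideal.absNorm Q)

/-- the series of `M` -/
def SER : Prop := ∀ (K : Type) [Field K] [NumberField K] (J : K →+* ℂ) (D : ℕ) (θ : 𝓞 K),
  Kd J D θ → ∀ (L M : Type) [Field L] [NumberField L] [Field M] [NumberField M] [Algebra K M]
  [Algebra L M], Bc D θ L M → ∀ (m : ℕ) (n n' : Ideal (𝓞 K)) f φ (α : Ideal (𝓞 K) → ℂ), 1 < m →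
  Sp m n n' → Pc (M := L) f φ → Cm α → (∀ I, I ⊔ n' ≠ ⊤ → α I = 0) →
  (∀ I, α I = 0 ∨ ‖α I‖ ^ 2 * Ideal.absNorm I = 1) → (∀ t, Dv m t → co α t ≠ 0) →
  (∀ s : ℂ, 1 < s.re → Wt (ls m α s) ∧ de m φ (xa α s) ≠ 0 ∧ ∑' I, cM M φ (ls m α s) I =
    de m φ (xa α s) * ∑' I, cM M φ α I * (Ideal.absNorm I : ℂ) ^ (-s)) ∧
  Differentiable ℂ (fun s => nu m φ (xa α s)) ∧
  ∀ V : AbsoluteValue ℂ ℝ, V (nu m φ (xa α 0)) = Ef V m (cM M (cj φ) α)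

/-- **the periods against the values of the Hecke series** (from `FEQ`, `PV1`, `SER`) -/
def PVY : Prop := ∀ V, V3 V → ∀ (K : Type) [Field K] [NumberField K] (J : K →+* ℂ) (D : ℕ)
  (θ : 𝓞 K), Kd J D θ → ∀ (κ : Type) [Fintype κ] (L M : κ → Type) [∀ i, Field (L i)]
  [∀ i, NumberField (L i)] [∀ i, Field (M i)] [∀ i, NumberField (M i)] [∀ i, Algebra K (M i)]
  [∀ i, Algebra (L i) (M i)] f₀ f₁ φ₀ φ₁ (m c : ℕ) (n n' w w' : Ideal (𝓞 K))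
  (ξ b : Ideal (𝓞 K) → ℂ) (ν : 𝓞 K) G₁ G₂ A B₁ B₂, Fm (L := L) m f₀ f₁ φ₀ φ₁ →
  (∀ i, Bc D θ (L i) (M i)) → Eg m (e3 m) G₁ A B₁ → Eg m (e3 m) G₂ (fun k => conj (A k)) B₂ →
  EQ m A φ₀ φ₁ → EK (K := K) D m A M φ₀ φ₁ →
  6 ∣ m → Sp m n n' → Sp c w w' → Squarefree c → c.Coprime (m * D) → D.Coprime m →
  (∃ s ∈ n', V (J s) = 1) → Rg c ξ → Hb J 1 n (e3 m) b → ν ∈ n' ^ 2 → ν - 1 ∈ n ^ 2 →
  ∃ α : Ideal (𝓞 K) → ℂ, HC J 1 (n' * Ideal.span {(c : 𝓞 K)}) α ∧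
    (∀ I, (Ideal.absNorm I).Coprime (m * c) → α I = b I * ξ I * e3 m (Ideal.absNorm I)) ∧
    ∀ z₀ z₁ z₂ : κ → ℂ, (∀ i, AC (cM (M i) (φ₀ i) α) (z₀ i) ∧ AC (cM (M i) (φ₁ i) α) (z₁ i) ∧
      AC (cM (M i) (cj (φ₁ i)) α) (z₂ i)) →
    ∀ (β β' : Type) [Fintype β] [Fintype β'] (R : β → Ideal (𝓞 K)) (R' : β' → Ideal (𝓞 K)),
      Ro c m R → Ro c m R' → (V (2 * π * pc J 1 (m ^ 2) c G₁ (fun I => ξ I * b I) ν R) *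
        V (2 * π * pc J 1 (m ^ 2) c G₂ (fun I => ξ I * b I) ν R')) ^ 4 *
        ∏ i, √(V (cd (f₀ i))) * Ef V m (cM (M i) (φ₀ i) α) * V (z₀ i) =
      ∏ i, √(V (cd (f₁ i))) * Ef V m (cM (M i) (φ₁ i) α) * V (z₁ i) *
        (√(V (cd (f₁ i))) * Ef V m (cM (M i) (cj (φ₁ i)) α) * V (z₂ i))

/-- the discriminant at `v` -/
def DVL : Prop := ∀ (K : Type) [Field K] [NumberField K] (ι : ℂ →+* ℂ_[3]) (J : K →+* ℂ) (Ω : ℝ)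
  (D : ℕ) (θ : 𝓞 K), Base ι J Ω → Kd J D θ → ∀ (L M : Type) [Field L] [NumberField L] [Field M]
  [NumberField M] [Algebra K M] [Algebra L M], Bc D θ L M →
  ∀ (n : ℕ) (b : Basis (Fin n) K M), Vb ι J b → dv ι J b = ‖(discr L : ℂ_[3])‖

/-- norms are one modulo three; no torsion modulo a large prime -/
def NRM : Prop := ∀ (M : Type) [Field M] [NumberField M],
  (finrank ℚ M ≤ 16 → ∀ (w : Ideal (𝓞 M)) (l : ℕ), w.IsMaximal → l.Prime → 17 < l →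
    (l : 𝓞 M) ∈ w → TF w) ∧ (Z3 M → (∀ I : Ideal (𝓞 M), (Ideal.absNorm I).Coprime 3 →
    Ideal.absNorm I % 3 = 1) ∧ ∀ (K : Type) [Field K] [NumberField K] (ι : ℂ →+* ℂ_[3])
    (J : K →+* ℂ) (Ω : ℝ) [Algebra K M], Base ι J Ω → (∀ x : 𝓞 M, Pv ι J (Ideal.span {x}) →
      ‖ι (J (Algebra.norm K (x : M))) - 1‖ ≤ 1 / 3) ∧
      ∀ u : (𝓞 M)ˣ, Algebra.norm K ((u : 𝓞 M) : M) = 1)

/-- **the conductor at `v`** -/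
def CSX : Prop := ∀ (K : Type) [Field K] [NumberField K] (ι : ℂ →+* ℂ_[3]) (J : K →+* ℂ) (Ω : ℝ)
  (D : ℕ) (θ : 𝓞 K), Base ι J Ω → Kd J D θ → ∀ (L M : Type) [Field L] [NumberField L] [Field M]
  [NumberField M] [Algebra K M] [Algebra L M], Bc D θ L M → Z3 L → ∀ f φ, Pc (M := L) f φ →
  (∀ I, φ I = 0 ∨ φ I ^ 6 = 1) → ∃ f' F : Ideal (𝓞 M), f.map (algebraMap (𝓞 L) (𝓞 M)) = f' * F ∧
    Pv ι J f' ∧ ‖(Ideal.absNorm F : ℂ_[3])‖ = ‖(Ideal.absNorm f : ℂ_[3])‖ ∧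
    ∀ (k : ℕ) (g : Ideal (𝓞 K)) α (F' : Ideal (𝓞 M)), HC J k g α → Pv ι J F' →
      F' ≤ f' * g.map (algebraMap (𝓞 K) (𝓞 M)) → HC J k (f' * F * g.map (algebraMap (𝓞 K) (𝓞 M)))
        (cM M φ α) ∧ Lc ι J k F' F (Dp F' (cM M φ α))

/-- quadratic characters are tame at three -/
def CFX : Prop := ∀ (K : Type) [Field K] [NumberField K] (ι : ℂ →+* ℂ_[3]) (J : K →+* ℂ) (Ω : ℝ)
  (D : ℕ) (θ : 𝓞 K), Base ι J Ω → Kd J D θ → ∀ (L M : Type) [Field L] [NumberField L] [Field M]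
  [NumberField M] [Algebra K M] [Algebra L M], Bc D θ L M → Z3 L → ∀ f φ, Pc (M := L) f φ →
  cj φ = φ → Tp.cf (M := M) ι J (fun I => φ (Ideal.relNorm (𝓞 L) I)) = ‖(Ideal.absNorm f : ℂ_[3])‖

/-! ### change of the weight -/

/-- two by-products of the proof of `CONG`: the value in weight one exists, integrality -/
def CGX : Prop := ∀ (K : Type) [Field K] [NumberField K] (ι : ℂ →+* ℂ_[3]) (J : K →+* ℂ) (Ω : ℝ),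
  Base ι J Ω → ∀ (M : Type) [Field M] [NumberField M] [Algebra K M] (n : ℕ)
  (b : Basis (Fin n) K M), Vb ι J b → ∀ (c : Ideal (𝓞 M)) (l : ℕ), Sm c l →
  ∀ (k : ℕ) (f F : Ideal (𝓞 M)) (a : Ideal (𝓞 M) → ℂ), Pv ι J f →
    f ⊔ Ideal.span {(l : 𝓞 M)} = ⊤ → TF f →
    (∀ u : (𝓞 M)ˣ, (u : 𝓞 M) - 1 ∈ f → Algebra.norm K ((u : 𝓞 M) : M) = 1) →
    (∃ w : Ideal (𝓞 M), w.IsMaximal ∧ f ≤ w ∧ 3 ∉ w) → Lc ι J k f F a →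
    (k = 1 → ∃ z, AC a z) ∧ (3 ≤ k → ‖ι (1 - l * a c)‖ *
      (sc Ω (dv ι J b * ‖(Ideal.absNorm F : ℂ_[3])‖) n k * ‖ι (∑' I, a I)‖) ≤ 1)

/-- **from weight `k` to weight one, with the factors at the primes of `m`** (from `CONG`, `CGX`, `NRM`) -/
def FIN : Prop := ∀ (K : Type) [Field K] [NumberField K] (ι : ℂ →+* ℂ_[3]) (J : K →+* ℂ) (Ω : ℝ)
  (V : AbsoluteValue ℂ ℝ), Base ι J Ω → (∀ z, V z = ‖ι z‖) →
  ∀ (M : Type) [Field M] [NumberField M] [Algebra K M] (n : ℕ) (b : Basis (Fin n) K M),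
  Vb ι J b → Z3 M → ∀ (k m l : ℕ) (f F₂ tS s : Ideal (𝓞 M)) (a : Ideal (𝓞 M) → ℂ) (η y : ℝ),
  3 ≤ k → 0 < m → Sm s l → Pv ι J f → f ⊔ Ideal.span {(l : 𝓞 M)} = ⊤ →
  (∃ w : Ideal (𝓞 M), w.IsMaximal ∧ f ≤ w ∧ 3 ∉ w ∧ TF w) → Lc ι J k f F₂ (Dp f a) →
  (∀ I I', a (I * I') = a I * a I') → η ≤ V (1 - l * a s) →
  (∀ w : Ideal (𝓞 M), w.IsMaximal → f ≤ w → a w = 0 ∨ tS ≤ w) →
  (∀ w : Ideal (𝓞 M), w.IsMaximal → w ⊔ f = ⊤ →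
    ((m : 𝓞 M) ∈ w ↔ Av ι J w ∨ tS ≤ w) ∧ (tS ≤ w → 3 ∉ w)) →
  y = sc Ω (dv ι J b * V (Ideal.absNorm F₂)) n k * V (∑' I, Dp tS a I) → η * y ≤ 1 ∧
  ∀ (t : ℕ) F₁ a₁ (δ : ℝ), 0 < t → 3 ∣ t → Lc ι J 1 f F₁ a₁ →
    (∀ I, (Ideal.absNorm I).Coprime t → I ⊔ f = ⊤ → V (a₁ I - a I) ≤ δ) → 1 / 3 ≤ δ → δ < η →
    (∀ w : Ideal (𝓞 M), w.IsMaximal → w ⊔ f = ⊤ → tS ≤ w → δ < V (1 - a w)) → δ < η * y →
    ∃ z, AC a₁ z ∧ sc Ω (dv ι J b * V (Ideal.absNorm F₁)) n 1 * Ef V m a₁ * V z = y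

end Vale.Agent.P014Y.Ln
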