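import Vale.Agent.P014Y.Ln.St1
import Vale.Agent.P014Y.Ln.St2

/-!
# P014 Y, block LN: the dictionary and the primes of the level
-/

set_option autoImplicit false

open NumberField Module UpperHalfPlane
open scoped Classical

noncomputable section

namespace Vale.Agent.P014Y.Ln

open Vale.Agent.P022 (Qb GQ GK below)
open Vale.Agent.P022E.GW (Ov Fb)
open P004C.Al (Gc Ic Rm)
open P004C.Wa (Kd)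
open P004C.Ln (Jc)
open P014Y.C (Av)
open P014Y.F (Crv Fld)
open P014Y.Fe (Eg)
open P014Y.Tp (G3 Rh Fam Im th ts)

/-- **ramification at three of quadratic characters is visible on the units** -/
def RMQ : Prop := ∀ (L : Type) [Field L] [NumberField L] (j : L →+* Qb) θ χ, IsEmpty (L →+* ℝ) →
  Gc j θ 2 → Ic j θ χ → ∀ P, Ov 3 P → Rm j θ P → ∀ g : Ideal (𝓞 L), g ⊔ below j P = ⊤ →
    ∃ x : 𝓞 L, x - 1 ∈ g ∧ x ∉ below j P ∧ χ (Ideal.span {x}) = -1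

/-- **from the representation to the words of the period half** (from `W1X`, `FAP`, `RMQ`, BR) -/
def DLV : Prop := ∀ (ρ : GQ → G3) (S : Finset ℕ) (R : ℕ), Rh ρ S →
  (∃ g h, ρ g * ρ h ≠ ρ h * ρ g) → (∀ l : ℕ, l.Prime → (l ∣ R ↔ l ∈ S)) → ¬ 3 ∣ R / 3 →
  ∀ (κ : Type) [Fintype κ] (x : κ → Fin 2 → ZMod 3) (L : κ → Type) [∀ i, Field (L i)]
    [∀ i, NumberField (L i)] (jL : ∀ i, L i →+* Qb), Fam ρ x jL → ∀ s : ℂ, s ^ 2 = -2 →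
  ∃ (N : ℕ) (G G' : ℍ → ℂ) (A : ℕ → ℂ) (f₀ f₁ : ∀ i, Ideal (𝓞 (L i)))
    (φ₀ φ₁ : ∀ i, Ideal (𝓞 (L i)) → ℂ), 0 < N ∧ (∀ l : ℕ, l.Prime → l ∣ N → l ∈ S) ∧
    (∀ l P g, Ov l P → l ∉ S → Fb l P g → A l = ts s (ρ g) ∧ (ρ g).det = l) ∧
    (∀ m, 0 < m → N ∣ m → (∀ l : ℕ, l.Prime → l ∣ m → l ∈ S) → ∃ B B', Eg m (e3 m) G A B ∧
      Eg m (e3 m) G' (fun k => (starRingEnd ℂ) (A k)) B') ∧
    Fm R f₀ f₁ φ₀ φ₁ ∧ (∀ i I, φ₁ i I = 0 ∨ φ₁ i I ^ 6 = 1) ∧ EQ R A φ₀ φ₁ ∧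
    ∀ (K : Type) [Field K] [NumberField K] (j : K →+* Qb) (D : ℕ) (θ : 𝓞 K), Kd (Jc j) D θ →
      D.Coprime R → Im j ρ → ∀ (M : κ → Type) [∀ i, Field (M i)] [∀ i, NumberField (M i)]
      [∀ i, Algebra K (M i)] [∀ i, Algebra (L i) (M i)] (jM : ∀ i, M i →+* Qb),
      (∀ i, Tp.Cp j (jL i) (jM i)) → (∀ i, Bc D θ (L i) (M i)) ∧ EK (K := K) D R A M φ₀ φ₁ ∧
        ∀ i ψ, Ic (jM i) (fun g => th 0 (ρ g)) ψ → ∀ I : Ideal (𝓞 (M i)),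
          (Ideal.absNorm I).Coprime (R / 3) → ψ I = φ₀ i (Ideal.relNorm (𝓞 (L i)) I)

/-- the primes of `m` and of the level ideal -/
def PRM : Prop := ∀ (e : Crv) (b : Fld e) ι V, Pl ι V (e.P 3) → ∀ (m : ℕ) n n' ν, Lv b m n n' ν →
  e.S.prod ∣ m → (∀ p : ℕ, p.Prime → p ∣ m → p ∈ e.S) → (∃ s ∈ n', V (Jc b.j s) = 1) ∧
  P004K.Cn m n ∧ (∀ x ∈ n, V (Jc b.j x) < 1) ∧
  (∀ I, P004K.Cop m I → I ≠ ⊥ ∧ I ⊔ n = ⊤ ∧ ∃ s ∈ I, V (Jc b.j s) = 1) ∧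
  (∀ I : Ideal (𝓞 b.K), (Ideal.absNorm I).Coprime m → P004K.Cop m I) ∧
  ∀ (M : Type) [Field M] [NumberField M] [Algebra b.K M] (w : Ideal (𝓞 M)), w.IsMaximal →
    (n'.map (algebraMap (𝓞 b.K) (𝓞 M)) ≤ w → (tS b).map (algebraMap (𝓞 b.K) (𝓞 M)) ≤ w) ∧
    (∀ p ∈ e.S, p.Prime → (p : 𝓞 M) ∈ w →
      Av ι (Jc b.j) w ∨ (tS b).map (algebraMap (𝓞 b.K) (𝓞 M)) ≤ w) ∧
    (((e.S.prod / 3 : ℕ) : 𝓞 M) ∈ w → (tS b).map (algebraMap (𝓞 b.K) (𝓞 M)) ≤ w) ∧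
    (¬ n'.map (algebraMap (𝓞 b.K) (𝓞 M)) ≤ w →
      ((m : 𝓞 M) ∈ w ↔ Av ι (Jc b.j) w ∨ (tS b).map (algebraMap (𝓞 b.K) (𝓞 M)) ≤ w) ∧
      ((tS b).map (algebraMap (𝓞 b.K) (𝓞 M)) ≤ w → 3 ∉ w ∧ ((e.S.prod / 3 : ℕ) : 𝓞 M) ∈ w))

end Vale.Agent.P014Y.Ln
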