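import Vale.Agent.P014Y.Ln.St0
import Vale.Agent.P004C.Ln.Lkg
import Vale.Agent.P004C.Wa.Fri

/-! # P014 Y, block LN: the Hasse invariant at three -/

set_option autoImplicit false
set_option linter.all false

open UpperHalfPlane hiding I
open CongruenceSubgroup ModularForm PowerSeries NumberField
open scoped MatrixGroups Classical ComplexConjugate Real NumberTheorySymbols

noncomputable section

namespace Vale.Agent.P014Y.Ln.Vl3

open Vale.Agent.P022 P027H P027M.M P004K Vale.Agent.P022.H218.L3 Vale.Agent.P022.H236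
  Vale.Agent.P022.H236.L3 Vale.Agent.P022.H542.L3 Vale.Agent.P022D.Irr P004Z.Fin
  Vale.Agent.P022.H231.L3 P004F.Qx
open P004Z.EF (Val)
open P004Z (evq disc)
open P004C.Wa (MW QE jj)
open P004C.Lk (g2_hom)
open P004C.Ln.Lg (bdd_pow law_iff cop_d)

variable {V : AbsoluteValue ℂ ℝ}

/-- `x ≡ y` modulo `3 y` -/
def Rl (V : AbsoluteValue ℂ ℝ) (x y : ℂ) : Prop := V (x - y) ≤ V 3 * V y

theorem Rl.eq (h : Ov V 3) {x y : ℂ} (k : Rl V x y) : V x = V y := by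
  by_cases y0 : y = 0
  · subst y0
    rw [Rl, map_zero, mul_zero, sub_zero] at k
    rw [le_antisymm k (V.nonneg _), map_zero]
  have := h.add_eq (k.trans_lt (mul_lt_of_lt_one_left (V.pos y0) (by simpa using h.lt)))
  rwa [sub_add_cancel] at this

theorem Rl.symm (h : Ov V 3) {x y : ℂ} (k : Rl V x y) : Rl V y x := by
  rw [Rl, V.map_sub, k.eq h]
  exact k

theorem Rl.trans (h : Ov V 3) {x y z : ℂ} (k : Rl V x y) (k' : Rl V y z) : Rl V x z := by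
  rw [Rl, ← sub_add_sub_cancel x y z]
  exact h.add_le (by rw [← k'.eq h]; exact k) k'

theorem Rl.mul {x y : ℂ} (k : Rl V x y) (c : ℂ) : Rl V (c * x) (c * y) := by
  rw [Rl, ← mul_sub, map_mul, map_mul, mul_left_comm]
  exact mul_le_mul_of_nonneg_left k (V.nonneg _)

theorem rl_int (h : Ov V 3) {a b : ℤ} (hb : ¬ 3 ∣ b) (e : 3 ∣ a - b) (x : ℂ) :
    Rl V (a * x) (b * x) := by
  obtain ⟨k, e⟩ := e
  rw [Rl, ← sub_mul, ← Int.cast_sub, e, map_mul, map_mul, h.of_ndvd hb, one_mul, Int.cast_mul,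
    map_mul, Int.cast_ofNat]
  exact mul_le_mul_of_nonneg_right (mul_le_of_le_one_right (V.nonneg _) (h.le k)) (V.nonneg _)

theorem J3 (x : ℤ) : ((J(x | 3) : ℤ) : ZMod 3) = x := by
  rw [jacobiSym.mod_left, ← ZMod.intCast_mod x 3]
  have : x % (3 : ℕ) = 0 ∨ x % (3 : ℕ) = 1 ∨ x % (3 : ℕ) = 2 := by omega
  rcases this with e | e | e <;> rw [e]
  · rw [jacobiSym.zero_left (by norm_num)]
  · rw [jacobiSym.one_left]
  · rw [show J(2 | 3) = -1 by norm_num]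
    decide

theorem z3 (x : ℤ) : (3 : ℤ) ∣ x ↔ (x : ZMod 3) = 0 := (ZMod.intCast_zmod_eq_zero_iff_dvd x 3).symm

/-- ordinary points at three -/
theorem j3 {M : ℕ} (h : Ov V 3) (d : 3 ∣ M) {D : ℤ} {τ : ℍ} (H : Ty V M D τ) : V (jf τ) = 1 := by
  obtain ⟨l, b1, b2, rfl, ⟨t, b3⟩, b4, -⟩ := Mp.form h d H
  obtain ⟨ρ, r1, r0⟩ := ex_rho
  obtain ⟨r, rfl⟩ := d
  have := r2 V 3 l (1, 1, 1) τ ρ 1 (disc l) l.2.1 h b1 (by simp) b2 (by simpa [evq] using r1)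
    (fun ⟨x, hx⟩ => by
      have k : ∀ a b c : ZMod 9, (a ^ 2 - 3 * b) * -3 = c * c → 3 * a = 0 := by decide
      have : (l.2.1 ^ 2 - 3 * (4 * r * t * l.2.2)) * -3 = x * x := by
        rw [← hx, disc, disc, b3]
        push_cast
        ring
      have := k l.2.1 (4 * r * t * l.2.2 : ℤ) x (by
        exact_mod_cast congrArg (Int.cast : ℤ → ZMod 9) this)
      have := (ZMod.intCast_zmod_eq_zero_iff_dvd (3 * l.2.1) 9).1 (by exact_mod_cast this)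
      omega) (by ring)
    ⟨r * t * l.2.2, by rw [disc, b3]; push_cast; ring⟩ b4
  rw [r0, sub_zero] at this
  exact (h.cm (disc_neg b1 b2) b2).antisymm this

theorem E4_ser : ∃ F G : ℤ⟦X⟧, ls 0 (toCi E4i) * ls 0 (toCi G) = 1 ∧
    ls 0 (toCi E4i) = 1 + HahnSeries.C 3 * ls 0 (toCi F) := by
  refine ⟨PowerSeries.mk fun n => if n = 0 then 0 else 80 * (ArithmeticFunction.sigma 3 n : ℤ),
    E4i.invOfUnit 1, ?_, ?_⟩
  · rw [ls_mul, ← map_mul, mul_invOfUnit _ _ (by simp [E4i]), map_one, add_zero, ls_zero_one]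
  · rw [← ls_C, ls_mul, ← ls_zero_one, add_zero, ls_add]
    congr 1
    ext n
    simp only [map_add, coeff_C_mul, coeff_map, E4i, coeff_mk, coeff_one]
    split_ifs <;> simp
    ring

theorem E4_ne' (h : Ov V 3) {M : ℕ} (d : 3 ∣ M) {D : ℤ} {τ : ℍ} (H : Ty V M D τ) : E₄ τ ≠ 0 :=
  fun z => by simpa [jf, z] using j3 h d H

/-- forms with small coefficients are small at ordinary points -/
theorem small (h : Ov V 3) {M : ℕ} (M0 : 0 < M) (d : 3 ∣ M) {g : ℍ → ℂ}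
    (hg : IsMF (Gamma0 M) 4 g) {t : LS} (ht : ExL 1 (HahnSeries.C 3 * t) g)
    (hi : t ∈ Int (vO h.na)) {D : ℤ} {τ : ℍ} (H : Ty V M D τ) : V (g τ) ≤ V 3 * V (E₄ τ) := by
  have c0 : (3 : ℂ) ≠ 0 := three_ne_zero
  have vp := V.pos c0
  have hE := isMF_E4.mono (le_top (a := Gamma0 M))
  have n0 := E4_ne' h d H
  have E0 : (E₄ : ℍ → ℂ) ≠ 0 := fun z => n0 (congrFun z τ)
  obtain ⟨F, G, e1, -⟩ := E4_ser
  have m1 := mul_mem ((MF (Gamma0 M)).algebraMap_mem 3⁻¹) (mem_MF.2 ⟨_, _, _, hg, hE, E0, rfl⟩)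
  have x2 := (ExM.const 1 3⁻¹).mul (ExL.exM hg.hol hE.hol E0 ht exL_E4_one)
  have f1 : (fun τ => E₄ τ ^ 2 / discriminant τ) ∈ Hol :=
    MDifferentiable.div (isMF_E4.pow 2).hol isMF_disc.hol discriminant_ne_zero
  have e3 : jM = inc _ isMF_E4.hol * inc _ f1 := by
    rw [← inc_mul, jM]
    refine inc_congr _ (funext fun τ => ?_)
    simp only [jf, Pi.mul_apply]
    ring
  obtain ⟨r, r1, r2⟩ := mpf h M0 d m1 x2 ((mem_Int (O := vO h.na)).1 (by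
      have := mul_mem hi (int_ls G)
      rwa [div_eq_mul_inv, ← eq_inv_of_mul_eq_one_right e1, ← mul_assoc, ← mul_assoc, ← map_mul,
        inv_mul_cancel₀ c0, map_one, one_mul]))
    (P := Polynomial.X) Polynomial.X_ne_zero
    (f := algebraMap ℂ Hol 3⁻¹ * ⟨g, hg.hol⟩ * ⟨_, f1⟩) (by
      have := inc_ne_zero isMF_E4.hol E4_ne
      rw [Polynomial.aeval_X, e3, P022K.F0.Cf.jm, map_mul, map_mul,
        ← IsScalarTower.algebraMap_apply]
      show _ = _ * inc g hg.hol * inc _ f1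
      field_simp) H fun b hb => by
      rw [show b = 0 by simpa using hb, sub_zero, j3 h d H]
  have w2 : Val τ (inc _ hg.hol / inc _ hE.hol) (g τ / E₄ τ) :=
    ⟨⟨_, hg.hol⟩, ⟨_, hE.hol⟩, n0, div_mul_cancel₀ _ (inc_ne_zero hE.hol E0),
      (div_mul_cancel₀ _ n0).symm⟩
  rwa [Vl.uniq r2 (Vl.mul (Vl.const τ 3⁻¹) w2), map_mul, map_inv₀, inv_mul_le_one₀ vp, map_div₀,
    div_le_iff₀ (V.pos n0)] at r1

/-- the form of level three with its expansion -/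
structure Eh (H : ℍ → ℂ) (F : ℤ⟦X⟧) : Prop where
  mw : MW 3 (fun d => (J(d | 3) : ℂ)) H
  ex : ExL 1 (1 + HahnSeries.C 3 * ls 0 (toCi F)) H

theorem exl {G : ℍ → ℂ} {A : ℕ → ℂ} (h : QE G A) : ExL 1 (ls 0 (PowerSeries.mk A)) G := by
  rw [ls]
  refine (one_mul (HahnSeries.ofPowerSeries ℤ ℂ (PowerSeries.mk A))).symm ▸
    exL_of_hasSum (a := A) fun τ => (h τ).congr_fun fun n => ?_
  rw [Function.Periodic.qParam, ← Complex.exp_nat_mul, P004C.Wa.ee]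
  congr 2
  push_cast
  ring

theorem ex_eh (h : EIS) : ∃ H F, Eh H F := by
  obtain ⟨H, c, h1, h2⟩ := h
  refine ⟨H, PowerSeries.mk c, h1, ?_⟩
  convert exl h2 using 1
  rw [← ls_C, ls_mul, ← ls_zero_one, add_zero, ls_add]
  congr 1
  ext n
  simp only [map_add, coeff_C_mul, coeff_map, coeff_mk, coeff_one, eq_intCast]

variable {H : ℍ → ℂ} {F : ℤ⟦X⟧}

theorem mono {N N' : ℕ} {ε : ℤ → ℂ} {g : ℍ → ℂ} (h : MW N ε g) (d : N ∣ N') : MW N' ε g :=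
  ⟨h.hol, fun γ k => h.law γ (P004K.mem_G0.2 ((Int.natCast_dvd_natCast.2 d).trans
    (P004K.mem_G0.1 k))), h.bdd⟩

theorem mf4 (E : Eh H F) {N : ℕ} {ε : ℤ → ℂ} {g : ℍ → ℂ} (h : MW N ε g) (d : 3 ∣ N)
    (e : ∀ γ ∈ Gamma0 N, ε (γ 1 1) = J(γ 1 1 | 3)) : IsMF (Gamma0 N) 4 (g * H ^ 3) := by
  have b := Bdd.mul (k := 1) (⟨h.hol, h.bdd⟩ : Bdd 1 g) (bdd_pow (⟨E.mw.hol, E.mw.bdd⟩ : Bdd 1 H) 3)
  refine Bdd.isMF b fun γ k => (law_iff (k := 4)).2 fun τ => ?_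
  obtain ⟨c, hc⟩ := (Int.natCast_dvd_natCast.2 d).trans (P004K.mem_G0.1 k)
  have s : (J(γ 1 1 | 3) : ℂ) ^ 2 = 1 := by
    exact_mod_cast jacobiSym.sq_one (Int.isCoprime_iff_gcd_eq_one.1
      ⟨γ 0 0, -(γ 0 1 * c), by linear_combination det_eq γ + γ 0 1 * hc⟩)
  rw [Pi.mul_apply, Pi.mul_apply, Pi.pow_apply, Pi.pow_apply, h.law γ k, (mono E.mw d).law γ k,
    e γ k]
  linear_combination jj γ τ ^ 4 * (g τ * H τ ^ 3) * ((J(γ 1 1 | 3) : ℂ) ^ 2 + 1) * s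

theorem t_int {O : ValuationSubring ℂ} (F : ℤ⟦X⟧) : 1 + HahnSeries.C 3 * ls 0 (toCi F) ∈ Int O :=
  add_mem (one_mem _) (mul_mem (C_mem (by exact_mod_cast natCast_mem O 3)) (int_ls F))

/-- `H ^ 4 ≡ E₄` -/
theorem h4 (h : Ov V 3) (E : Eh H F) {M : ℕ} (M0 : 0 < M) (d : 3 ∣ M) {D : ℤ} {τ : ℍ}
    (T : Ty V M D τ) : Rl V (H τ ^ 4) (E₄ τ) := by
  obtain ⟨F', G, -, e2⟩ := E4_ser
  obtain ⟨a, ha⟩ := sub_dvd_pow_sub_pow (⟨_, t_int F⟩ : Int (vO h.na)) 1 4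
  have ha' : (1 + HahnSeries.C 3 * ls 0 (toCi F)) ^ 4 - 1 ^ 4 =
      (1 + HahnSeries.C 3 * ls 0 (toCi F) - 1) * a.1 := congrArg Subtype.val ha
  have := small h M0 d ((mf4 E (mono E.mw d) d fun _ _ => rfl).sub (isMF_E4.mono le_top))
    (t := ls 0 (toCi F) * a.1 - ls 0 (toCi F')) (by
      convert (E.ex.mul (E.ex.pow 3)).sub exL_E4_one using 1
      rw [e2]
      linear_combination -ha') (sub_mem (mul_mem (int_ls F) a.2) (int_ls F')) T
  rwa [Pi.sub_apply, Pi.mul_apply, Pi.pow_apply, ← pow_succ'] at this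

theorem h_ne (h : Ov V 3) (E : Eh H F) {M : ℕ} (M0 : 0 < M) (d : 3 ∣ M) {D : ℤ} {τ : ℍ}
    (T : Ty V M D τ) : H τ ≠ 0 := fun z => E4_ne' h d T (by
  simpa [z] using ((h4 h E M0 d T).eq h).symm)

/-- the type is kept by upper triangular matrices of determinant prime to three -/
theorem ty_up (h : Ov V 3) {D : ℤ} {τ τ' : ℍ} (H : Ty V 3 D τ) {a b d : ℤ} (ha : ¬ 3 ∣ a)
    (hd : ¬ 3 ∣ d) (e : (d : ℂ) * τ' = a * τ + b) : ∃ D', Ty V 3 D' τ' := by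
  obtain ⟨m, n, m', n', β, h1, h2, h3, -⟩ := H
  have d0 : (d : ℂ) ≠ 0 := fun z => by simpa [z] using h.of_ndvd hd
  refine ⟨_, d * (m * a + m' * b), a * a * n + a * b * n' - 3 * m * a * b - 3 * m' * b * b,
    m' * d * d, d * (a * n' - 3 * m' * b), a * d * β, mul_left_cancel₀ d0 ?_, ?_, ?_, rfl⟩
  · push_cast at h1 h2 ⊢
    linear_combination (a * d * β - 3 * d * (m * a + m' * b)) * e + a * a * d * h1 + a * b * d * h2
  · push_cast at h1 h2 ⊢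
    linear_combination a * d * h2 - 3 * m' * d * e
  · rw [map_mul, map_mul, h.of_ndvd ha, h.of_ndvd hd, h3, mul_one, mul_one]

theorem h_mul (h : Ov V 3) (E : Eh H F) {D : ℤ} {τ τ' : ℍ} (T : Ty V 3 D τ) {n : ℕ}
    (hn : ¬ (3 : ℤ) ∣ n) (e : (τ' : ℂ) = n * τ) : Rl V (H τ') (H τ) := by
  have a := (h4 h E three_pos dvd_rfl T).eq h
  have a0 := V.pos (h_ne h E three_pos dvd_rfl T)
  obtain ⟨m, k, m', k', β, h1, h2, h3, -⟩ := T
  have n0 : 0 < n := Nat.pos_of_ne_zero fun z => hn (by simp [z])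
  have u : ∀ σ : ℍ, ((ofComplex (n * σ) : ℍ) : ℂ) = n * σ := fun σ => by
    rw [ofComplex_apply_of_im_pos (by simpa using mul_pos (Nat.cast_pos.2 n0) σ.im_pos)]
  have d := dvd_mul_right 3 n
  have := small h (M := 3 * n) (by omega) d
    ((mf4 E (P004C.Wa.Fi.mw_up E.mw n0) d fun _ _ => rfl).sub (mf4 E (mono E.mw d) d fun _ _ => rfl))
    (t := (sb n n0 (ls 0 (toCi F)) - ls 0 (toCi F)) * (1 + HahnSeries.C 3 * ls 0 (toCi F)) ^ 3) (by
      have := ((E.ex.mulTau n0 u).mul (E.ex.pow 3)).sub (E.ex.mul (E.ex.pow 3))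
      rw [map_add, map_one, map_mul, sb_C, ← sub_mul, add_sub_add_left_eq_sub, ← mul_sub,
        mul_assoc] at this
      exact this)
    (mul_mem (sub_mem ((sb_int n0).2 (int_ls F)) (int_ls F)) (pow_mem (t_int F) 3))
    (τ := τ) ⟨m, n * k, m', n * k', n * β, by push_cast at h1 ⊢; linear_combination n * h1,
      by push_cast at h2 ⊢; linear_combination n * h2,
      by rw [map_mul, h3, mul_one]; simpa using h.of_ndvd hn, rfl⟩
  rw [Pi.sub_apply, Pi.mul_apply, Pi.mul_apply, P004C.Wa.up, ← e, ofComplex_apply, ← sub_mul, ← a,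
    Pi.pow_apply, map_mul, map_pow, map_pow, pow_succ' _ 3, ← mul_assoc] at this
  exact le_of_mul_le_mul_right this (pow_pos a0 3)

theorem h_up (h : Ov V 3) (E : Eh H F) {D : ℤ} {τ τ' : ℍ} (T : Ty V 3 D τ) {a d : ℕ} {b : ℤ}
    (ha : ¬ (3 : ℤ) ∣ a) (hd : ¬ (3 : ℤ) ∣ d) (e : (d : ℂ) * τ' = a * τ + b) :
    Rl V (H τ') (H τ) := by
  have a0 : 0 < a := Nat.pos_of_ne_zero fun z => ha (by simp [z])
  have d0 : 0 < d := Nat.pos_of_ne_zero fun z => hd (by simp [z])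
  obtain ⟨D', H'⟩ := ty_up h T ha hd (τ' := τ') (b := b) (by exact_mod_cast e)
  have k1 := h_mul h E T ha (H236.L3.dg_coe a0 τ)
  have k2 := h_mul h E H' hd (H236.L3.dg_coe d0 τ')
  have e1 : gl _ (diag_pos d0) • τ' = ModularGroup.T ^ b • gl _ (diag_pos a0) • τ :=
    UpperHalfPlane.ext (by
      rw [ModularGroup.coe_T_zpow_smul_eq, H236.L3.dg_coe d0, H236.L3.dg_coe a0, e])
  rw [e1, E.mw.law _ (P004K.mem_G0.2 (by simp [ModularGroup.coe_T_zpow])), jj,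
    ModularGroup.coe_T_zpow] at k2
  simp only [Matrix.of_apply, Matrix.cons_val', Matrix.cons_val_zero, Matrix.cons_val_one,
    Matrix.cons_val_fin_one, Int.cast_zero, Int.cast_one, zero_mul, zero_add, jacobiSym.one_left,
    one_mul] at k2
  exact (k2.symm h).trans h k1

/-- a basis adapted to the level three structure -/
theorem ex_ty (h : Ov V 3) {Λ : Submodule ℤ ℂ} (hΛ : IsLat Λ) {β : ℂ} (h1 : V β = 1)
    (h2 : V (conj β) < 1) (h3 : ∀ z ∈ Λ, β * z ∈ Λ) : ∃ (ω : ℂ) (τ : ℍ) (m n m' n' : ℤ),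
    Hom ω (lat τ) Λ ∧ β * τ = m * (3 : ℕ) * τ + n ∧ β = m' * (3 : ℕ) * τ + n' := by
  obtain ⟨ω, τ, k⟩ := ex_lat hΛ
  have m : ∀ z ∈ lat τ, β * z ∈ lat τ := fun z hz =>
    (k.2 _).2 (mem_of_eq (h3 _ ((k.2 _).1 hz)) (by ring))
  obtain ⟨a, b, e1⟩ := mem_lat.1 (m _ (tau_lat τ))
  obtain ⟨c, d, e2⟩ := mem_lat.1 (m _ (one_lat τ))
  rw [mul_one] at e2
  have q : (β - a) * (β - d) = b * c := by linear_combination -(β - a) * e2 - c * e1
  have q' : (conj β - a) * (conj β - d) = b * c := by simpa using congrArg conj q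
  have ne : β - conj β ≠ 0 := fun z => by
    rw [← sub_eq_zero.1 z, h1] at h2
    exact h2.false
  have t : β + conj β = a + d := mul_left_cancel₀ ne (by linear_combination q - q')
  have ev : (3 : ℤ) ∣ a * d - b * c := by_contra fun z => by
    have := h.of_ndvd z
    rw [show ((a * d - b * c : ℤ) : ℂ) = β * conj β by
      push_cast; linear_combination q - β * t, map_mul, h1, one_mul] at this
    exact h2.ne this
  have key : ∀ γ : SL(2, ℤ), (3 : ℤ) ∣ a * γ 1 1 - b * γ 1 0 → (3 : ℤ) ∣ c * γ 1 1 - d * γ 1 0 →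
      ∃ (ω : ℂ) (τ : ℍ) (m n m' n' : ℤ), Hom ω (lat τ) Λ ∧ β * τ = m * (3 : ℕ) * τ + n ∧
        β = m' * (3 : ℕ) * τ + n' := fun γ ⟨x, hx⟩ ⟨y, hy⟩ => by
    have e := P004K.coe_smul γ τ
    have hd : (γ 0 0 : ℂ) * γ 1 1 - γ 0 1 * γ 1 0 = 1 := by exact_mod_cast det_eq γ
    have hx' : (a : ℂ) * γ 1 1 - b * γ 1 0 = 3 * x := by exact_mod_cast hx
    have hy' : (c : ℂ) * γ 1 1 - d * γ 1 0 = 3 * y := by exact_mod_cast hy
    refine ⟨_, _, γ 0 0 * x + γ 0 1 * y,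
      γ 0 0 * (b * γ 0 0 - a * γ 0 1) + γ 0 1 * (d * γ 0 0 - c * γ 0 1), γ 1 0 * x + γ 1 1 * y,
      γ 1 0 * (b * γ 0 0 - a * γ 0 1) + γ 1 1 * (d * γ 0 0 - c * γ 0 1), (hom_smul γ τ).trans k,
      mul_left_cancel₀ (den_ne γ τ) ?_, mul_left_cancel₀ (den_ne γ τ) ?_⟩
    · push_cast
      linear_combination (β - 3 * (γ 0 0 * x + γ 0 1 * y)) * e - γ 0 0 * e1 - γ 0 1 * e2 -
        (γ 0 0 * (a * τ + b) + γ 0 1 * (c * τ + d)) * hd +
        (γ 0 0 * τ + γ 0 1) * (γ 0 0 * hx' + γ 0 1 * hy')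
    · push_cast
      linear_combination (- 3 * (γ 1 0 * x + γ 1 1 * y)) * e - γ 1 0 * e1 - γ 1 1 * e2 -
        (γ 1 0 * (a * τ + b) + γ 1 1 * (c * τ + d)) * hd +
        (γ 0 0 * τ + γ 0 1) * (γ 1 0 * hx' + γ 1 1 * hy')
  have k3 : (3 ∣ a ∧ 3 ∣ c) ∨ (3 ∣ b ∧ 3 ∣ d) ∨ (3 ∣ a + b ∧ 3 ∣ c + d) ∨
      (3 ∣ a - b ∧ 3 ∣ c - d) := by
    have : ∀ a b c d : ZMod 3, a * d - b * c = 0 → (a = 0 ∧ c = 0) ∨ (b = 0 ∧ d = 0) ∨
      (a + b = 0 ∧ c + d = 0) ∨ (a - b = 0 ∧ c - d = 0) := by decide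
    simp only [z3] at ev ⊢
    push_cast at ev ⊢
    exact this _ _ _ _ ev
  rcases k3 with ⟨x, y⟩ | ⟨x, y⟩ | ⟨x, y⟩ | ⟨x, y⟩
  · exact key 1 (by simpa using x) (by simpa using y)
  · exact key ModularGroup.S (by simpa [ModularGroup.S] using x) (by simpa [ModularGroup.S] using y)
  · exact key ⟨!![1, 0; -1, 1], by simp [Matrix.det_fin_two]⟩ (by simpa using x) (by simpa using y)
  · exact key ⟨!![1, 0; 1, 1], by simp [Matrix.det_fin_two]⟩ (by simpa using x) (by simpa using y)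

/-- the size of the value at an ordinary lattice -/
theorem size (h : Ov V 3) (E : Eh H F) {Λ : Submodule ℤ ℂ} {ω : ℂ} {τ : ℍ} {D : ℤ}
    (k : Hom ω (lat τ) Λ) (hΛ : IsLat Λ) (T : Ty V 3 D τ) :
    V (2 * π * (H τ / ω)) ^ 12 = V (g2 Λ ^ 3 - 27 * g3 Λ ^ 2) := by
  have := j3 h dvd_rfl T
  have d0 : g2 Λ ^ 3 - 27 * g3 Λ ^ 2 ≠ 0 := fun z => hΛ.disc_ne (by linear_combination -z / 16)
  rw [← jL_lat, ← jL_hom k (isLat τ), jL, map_div₀, div_eq_one_iff_eq (V.pos d0).ne'] at this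
  rw [← this, show 1728 * g2 Λ ^ 3 = (12 * g2 Λ) ^ 3 by ring, g2_hom k, map_pow,
    ← (((h4 h E three_pos dvd_rfl T).mul _).eq h), ← map_pow, ← map_pow]
  congr 1
  ring

/-- **the Hasse invariant with its sign** -/
theorem has3 (h : Ov V 3) (E : Eh H F) {Λ Λ' : Submodule ℤ ℂ} {ω ω' : ℂ} {τ τ' : ℍ} {D : ℤ}
    (k : Hom ω (lat τ) Λ) (k' : Hom ω' (lat τ') Λ') (T : Ty V 3 D τ) {n s s' : ℤ} (hn : ¬ 3 ∣ n)
    (hs : ¬ 3 ∣ s') (l : ∀ z ∈ Λ, n * z ∈ Λ') (l' : ∀ z ∈ Λ', n * z ∈ Λ)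
    (pt : n * (s' * ω' - s * ω) / 3 ∈ Λ) :
    Rl V (J(s' | 3) * (H τ' / ω')) (J(s | 3) * (H τ / ω)) := by
  have n0 : (n : ℂ) ≠ 0 := fun z => by simpa [z] using h.of_ndvd hn
  have w0 := k.1
  have w0' := k'.1
  have m : ∀ z ∈ lat τ', ω⁻¹ * (n * (ω' * z)) ∈ lat τ := fun z hz =>
    (k.symm.2 _).1 (l' _ ((k'.2 _).1 hz))
  have m' : ∀ z ∈ lat τ, ω'⁻¹ * (n * (ω * z)) ∈ lat τ' := fun z hz =>
    (k'.symm.2 _).1 (l _ ((k.2 _).1 hz))
  obtain ⟨a, b, e1⟩ := mem_lat.1 (m _ (tau_lat τ'))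
  obtain ⟨p, q, e2⟩ := mem_lat.1 (m _ (one_lat τ'))
  obtain ⟨a', b', e3⟩ := mem_lat.1 (m' _ (tau_lat τ))
  obtain ⟨p', q', e4⟩ := mem_lat.1 (m' _ (one_lat τ))
  obtain ⟨x, y, e7⟩ := mem_lat.1 ((k.symm.2 _).1 pt)
  obtain ⟨c, hc⟩ : ∃ c, c = ω⁻¹ * n * ω' := ⟨_, rfl⟩
  have c0 : c ≠ 0 := by rw [hc]; exact mul_ne_zero (mul_ne_zero (inv_ne_zero w0) n0) w0'
  have e1' : (a : ℂ) * τ + b = c * τ' := by rw [e1, hc]; ring
  have e2' : (p : ℂ) * τ + q = c := by rw [e2, hc]; ring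
  have e3' : c * (a' * τ' + b') = n * n * τ := by rw [e3, hc]; field_simp
  have e4' : c * (p' * τ' + q') = n * n := by rw [e4, hc]; field_simp
  have e7' : 3 * ((x : ℂ) * τ + y) = s' * c - n * s := by rw [e7, hc]; field_simp
  obtain ⟨f1, f2⟩ := lin_inj (τ := τ) (a := a' * a + b' * p) (b := a' * b + b' * q) (a' := n * n)
    (b' := 0) (by push_cast; linear_combination a' * e1' + b' * e2' + e3')
  obtain ⟨f3, f4⟩ := lin_inj (τ := τ) (a := p' * a + q' * p) (b := p' * b + q' * q) (a' := 0)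
    (b' := n * n) (by push_cast; linear_combination p' * e1' + q' * e2' + e4')
  obtain ⟨f5, f6⟩ := lin_inj (τ := τ) (a := s' * p) (b := s' * q - n * s) (a' := 3 * x)
    (b' := 3 * y) (by push_cast; linear_combination s' * e2' - e7')
  have p3 : Prime (3 : ℤ) := Int.prime_three
  have od : ¬ 3 ∣ a * q - b * p := fun z => by
    have := z.mul_right (a' * q' - b' * p')
    rw [show (a * q - b * p) * (a' * q' - b' * p') = n ^ 4 by
      linear_combination (p' * b + q' * q) * f1 + n * n * f4 - (p' * a + q' * p) * f2] at this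
    exact hn (p3.dvd_of_dvd_pow this)
  have e5 : (τ' : ℂ) * (Complex.normSq c : ℝ) = (a * τ + b) * conj ((p : ℂ) * τ + q) := by
    rw [e1', e2', ← Complex.mul_conj]
    ring
  have e6 := congrArg Complex.im e5
  simp only [Complex.mul_im, Complex.ofReal_re, Complex.ofReal_im, Complex.add_re, Complex.add_im,
    Complex.mul_re, Complex.conj_re, Complex.conj_im, Complex.intCast_re, Complex.intCast_im,
    coe_im, coe_re] at e6
  have pos : (0 : ℝ) < ((a * q - b * p : ℤ) : ℝ) := by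
    have h1 := mul_pos τ'.im_pos (Complex.normSq_pos.2 c0)
    refine pos_of_mul_pos_left (b := τ.im) (lt_of_lt_of_eq h1 ?_) τ.im_pos.le
    push_cast
    linear_combination e6
  obtain ⟨γ, u, d, v, u0, d0, e⟩ := Pbm.hermite !![a, b; p, q] (by
    rw [Matrix.det_fin_two_of]; exact_mod_cast pos)
  have dt := congrArg Matrix.det e
  rw [Matrix.det_mul, γ.det_coe, Matrix.det_fin_two_of, Matrix.det_fin_two_of, one_mul, mul_zero,
    sub_zero] at dt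
  have o1 : ¬ (3 : ℤ) ∣ u := fun z => od (dt ▸ z.mul_right _)
  have o2 : ¬ (3 : ℤ) ∣ d := fun z => od (dt ▸ z.mul_left _)
  have g1 : a = γ 0 0 * u := by simpa [Matrix.mul_apply] using congrFun (congrFun e 0) 0
  have g2' : b = γ 0 0 * v + γ 0 1 * d := by simpa [Matrix.mul_apply] using congrFun (congrFun e 0) 1
  have g3' : p = γ 1 0 * u := by simpa [Matrix.mul_apply] using congrFun (congrFun e 1) 0
  have g4 : q = γ 1 0 * v + γ 1 1 * d := by simpa [Matrix.mul_apply] using congrFun (congrFun e 1) 1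
  have s1 := P004K.coe_smul γ⁻¹ τ'
  have hd : (γ 0 0 : ℂ) * γ 1 1 - γ 0 1 * γ 1 0 = 1 := by exact_mod_cast det_eq γ
  subst g1 g2' g3' g4
  have lv : (3 : ℤ) ∣ γ 1 0 :=
    (p3.dvd_or_dvd ((p3.dvd_or_dvd (Dvd.intro _ f5.symm)).resolve_left hs)).resolve_right o1
  have s4 := E.mw.law γ⁻¹ (inv_mem (P004K.mem_G0.2 lv)) τ'
  simp only [jj, Matrix.SpecialLinearGroup.coe_inv, Matrix.adjugate_fin_two, Matrix.of_apply,
    Matrix.cons_val', Matrix.cons_val_zero, Matrix.cons_val_one, Matrix.cons_val_fin_one,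
    Int.cast_neg] at s1 s4
  push_cast at e1' e2'
  have j1 : c * (-γ 1 0 * τ' + γ 0 0) = d := by
    linear_combination γ 1 0 * e1' - γ 0 0 * e2' + d * hd
  have j2 : (d : ℂ) * (γ⁻¹ • τ' : ℍ) = u * τ + v := by
    linear_combination c * s1 - (γ⁻¹ • τ' : ℍ) * j1 - γ 1 1 * e1' + γ 0 1 * e2' + (u * τ + v) * hd
  have r := (h_up h E T o1 o2 j2).mul (J(s | 3) / ω)
  have key : ∀ s' n s g0 g1 d : ZMod 3, s' * (g1 * d) - n * s = 0 → g0 * g1 = 1 → n ≠ 0 → d ≠ 0 →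
    s' ≠ 0 → s * g0 * d - n * s' = 0 ∧ n * s' ≠ 0 := by decide
  have z := (z3 _).1 lv
  have k1 := key s' n s (γ 0 0) (γ 1 1) d (by
      have := (z3 _).1 (Dvd.intro _ f6.symm)
      push_cast at this
      rwa [z, zero_mul, zero_add] at this) (by
      have := congrArg (Int.cast : ℤ → ZMod 3) (det_eq γ)
      push_cast at this
      rwa [z, mul_zero, sub_zero] at this) (mt (z3 _).2 hn)
    (by exact_mod_cast mt (z3 _).2 o2) (mt (z3 _).2 hs)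
  have r2 := (rl_int h (a := J(s | 3) * J(γ 0 0 | 3) * d) (b := n * J(s' | 3))
    (mt (z3 _).1 (by push_cast; rw [J3]; exact k1.2))
    ((z3 _).2 (by push_cast; rw [J3, J3, J3]; exact k1.1)) (H τ' / ω')).mul (n : ℂ)⁻¹
  refine Rl.trans h ?_ (by convert r using 1; ring)
  convert r2.symm h using 1
  · push_cast
    field_simp
  · rw [s4]
    push_cast
    rw [← j1, hc]
    field_simp

end Vale.Agent.P014Y.Ln.Vl3
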